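import Crest.Agent.N207.P.H0

-- ▼ part N207/P/St
section

/-!
# Row 207, parabolic solver (helper11): local classes and the statements on a manifold

* `Yl I U m f` : the spatial jets of `f` up to order `m` are jointly continuous on `I × U`, the top
  ones are locally `1/2`-Hoelder in space, uniformly in `t ∈ I`;
* `RegStmt` : (REG) local smoothness up to the initial time;
* `QLOp` : an operator on functions `M → V` which is quasilinear parabolic in every chart;
* `QLStmt`, `LinStmt` : short time existence, existence for linear operators.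
-/

set_option autoImplicit false

open Set
open scoped ContDiff Manifold

noncomputable section

namespace Crest.Agent.N207.P

section loc

variable {n : ℕ} {V : Type*} [NormedAddCommGroup V] [NormedSpace ℝ V]

/-- the first partial derivatives -/
def d1 (u : En n → V) (y : En n) : Fin n → V := fun k => pd k u y

/-- local Hoelder classes -/
def Yl (I : Set ℝ) (U : Set (En n)) : ℕ → (ℝ → En n → V) → Prop
  | 0, f => ContinuousOn (fun q : ℝ × En n => f q.1 q.2) (I ×ˢ U) ∧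
      ∀ y0 ∈ U, ∃ r : ℝ, 0 < r ∧ ∃ K : ℝ, ∀ t ∈ I, ∀ y ∈ Metric.ball y0 r,
        ∀ y' ∈ Metric.ball y0 r, ‖f t y - f t y'‖ ≤ K * √(dist y y')
  | m + 1, f => ContinuousOn (fun q : ℝ × En n => f q.1 q.2) (I ×ˢ U) ∧
      (∀ t ∈ I, ∀ y ∈ U, DifferentiableAt ℝ (f t) y) ∧ ∀ k, Yl I U m (fun t => pd k (f t))

end loc

/-- (LREG): one more derivative for a linear equation -/
def LRegStmt (n : ℕ) (V : Type*) [NormedAddCommGroup V] [NormedSpace ℝ V] : Prop :=
  ∀ (a b : ℝ) (U : Set (En n)) (A : ℝ → En n → Matrix (Fin n) (Fin n) ℝ) (f u : ℝ → En n → V),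
    a < b → IsOpen U → (∀ k l, Yl (Icc a b) U 1 (fun t y => A t y k l)) →
    (∀ t ∈ Icc a b, ∀ y ∈ U, (A t y).PosDef) → Yl (Icc a b) U 1 f → Yl (Icc a b) U 2 u →
    ContDiffOn ℝ ∞ (u a) U →
    (∀ t ∈ Icc a b, ∀ y ∈ U,
      HasDerivWithinAt (fun s => u s y) (Lop (A t y) (u t) y + f t y) (Icc a b) t) →
    Yl (Icc a b) U 3 u

/-- (REG): a `C^(2,1/2)` solution of a quasilinear equation with smooth initial value is smooth up
to the initial time -/
def RegStmt (n : ℕ) (V : Type*) [NormedAddCommGroup V] [NormedSpace ℝ V] : Prop :=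
  ∀ (a b : ℝ) (U : Set (En n)) (O : Set (En n × V))
    (A : ℝ × En n × V → Matrix (Fin n) (Fin n) ℝ) (B : ℝ × (En n × V) × (Fin n → V) → V)
    (u : ℝ → En n → V), a < b → IsOpen U → IsOpen O →
    (∀ k l, ContDiffOn ℝ ∞ (fun q => A q k l) (Icc a b ×ˢ O)) →
    ContDiffOn ℝ ∞ B (Icc a b ×ˢ O ×ˢ univ) →
    (∀ t ∈ Icc a b, ∀ y ∈ U, (y, u t y) ∈ O) →
    (∀ t ∈ Icc a b, ∀ y ∈ U, (A (t, y, u t y)).PosDef) →
    Yl (Icc a b) U 2 u → ContDiffOn ℝ ∞ (u a) U →
    (∀ t ∈ Icc a b, ∀ y ∈ U, HasDerivWithinAt (fun s => u s y)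
      (Lop (A (t, y, u t y)) (u t) y + B (t, (y, u t y), d1 (u t) y)) (Icc a b) t) →
    ContDiffOn ℝ ∞ (fun q : ℝ × En n => u q.1 q.2) (Icc a b ×ˢ U)

section mfd

variable (n : ℕ) {M : Type*} [TopologicalSpace M] [ChartedSpace (En n) M]
  {V : Type*} [NormedAddCommGroup V] [NormedSpace ℝ V]

/-- a function read in the preferred chart at `x` -/
def rd (x : M) (u : M → V) (y : En n) : V := u ((chartAt (En n) x).symm y)

/-- jointly smooth on `I × M` -/
def SmV (u : ℝ → M → V) (I : Set ℝ) : Prop :=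
  ∀ x : M, ContDiffOn ℝ ∞ (fun q : ℝ × En n => rd n x (u q.1) q.2)
    (I ×ˢ (chartAt (En n) x).target)

/-- the admissible values read in the chart at `x` -/
def domO (O : Set (M × V)) (x : M) : Set (En n × V) :=
  {q | q.1 ∈ (chartAt (En n) x).target ∧ ((chartAt (En n) x).symm q.1, q.2) ∈ O}

/-- `Op t` is a quasilinear parabolic operator for `t ∈ I`, on functions with graph in `O` -/
structure QLOp (I : Set ℝ) (O : Set (M × V)) (Op : ℝ → (M → V) → M → V) where
  a : M → ℝ × En n × V → Matrix (Fin n) (Fin n) ℝ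
  b : M → ℝ × (En n × V) × (Fin n → V) → V
  sa : ∀ x k l, ContDiffOn ℝ ∞ (fun q => a x q k l) (I ×ˢ domO n O x)
  sb : ∀ x, ContDiffOn ℝ ∞ (b x) (I ×ˢ domO n O x ×ˢ univ)
  pos : ∀ x, ∀ t ∈ I, ∀ q ∈ domO n O x, (a x (t, q)).PosDef
  rep : ∀ x, ∀ t ∈ I, ∀ y ∈ (chartAt (En n) x).target, ∀ (u : M → V) (W : Set M), IsOpen W →
    (chartAt (En n) x).symm y ∈ W → ContMDiffOn 𝓘(ℝ, En n) 𝓘(ℝ, V) ∞ u W →
    (∀ p ∈ W, (p, u p) ∈ O) →
    Op t u ((chartAt (En n) x).symm y) =
      Lop (a x (t, y, rd n x u y)) (rd n x u) y + b x (t, (y, rd n x u y), d1 (rd n x u) y)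

/-- the operator is linear -/
structure QLOp.Lin {I : Set ℝ} {Op : ℝ → (M → V) → M → V} (Q : QLOp n I univ Op) : Prop where
  ha : ∀ x t y v, Q.a x (t, y, v) = Q.a x (t, y, 0)
  hb : ∀ x t y (c : ℝ) v v' p p', Q.b x (t, (y, c • v + v'), c • p + p') =
    c • Q.b x (t, (y, v), p) + Q.b x (t, (y, v'), p')

/-- `u` is a smooth solution of `∂ₜ u = Op t u + H t` on `[s, s'] × M` -/
structure IsSol (O : Set (M × V)) (Op : ℝ → (M → V) → M → V) (H : ℝ → M → V) (s s' : ℝ)
    (u : ℝ → M → V) : Prop where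
  sm : SmV n u (Icc s s')
  mem : ∀ t ∈ Icc s s', ∀ p, (p, u t p) ∈ O
  eqn : ∀ t ∈ Icc s s', ∀ p,
    HasDerivWithinAt (fun r => u r p) (Op t (u t) p + H t p) (Icc s s') t

end mfd

/-- (CORE): short time existence, uniform in the initial time and in a small forcing term -/
def CoreStmt (n : ℕ) (M : Type*) [TopologicalSpace M] [ChartedSpace (En n) M]
    (V : Type*) [NormedAddCommGroup V] [NormedSpace ℝ V] : Prop :=
  ∀ (a b : ℝ) (O : Set (M × V)) (Op : ℝ → (M → V) → M → V) (_Q : QLOp n (Icc a b) O Op)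
    (u0 : M → V) (s0 : ℝ), a < b → IsOpen O → ContMDiff 𝓘(ℝ, En n) 𝓘(ℝ, V) ∞ u0 →
    (∀ p, (p, u0 p) ∈ O) → s0 ∈ Icc a b →
    ∃ τ : ℝ, 0 < τ ∧ ∀ s s' : ℝ, a ≤ s → s < s' → s' ≤ b → |s - s0| ≤ τ → s' ≤ s + τ →
      ∀ H : ℝ → M → V, SmV n H (Icc a b) → ∃ c : ℝ, 0 < c ∧
        ∃ u : ℝ → M → V, u s = u0 ∧ IsSol n O Op (fun t p => c • H t p) s s' u

/-- (QL): short time existence -/
def QLStmt (n : ℕ) (M : Type*) [TopologicalSpace M] [ChartedSpace (En n) M]
    (V : Type*) [NormedAddCommGroup V] [NormedSpace ℝ V] : Prop :=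
  ∀ (a b : ℝ) (O : Set (M × V)) (Op : ℝ → (M → V) → M → V) (_Q : QLOp n (Icc a b) O Op)
    (u0 : M → V), a < b → IsOpen O → ContMDiff 𝓘(ℝ, En n) 𝓘(ℝ, V) ∞ u0 →
    (∀ p, (p, u0 p) ∈ O) →
    ∃ s' : ℝ, a < s' ∧ s' ≤ b ∧ ∃ u : ℝ → M → V, u a = u0 ∧ IsSol n O Op (fun _ _ => 0) a s' u

/-- (LIN): linear equations with a forcing term are solvable on the whole interval -/
def LinStmt (n : ℕ) (M : Type*) [TopologicalSpace M] [ChartedSpace (En n) M]
    (V : Type*) [NormedAddCommGroup V] [NormedSpace ℝ V] : Prop :=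
  ∀ (a b : ℝ) (Op : ℝ → (M → V) → M → V) (Q : QLOp n (Icc a b) univ Op) (u0 : M → V)
    (H : ℝ → M → V), a < b → Q.Lin → ContMDiff 𝓘(ℝ, En n) 𝓘(ℝ, V) ∞ u0 → SmV n H (Icc a b) →
    ∃ u : ℝ → M → V, u a = u0 ∧ IsSol n univ Op H a b u

end Crest.Agent.N207.P
end
end

-- ▼ part N207/P/Tr

/-!
# Row 207, parabolic solver (helper11): chain rule for `κ • (w ∘ θ)` and elementary `Yb` calculus
-/

set_option autoImplicit false
set_option linter.unusedSectionVars false

open Set Filter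
open scoped ContDiff Topology

noncomputable section

namespace Crest.Agent.N207.P

variable {n : ℕ} {V : Type*} [NormedAddCommGroup V] [NormedSpace ℝ V]

/-! ### partial derivatives -/

theorem pd_congr {f g : En n → V} {y : En n} (h : f =ᶠ[𝓝 y] g) (k : Fin n) :
    pd k f y = pd k g y := by
  unfold pd; rw [h.fderiv_eq]

theorem pd_congr_ev {f g : En n → V} {y : En n} (h : f =ᶠ[𝓝 y] g) (k : Fin n) :
    pd k f =ᶠ[𝓝 y] pd k g :=
  h.eventuallyEq_nhds.mono fun _ hz => pd_congr hz k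

theorem pd_add' {f g : En n → V} {y : En n} (hf : DifferentiableAt ℝ f y)
    (hg : DifferentiableAt ℝ g y) (k : Fin n) :
    pd k (fun z => f z + g z) y = pd k f y + pd k g y := by
  unfold pd; rw [fderiv_fun_add hf hg]; rfl

theorem pd_sub' {f g : En n → V} {y : En n} (hf : DifferentiableAt ℝ f y)
    (hg : DifferentiableAt ℝ g y) (k : Fin n) :
    pd k (fun z => f z - g z) y = pd k f y - pd k g y := by
  unfold pd; rw [fderiv_fun_sub hf hg]; rfl

theorem pd_sum' {ι : Type*} (s : Finset ι) {f : ι → En n → V} {y : En n}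
    (hf : ∀ i ∈ s, DifferentiableAt ℝ (f i) y) (k : Fin n) :
    pd k (fun z => ∑ i ∈ s, f i z) y = ∑ i ∈ s, pd k (f i) y := by
  unfold pd; rw [fderiv_fun_sum hf]; simp

theorem pd_const' (c : V) (y : En n) (k : Fin n) : pd k (fun _ => c) y = 0 := by
  simp [pd]

theorem contDiffAt_pd {m m' : WithTop ℕ∞} {f : En n → V} {y : En n} (hf : ContDiffAt ℝ m' f y)
    (h : m + 1 ≤ m') (k : Fin n) : ContDiffAt ℝ m (pd k f) y :=
  (hf.fderiv_right h).clm_apply contDiffAt_const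

theorem contDiff_pd {m m' : WithTop ℕ∞} {f : En n → V} (hf : ContDiff ℝ m' f)
    (h : m + 1 ≤ m') (k : Fin n) : ContDiff ℝ m (pd k f) :=
  contDiff_iff_contDiffAt.2 fun _ => contDiffAt_pd hf.contDiffAt h k

theorem contDiff_pd_top {f : En n → V} (hf : ContDiff ℝ ∞ f) (k : Fin n) :
    ContDiff ℝ ∞ (pd k f) := contDiff_pd hf (by simp) k

theorem contDiffOn_pd_top {f : En n → V} {U : Set (En n)} (hU : IsOpen U)
    (hf : ContDiffOn ℝ ∞ f U) (k : Fin n) : ContDiffOn ℝ ∞ (pd k f) U := fun _ hy =>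
  (contDiffAt_pd (hf.contDiffAt (hU.mem_nhds hy)) (by simp) k).contDiffWithinAt

theorem hcs_pd {f : En n → V} (hf : HasCompactSupport f) (k : Fin n) :
    HasCompactSupport (pd k f) :=
  (hf.fderiv (𝕜 := ℝ)).comp_left (g := fun L : En n →L[ℝ] V => L (EuclideanSpace.single k 1))
    (by simp)

theorem clm_eq_sum (L : En n →L[ℝ] V) (v : En n) :
    L v = ∑ m, v m • L (EuclideanSpace.single m 1) := by
  conv_lhs => rw [← (EuclideanSpace.basisFun (Fin n) ℝ).sum_repr v]
  simp [map_sum]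

theorem pd_symm {f : En n → V} {y : En n} (hf : ContDiffAt ℝ 2 f y) (k l : Fin n) :
    pd k (pd l f) y = pd l (pd k f) y := by
  have hd : DifferentiableAt ℝ (fderiv ℝ f) y :=
    (hf.fderiv_right (m := 1) (by norm_num)).differentiableAt (by simp)
  have key : ∀ i j : Fin n, pd i (pd j f) y = fderiv ℝ (fderiv ℝ f) y
      (EuclideanSpace.single i 1) (EuclideanSpace.single j 1) := by
    intro i j
    unfold pd
    rw [fderiv_clm_apply hd (differentiableAt_const _)]
    simp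
  rw [key, key]
  exact (hf.isSymmSndFDerivAt (by simp)) _ _

/-- the components of a map -/
def cp (θ : En n → En n) (m : Fin n) (y : En n) : ℝ := θ y m

theorem contDiffAt_cp {r : WithTop ℕ∞} {θ : En n → En n} {y : En n} (h : ContDiffAt ℝ r θ y)
    (m : Fin n) : ContDiffAt ℝ r (cp θ m) y :=
  ((EuclideanSpace.proj m : En n →L[ℝ] ℝ).contDiff.contDiffAt).comp y h

theorem pd_cp {θ : En n → En n} {y : En n} (h : DifferentiableAt ℝ θ y) (k m : Fin n) :
    pd k (cp θ m) y = fderiv ℝ θ y (EuclideanSpace.single k 1) m := by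
  have := ((EuclideanSpace.proj m : En n →L[ℝ] ℝ).hasFDerivAt.comp y h.hasFDerivAt).fderiv
  unfold pd
  have e : cp θ m = (EuclideanSpace.proj m : En n →L[ℝ] ℝ) ∘ θ := rfl
  rw [e, this]; rfl

theorem pd_smul_comp {κ : En n → ℝ} {θ : En n → En n} {g : En n → V} {y : En n}
    (hκ : DifferentiableAt ℝ κ y) (hθ : DifferentiableAt ℝ θ y)
    (hg : DifferentiableAt ℝ g (θ y)) (k : Fin n) :
    pd k (fun z => κ z • g (θ z)) y =
      pd k κ y • g (θ y) + ∑ m, (κ y * pd k (cp θ m) y) • pd m g (θ y) := by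
  have h1 := hg.hasFDerivAt.comp y hθ.hasFDerivAt
  have h2 := (hκ.hasFDerivAt.smul h1).fderiv
  have e : (fun z => κ z • g (θ z)) = κ • (g ∘ θ) := rfl
  simp only [pd_cp hθ]
  unfold pd
  rw [e, h2]
  simp only [add_apply, smul_apply,
    ContinuousLinearMap.smulRight_apply, ContinuousLinearMap.comp_apply, Function.comp]
  rw [clm_eq_sum (fderiv ℝ g (θ y)), add_comm, Finset.smul_sum]
  simp only [mul_smul]

/-- the transported function -/
def z0 (κ : En n → ℝ) (θ : En n → En n) (w : En n → V) (y : En n) : V := κ y • w (θ y)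

/-- its first derivatives -/
def z1 (κ : En n → ℝ) (θ : En n → En n) (w : En n → V) (y : En n) (k : Fin n) : V :=
  pd k κ y • w (θ y) + ∑ m, (κ y * pd k (cp θ m) y) • pd m w (θ y)

/-- the lower order part of its second derivatives -/
def z2 (κ : En n → ℝ) (θ : En n → En n) (w : En n → V) (y : En n) (k l : Fin n) : V :=
  pd k (pd l κ) y • w (θ y) + ∑ m, (pd l κ y * pd k (cp θ m) y +
    pd k (fun z => κ z * pd l (cp θ m) z) y) • pd m w (θ y)

/-- the top order part of its second derivatives -/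
def z3 (κ : En n → ℝ) (θ : En n → En n) (w : En n → V) (y : En n) (k l : Fin n) : V :=
  ∑ m, ∑ m', (κ y * pd l (cp θ m) y * pd k (cp θ m') y) • pd m' (pd m w) (θ y)

theorem pd_z0 {κ : En n → ℝ} {θ : En n → En n} {w : En n → V} {y : En n}
    (hκ : ContDiffAt ℝ 2 κ y) (hθ : ContDiffAt ℝ 2 θ y) (hw : ContDiffAt ℝ 2 w (θ y)) (k : Fin n) :
    pd k (z0 κ θ w) y = z1 κ θ w y k :=
  pd_smul_comp (hκ.differentiableAt (by simp)) (hθ.differentiableAt (by simp))
    (hw.differentiableAt (by simp)) k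

theorem pd_pd_z0 {κ : En n → ℝ} {θ : En n → En n} {w : En n → V} {y : En n}
    (hκ : ContDiffAt ℝ 2 κ y) (hθ : ContDiffAt ℝ 2 θ y) (hw : ContDiffAt ℝ 2 w (θ y))
    (k l : Fin n) : pd k (pd l (z0 κ θ w)) y = z2 κ θ w y k l + z3 κ θ w y k l := by
  have hev : pd l (z0 κ θ w) =ᶠ[𝓝 y] fun z => z1 κ θ w z l := by
    filter_upwards [hκ.eventually (by simp), hθ.eventually (by simp),
      hθ.continuousAt.eventually (hw.eventually (by simp))] with z h1 h2 h3
    exact pd_z0 h1 h2 h3 l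
  have dθ := hθ.differentiableAt (by simp)
  have d1κ : DifferentiableAt ℝ (pd l κ) y :=
    (contDiffAt_pd (m := 1) hκ (by norm_num) l).differentiableAt (by simp)
  have dc : ∀ m, DifferentiableAt ℝ (fun z => κ z * pd l (cp θ m) z) y := fun m =>
    (hκ.differentiableAt (by simp)).mul
      ((contDiffAt_pd (m := 1) (contDiffAt_cp hθ m) (by norm_num) l).differentiableAt (by simp))
  have dw := hw.differentiableAt (by simp)
  have dw1 : ∀ m, DifferentiableAt ℝ (pd m w) (θ y) := fun m =>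
    (contDiffAt_pd (m := 1) hw (by norm_num) m).differentiableAt (by simp)
  have e1 : DifferentiableAt ℝ (fun z => pd l κ z • w (θ z)) y := d1κ.smul (dw.comp y dθ)
  have e2 : ∀ m, DifferentiableAt ℝ (fun z => (κ z * pd l (cp θ m) z) • pd m w (θ z)) y :=
    fun m => (dc m).smul ((dw1 m).comp y dθ)
  rw [pd_congr hev]
  unfold z1
  rw [pd_add' e1 (DifferentiableAt.fun_sum fun m _ => e2 m),
    pd_sum' _ (fun m _ => e2 m), pd_smul_comp d1κ dθ dw]
  simp only [pd_smul_comp (dc _) dθ (dw1 _)]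
  unfold z2 z3
  simp only [add_smul, Finset.sum_add_distrib]
  abel

theorem contDiffAt_z0 {r : WithTop ℕ∞} {κ : En n → ℝ} {θ : En n → En n} {w : En n → V} {y : En n}
    (hκ : ContDiffAt ℝ r κ y) (hθ : ContDiffAt ℝ r θ y) (hw : ContDiffAt ℝ r w (θ y)) :
    ContDiffAt ℝ r (z0 κ θ w) y := hκ.smul (hw.comp y hθ)

/-! ### `Yb` calculus -/

section yb

variable {X : Type*} [TopologicalSpace X] {d : X → X → ℝ} {τ : ℝ}
  {W : Type*} [NormedAddCommGroup W] [NormedSpace ℝ W]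

theorem yb_mono {A c A' c' : ℝ} {f : ℝ → X → V} (h : Yb d τ A c f) (hA : A ≤ A') (hc : c ≤ c') :
    Yb d τ A' c' f :=
  ⟨h.cont, fun t ht x => (h.sup t ht x).trans hA, fun t ht x y =>
    (h.hol t ht x y).trans (mul_le_mul_of_nonneg_right hc (Real.sqrt_nonneg _))⟩

theorem yb_add {A c A' c' : ℝ} {f g : ℝ → X → V} (h : Yb d τ A c f) (h' : Yb d τ A' c' g) :
    Yb d τ (A + A') (c + c') (fun t x => f t x + g t x) := by
  refine ⟨h.cont.add h'.cont, fun t ht x => (norm_add_le _ _).trans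
    (add_le_add (h.sup t ht x) (h'.sup t ht x)), fun t ht x y => ?_⟩
  have e : f t x + g t x - (f t y + g t y) = (f t x - f t y) + (g t x - g t y) := by abel
  rw [e, add_mul]
  exact (norm_add_le _ _).trans (add_le_add (h.hol t ht x y) (h'.hol t ht x y))

theorem yb_zero : Yb d τ 0 0 (fun (_ : ℝ) (_ : X) => (0 : V)) :=
  ⟨continuousOn_const, fun _ _ _ => by simp, fun _ _ _ _ => by simp⟩

theorem yb_sum {ι : Type*} (s : Finset ι) {A c : ι → ℝ} {f : ι → ℝ → X → V}
    (h : ∀ i ∈ s, Yb d τ (A i) (c i) (f i)) :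
    Yb d τ (∑ i ∈ s, A i) (∑ i ∈ s, c i) (fun t x => ∑ i ∈ s, f i t x) := by
  classical
  induction s using Finset.induction_on with
  | empty => simpa using yb_zero
  | insert i s hi ih =>
    simp only [Finset.sum_insert hi]
    exact yb_add (h i (Finset.mem_insert_self _ _))
      (ih fun j hj => h j (Finset.mem_insert_of_mem hj))

theorem yb_prod {A c : ℝ} {f : ℝ → X → V} {g : ℝ → X → W} (h : Yb d τ A c f)
    (h' : Yb d τ A c g) : Yb d τ A c (fun t x => (f t x, g t x)) :=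
  ⟨h.cont.prodMk h'.cont, fun t ht x => by
    rw [Prod.norm_def]; exact max_le (h.sup t ht x) (h'.sup t ht x), fun t ht x y => by
    rw [Prod.norm_def]; exact max_le (h.hol t ht x y) (h'.hol t ht x y)⟩

theorem yb_pi {ι : Type*} [Fintype ι] {A c : ℝ} (hA : 0 ≤ A) (hc : 0 ≤ c) {f : ℝ → X → ι → V}
    (h : ∀ i, Yb d τ A c (fun t x => f t x i)) : Yb d τ A c f :=
  ⟨continuousOn_pi.2 fun i => (h i).cont, fun t ht x =>
    (pi_norm_le_iff_of_nonneg hA).2 fun i => (h i).sup t ht x, fun t ht x y =>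
    (pi_norm_le_iff_of_nonneg (mul_nonneg hc (Real.sqrt_nonneg _))).2 fun i =>
      (h i).hol t ht x y⟩

theorem yb_congr {A c : ℝ} {f g : ℝ → X → V} (h : Yb d τ A c f)
    (e : ∀ t ∈ Icc 0 τ, ∀ x, g t x = f t x) : Yb d τ A c g :=
  ⟨h.cont.congr fun p hp => e _ hp.1 _, fun t ht x => by rw [e t ht]; exact h.sup t ht x,
    fun t ht x y => by rw [e t ht, e t ht]; exact h.hol t ht x y⟩

end yb

theorem le_sqrt_of_min {x K L r : ℝ} (hK : 0 ≤ K) (hL : 0 ≤ L) (hr : 0 ≤ r) (h1 : x ≤ 2 * K)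
    (h2 : x ≤ L * r) : x ≤ (2 * K + L) * √r := by
  have hs := Real.sqrt_nonneg r
  rcases le_total r 1 with h | h
  · have : r ≤ √r := by
      rw [Real.le_sqrt hr hr]; nlinarith
    nlinarith
  · have : 1 ≤ √r := by rw [Real.one_le_sqrt]; exact h
    nlinarith

/-- a smooth compactly supported function is bounded and Hoelder -/
theorem hol_of_cs {W : Type*} [NormedAddCommGroup W] [NormedSpace ℝ W] {κ : En n → W}
    (hκ : ContDiff ℝ ∞ κ) (hc : HasCompactSupport κ) :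
    ∃ K : ℝ, 0 < K ∧ (∀ y, ‖κ y‖ ≤ K) ∧ (∀ y y', ‖κ y - κ y'‖ ≤ K * √(dist y y')) ∧
      ∀ y y', dist (κ y) (κ y') ≤ K * dist y y' := by
  obtain ⟨K0, hK0⟩ := hκ.continuous.bounded_above_of_compact_support hc
  obtain ⟨L, hL⟩ := hκ.lipschitzWith_of_hasCompactSupport hc (by simp)
  have h0 : 0 ≤ K0 := (norm_nonneg _).trans (hK0 0)
  have hL0 : (0 : ℝ) ≤ L := L.2
  refine ⟨2 * K0 + L + 1, by positivity, fun y => by linarith [hK0 y], fun y y' => ?_,
    fun y y' => ?_⟩
  · have h1 : ‖κ y - κ y'‖ ≤ 2 * K0 := (norm_sub_le _ _).trans (by linarith [hK0 y, hK0 y'])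
    have h2 : ‖κ y - κ y'‖ ≤ L * dist y y' := by
      rw [← dist_eq_norm]; exact hL.dist_le_mul y y'
    have := le_sqrt_of_min h0 hL0 dist_nonneg h1 h2
    exact this.trans (mul_le_mul_of_nonneg_right (by linarith) (Real.sqrt_nonneg _))
  · exact (hL.dist_le_mul y y').trans (mul_le_mul_of_nonneg_right (by linarith) dist_nonneg)

/-- transport of a `Yb` function -/
theorem yb_transfer {κ : En n → ℝ} {θ : En n → En n} (hκ : ContDiff ℝ ∞ κ)
    (hκc : HasCompactSupport κ) (hθ : ContDiff ℝ ∞ θ) (hθc : HasCompactSupport θ) :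
    ∃ C : ℝ, 0 < C ∧ ∀ (τ A c : ℝ) (g : ℝ → En n → V), 0 ≤ A → 0 ≤ c → Yb dist τ A c g →
      Yb dist τ (C * A) (C * (A + c)) (fun t y => κ y • g t (θ y)) := by
  obtain ⟨K, hK, hK1, hK2, -⟩ := hol_of_cs hκ hκc
  obtain ⟨L, hL, -, -, hL3⟩ := hol_of_cs hθ hθc
  refine ⟨K + K * √L, by positivity, fun τ A c g hA hc hg => ⟨?_, fun t ht y => ?_,
    fun t ht y y' => ?_⟩⟩
  · refine ((hκ.continuous.comp continuous_snd).continuousOn).smul ?_
    exact hg.cont.comp (f := fun p : ℝ × En n => (p.1, θ p.2))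
      (continuous_fst.prodMk (hθ.continuous.comp continuous_snd)).continuousOn
      fun p hp => ⟨hp.1, mem_univ _⟩
  · rw [norm_smul]
    have := mul_le_mul (hK1 y) (hg.sup t ht (θ y)) (norm_nonneg _) hK.le
    nlinarith [mul_nonneg (mul_nonneg hK.le (Real.sqrt_nonneg L)) hA]
  · have e : κ y • g t (θ y) - κ y' • g t (θ y') =
        (κ y - κ y') • g t (θ y) + κ y' • (g t (θ y) - g t (θ y')) := by
      rw [sub_smul, smul_sub]; abel
    rw [e]
    have h1 : ‖(κ y - κ y') • g t (θ y)‖ ≤ K * √(dist y y') * A := by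
      rw [norm_smul]
      exact mul_le_mul (hK2 y y') (hg.sup t ht _) (norm_nonneg _) (by positivity)
    have h3 : √(dist (θ y) (θ y')) ≤ √L * √(dist y y') := by
      rw [← Real.sqrt_mul hL.le]; exact Real.sqrt_le_sqrt (hL3 y y')
    have h2 : ‖κ y' • (g t (θ y) - g t (θ y'))‖ ≤ K * (c * (√L * √(dist y y'))) := by
      rw [norm_smul]
      exact mul_le_mul (hK1 y') ((hg.hol t ht _ _).trans (mul_le_mul_of_nonneg_left h3 hc))
        (norm_nonneg _) hK.le
    have hs := Real.sqrt_nonneg (dist y y')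
    have hsL := Real.sqrt_nonneg L
    refine (norm_add_le _ _).trans ((add_le_add h1 h2).trans ?_)
    have : 0 ≤ K * √L * A * √(dist y y') + K * c * √(dist y y') := by positivity
    nlinarith

end Crest.Agent.N207.P
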