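import Crest.Agent.N207.P.H0
import Crest.Agent.R338.HOGauss
import Crest.Agent.N207.P.Tr
import Crest.Agent.R281.YVSMax0_355

-- ▼ part N207/P/H1
section

/-!
# Row 207, parabolic solver (helper17): averages against a rescaled Schwartz kernel

`Mv L φ s f x = ∫ L (φ z) (f (x - s z)) dz`: bounds, continuity, derivatives in `x` and in `s`.
-/

set_option autoImplicit false

open MeasureTheory Set Filter Topology SchwartzMap

noncomputable section

namespace Crest.Agent.N207.P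

variable {n : ℕ} {F V G : Type*} [NormedAddCommGroup F] [NormedSpace ℝ F]
  [NormedAddCommGroup V] [NormedSpace ℝ V] [NormedAddCommGroup G] [NormedSpace ℝ G]

/-- the average of `f` against the kernel `φ` at scale `s` -/
def Mv (L : V →L[ℝ] F →L[ℝ] G) (φ : 𝓢(En n, V)) (s : ℝ) (f : En n → F) (x : En n) : G :=
  ∫ z, L (φ z) (f (x - s • z))

def m0 (φ : 𝓢(En n, V)) : ℝ := ∫ z, ‖φ z‖

def m1 (φ : 𝓢(En n, V)) : ℝ := ∫ z, ‖φ z‖ * √‖z‖


theorem m1_nonneg (φ : 𝓢(En n, V)) : 0 ≤ m1 φ :=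
  integral_nonneg fun _ => mul_nonneg (norm_nonneg _) (Real.sqrt_nonneg _)

theorem intg_m1 (φ : 𝓢(En n, V)) : Integrable (fun z => ‖φ z‖ * √‖z‖) := by
  have h0 := φ.integrable_pow_mul volume 0
  have h1 := φ.integrable_pow_mul volume 1
  refine (h0.add h1).mono' (by fun_prop) (Eventually.of_forall fun z => ?_)
  have hz : √‖z‖ ≤ 1 + ‖z‖ := by
    rw [Real.sqrt_le_left (by positivity)]
    nlinarith [norm_nonneg z]
  rw [Real.norm_eq_abs, abs_of_nonneg (by positivity)]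
  simp only [Pi.add_apply, pow_zero, one_mul, pow_one]
  nlinarith [norm_nonneg (φ z)]

theorem exists_decay (φ : 𝓢(En n, V)) : ∃ C : ℝ, 0 ≤ C ∧ ∀ z,
    ‖φ z‖ ≤ C * (1 + ‖z‖) ^ (-((n : ℝ) + 1)) := by
  refine ⟨2 ^ (n + 1) * (Finset.Iic (n + 1, 0)).sup
    (fun m : ℕ × ℕ => SchwartzMap.seminorm ℝ m.1 m.2) φ, by positivity, fun z => ?_⟩
  have h := SchwartzMap.one_add_le_sup_seminorm_apply (𝕜 := ℝ) (m := (n + 1, 0)) (k := n + 1)
    (n := 0) le_rfl le_rfl φ z
  rw [norm_iteratedFDeriv_zero] at h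
  have hp : 0 < 1 + ‖z‖ := by positivity
  rw [Real.rpow_neg hp.le, ← div_eq_mul_inv, le_div_iff₀ (by positivity)]
  have e : (1 + ‖z‖) ^ ((n : ℝ) + 1) = (1 + ‖z‖) ^ (n + 1) := by
    rw [← Real.rpow_natCast]; push_cast; rfl
  rw [e, mul_comm]
  exact h

theorem intg_dec : Integrable (fun z : En n => (1 + ‖z‖) ^ (-((n : ℝ) + 1))) :=
  integrable_one_add_norm (by simp)

variable (L : V →L[ℝ] F →L[ℝ] G) (φ : 𝓢(En n, V))

theorem bil_le (v : V) {w : F} {A : ℝ} (h : ‖w‖ ≤ A) : ‖L v w‖ ≤ ‖L‖ * A * ‖v‖ := by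
  calc ‖L v w‖ ≤ ‖L‖ * ‖v‖ * ‖w‖ := L.le_opNorm₂ v w
    _ ≤ ‖L‖ * ‖v‖ * A := by gcongr
    _ = _ := by ring

theorem intg_Mv {f : En n → F} (hf : Continuous f) {A : ℝ} (hA : ∀ x, ‖f x‖ ≤ A) (s : ℝ)
    (x : En n) : Integrable (fun z => L (φ z) (f (x - s • z))) := by
  refine ((φ.integrable.norm).const_mul (‖L‖ * A)).mono' ?_ (Eventually.of_forall fun z => ?_)
  · have := φ.continuous
    exact Continuous.aestronglyMeasurable (by fun_prop)
  · exact bil_le L _ (hA _)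

theorem Mv_le {f : En n → F} {A : ℝ} (hA : ∀ x, ‖f x‖ ≤ A) (s : ℝ) (x : En n) :
    ‖Mv L φ s f x‖ ≤ ‖L‖ * A * m0 φ := by
  unfold Mv m0
  rw [← integral_const_mul]
  exact norm_integral_le_of_norm_le ((φ.integrable.norm).const_mul _)
    (Eventually.of_forall fun z => bil_le L _ (hA _))

theorem Mv_le_hol (h0 : ∀ v : F, ∫ z, L (φ z) v = 0) {f : En n → F} (hf : Continuous f) {A c : ℝ}
    (hA : ∀ x, ‖f x‖ ≤ A) (hc : ∀ x y, ‖f x - f y‖ ≤ c * √(dist x y)) {s : ℝ} (hs : 0 ≤ s)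
    (x : En n) : ‖Mv L φ s f x‖ ≤ ‖L‖ * c * √s * m1 φ := by
  have e : Mv L φ s f x = ∫ z, L (φ z) (f (x - s • z) - f x) := by
    have h1 := intg_Mv L φ hf hA s x
    have h2 := intg_Mv L φ (f := fun _ => f x) continuous_const (fun _ => le_rfl) s x
    simp only [map_sub]
    rw [integral_sub h1 h2, h0, sub_zero]
    rfl
  rw [e]
  unfold m1
  rw [← integral_const_mul]
  refine norm_integral_le_of_norm_le ((intg_m1 φ).const_mul _) (Eventually.of_forall fun z => ?_)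
  have h := hc (x - s • z) x
  have hd : dist (x - s • z) x = s * ‖z‖ := by
    rw [dist_eq_norm]; simp [norm_smul, abs_of_nonneg hs]
  rw [hd, Real.sqrt_mul hs] at h
  calc _ ≤ ‖L‖ * (c * (√s * √‖z‖)) * ‖φ z‖ := bil_le L _ h
    _ = _ := by ring

theorem Mv_sub {f g : En n → F} (hf : Continuous f) (hg : Continuous g) {A B : ℝ}
    (hA : ∀ x, ‖f x‖ ≤ A) (hB : ∀ x, ‖g x‖ ≤ B) (s : ℝ) (x : En n) :
    Mv L φ s (f - g) x = Mv L φ s f x - Mv L φ s g x := by
  unfold Mv
  rw [← integral_sub (intg_Mv L φ hf hA s x) (intg_Mv L φ hg hB s x)]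
  simp

theorem continuous_Mv {P : Type*} [TopologicalSpace P] [FirstCountableTopology P] {s : P → ℝ}
    {x : P → En n} {g : P → En n → F} (hs : Continuous s) (hx : Continuous x)
    (hg : Continuous fun q : P × En n => g q.1 q.2) {A : ℝ} (hA : ∀ p y, ‖g p y‖ ≤ A) :
    Continuous fun p => Mv L φ (s p) (g p) (x p) := by
  refine continuous_of_dominated (bound := fun z => ‖L‖ * A * ‖φ z‖) (fun p => ?_)
    (fun p => Eventually.of_forall fun z => bil_le L _ (hA _ _))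
    ((φ.integrable.norm).const_mul _) (Eventually.of_forall fun z => ?_)
  · exact (intg_Mv L φ (hg.comp (Continuous.prodMk_right p)) (hA p) _ _).aestronglyMeasurable
  · exact (L (φ z)).continuous.comp
      (hg.comp (continuous_id.prodMk (hx.sub (hs.smul continuous_const))))

theorem hasFDerivAt_conv {f : En n → F} (hf : Continuous f) {A : ℝ} (hA : ∀ x, ‖f x‖ ≤ A)
    (u0 : En n) :
    HasFDerivAt (fun u => ∫ y, L (φ (u - y)) (f y))
      (∫ y, L.precompL (En n) (fderivCLM ℝ (En n) V φ (u0 - y)) (f y)) u0 := by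
  obtain ⟨C, hC0, hC⟩ := exists_decay (fderivCLM ℝ (En n) V φ)
  have hφ := φ.continuous
  have hφ' := (fderivCLM ℝ (En n) V φ).continuous
  have hA0 : 0 ≤ A := (norm_nonneg _).trans (hA 0)
  refine hasFDerivAt_integral_of_dominated_of_fderiv_le (s := Metric.ball u0 1)
    (F' := fun u y => L.precompL (En n) (fderivCLM ℝ (En n) V φ (u - y)) (f y))
    (bound := fun y => ‖L‖ * A * (C * 2 ^ ((n : ℝ) + 1) * (1 + ‖u0 - y‖) ^ (-((n : ℝ) + 1))))
    (Metric.ball_mem_nhds _ one_pos)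
    (Eventually.of_forall fun u => Continuous.aestronglyMeasurable (by fun_prop)) ?_
    (Continuous.aestronglyMeasurable (by fun_prop)) (Eventually.of_forall fun y u hu => ?_)
    (((intg_dec.comp_sub_left u0).const_mul _).const_mul _)
    (Eventually.of_forall fun y u _ => ?_)
  · refine (((φ.integrable.norm).comp_sub_left u0).const_mul (‖L‖ * A)).mono'
      (Continuous.aestronglyMeasurable (by fun_prop)) (Eventually.of_forall fun y => ?_)
    exact bil_le L _ (hA _)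
  · refine (bil_le _ _ (hA y)).trans ?_
    have h1 : ‖fderivCLM ℝ (En n) V φ (u - y)‖ ≤
        C * 2 ^ ((n : ℝ) + 1) * (1 + ‖u0 - y‖) ^ (-((n : ℝ) + 1)) := by
      refine (hC _).trans ?_
      rw [mul_assoc]
      refine mul_le_mul_of_nonneg_left ?_ hC0
      have h2 : (1 + ‖u0 - y‖) / 2 ≤ 1 + ‖u - y‖ := by
        have h3 : ‖u0 - y‖ ≤ ‖u0 - u‖ + ‖u - y‖ := norm_sub_le_norm_sub_add_norm_sub _ _ _
        have h4 : ‖u0 - u‖ < 1 := by rwa [Metric.mem_ball, dist_comm, dist_eq_norm] at hu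
        nlinarith [norm_nonneg (u - y)]
      have h5 := Real.rpow_le_rpow_of_nonpos (z := -((n : ℝ) + 1)) (by positivity) h2
        (by have : (0 : ℝ) ≤ n := Nat.cast_nonneg n; linarith)
      refine h5.trans (le_of_eq ?_)
      rw [Real.div_rpow (by positivity) (by norm_num), Real.rpow_neg (by norm_num : (0 : ℝ) ≤ 2)]
      field_simp
    have h6 := L.norm_precompL_le (En n)
    gcongr
  · have h1 : HasFDerivAt (fun u => φ (u - y)) (fderiv ℝ φ (u - y)) u := by
      have := (φ.differentiableAt (x := u - y)).hasFDerivAt.comp u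
        ((hasFDerivAt_id u).sub_const y)
      rw [ContinuousLinearMap.comp_id] at this
      exact this
    have h2 := ((L.flip (f y)).hasFDerivAt).comp u h1
    exact h2

theorem Mv_eq_conv {s : ℝ} (hs : 0 < s) (f : En n → F) (x : En n) :
    Mv L φ s f x = ∫ y, L (φ (s⁻¹ • x - y)) (f (s • y)) := by
  unfold Mv
  rw [← integral_sub_left_eq_self (fun y => L (φ (s⁻¹ • x - y)) (f (s • y))) volume (s⁻¹ • x)]
  simp [smul_sub, smul_smul, hs.ne']

theorem hasFDerivAt_Mv {f : En n → F} (hf : Continuous f) {A : ℝ} (hA : ∀ x, ‖f x‖ ≤ A) {s : ℝ}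
    (hs : 0 < s) (x : En n) :
    HasFDerivAt (Mv L φ s f)
      (s⁻¹ • Mv (L.precompL (En n)) (fderivCLM ℝ (En n) V φ) s f x) x := by
  have h1 := hasFDerivAt_conv L φ (f := fun y => f (s • y)) (by fun_prop) (fun y => hA _) (s⁻¹ • x)
  have h2 := h1.comp x ((hasFDerivAt_id x).const_smul s⁻¹)
  have e : Mv L φ s f = fun x => ∫ y, L (φ (s⁻¹ • x - y)) (f (s • y)) :=
    funext fun x => Mv_eq_conv L φ hs f x
  rw [e, Mv_eq_conv _ _ hs]
  refine h2.congr_fderiv ?_
  ext v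
  simp

theorem integral_fderiv_zero (v : F) :
    ∫ z, L.precompL (En n) (fderivCLM ℝ (En n) V φ z) v = 0 := by
  have h1 := hasFDerivAt_Mv L φ (f := fun _ => v) continuous_const (fun _ => le_rfl) one_pos 0
  have e : Mv L φ 1 (fun _ => v) = fun _ => ∫ z, L (φ z) v := rfl
  rw [e] at h1
  have := h1.unique (hasFDerivAt_const _ _)
  simpa [Mv] using this

theorem Mv_eq_scale {s : ℝ} (hs : 0 < s) (f : En n → F) (x : En n) :
    Mv L φ s f x = (s ^ n)⁻¹ • ∫ u, L (φ (s⁻¹ • u)) (f (x - u)) := by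
  have h := Measure.integral_comp_smul (volume : Measure (En n))
    (fun u => L (φ (s⁻¹ • u)) (f (x - u))) s
  simp only [smul_smul, inv_mul_cancel₀ hs.ne', one_smul, finrank_euclideanSpace,
    Fintype.card_fin] at h
  rw [abs_of_pos (by positivity)] at h
  exact h

theorem hasDerivAt_Mv (ψ : 𝓢(En n, V)) (hψ : ∀ z, ψ z = fderiv ℝ φ z z) {f : En n → F}
    (hf : Continuous f) {A : ℝ} (hA : ∀ x, ‖f x‖ ≤ A) {s0 : ℝ} (hs : 0 < s0) (x : En n) :
    HasDerivAt (fun s => Mv L φ s f x)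
      (-(s0⁻¹ • ((n : ℝ) • Mv L φ s0 f x + Mv L ψ s0 f x))) s0 := by
  obtain ⟨C, hC0, hC⟩ := exists_decay ψ
  have hφ := φ.continuous
  have hψc := ψ.continuous
  have hA0 : 0 ≤ A := (norm_nonneg _).trans (hA 0)
  have hI : HasDerivAt (fun s : ℝ => ∫ u, L (φ (s⁻¹ • u)) (f (x - u)))
      (∫ u, -(s0⁻¹ • L (ψ (s0⁻¹ • u)) (f (x - u)))) s0 := by
    refine (hasDerivAt_integral_of_dominated_loc_of_deriv_le (s := Ioo (s0 / 2) (2 * s0))
      (F' := fun s u => -(s⁻¹ • L (ψ (s⁻¹ • u)) (f (x - u))))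
      (bound := fun u => (s0 / 2)⁻¹ * (‖L‖ * A *
        (C * (1 + ‖(2 * s0)⁻¹ • u‖) ^ (-((n : ℝ) + 1)))))
      (Ioo_mem_nhds (by linarith) (by linarith))
      (Eventually.of_forall fun u => Continuous.aestronglyMeasurable (by fun_prop)) ?_
      (Continuous.aestronglyMeasurable (by fun_prop)) (Eventually.of_forall fun u s hs' => ?_)
      ((((intg_dec.comp_smul (by positivity)).const_mul _).const_mul _).const_mul _)
      (Eventually.of_forall fun u s hs' => ?_)).2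
    · refine (((φ.integrable.norm).comp_smul (R := s0⁻¹) (by positivity)).const_mul
        (‖L‖ * A)).mono' (Continuous.aestronglyMeasurable (by fun_prop))
        (Eventually.of_forall fun y => ?_)
      exact bil_le L _ (hA _)
    · have hs1 : 0 < s := by linarith [hs'.1]
      rw [norm_neg, norm_smul, Real.norm_eq_abs, abs_of_pos (by positivity)]
      have h1 : s⁻¹ ≤ (s0 / 2)⁻¹ := inv_anti₀ (by positivity) hs'.1.le
      have h2 : ‖ψ (s⁻¹ • u)‖ ≤ C * (1 + ‖(2 * s0)⁻¹ • u‖) ^ (-((n : ℝ) + 1)) := by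
        refine (hC _).trans (mul_le_mul_of_nonneg_left ?_ hC0)
        refine Real.rpow_le_rpow_of_nonpos (by positivity) ?_
          (by have : (0 : ℝ) ≤ n := Nat.cast_nonneg n; linarith)
        have h3 : (2 * s0)⁻¹ ≤ s⁻¹ := inv_anti₀ hs1 hs'.2.le
        rw [norm_smul, norm_smul, Real.norm_eq_abs, Real.norm_eq_abs, abs_of_pos (by positivity),
          abs_of_pos (by positivity)]
        gcongr
      have h4 := (bil_le L (ψ (s⁻¹ • u)) (hA (x - u))).trans
        (mul_le_mul_of_nonneg_left h2 (by positivity))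
      gcongr
    · have hs1 : 0 < s := by linarith [hs'.1]
      have h1 : HasDerivAt (fun s : ℝ => s⁻¹ • u) ((-(s ^ 2)⁻¹) • u) s :=
        (hasDerivAt_inv hs1.ne').smul_const u
      have h2 := (φ.differentiableAt (x := s⁻¹ • u)).hasFDerivAt.comp_hasDerivAt s h1
      have h3 := ((L.flip (f (x - u))).hasFDerivAt).comp_hasDerivAt s h2
      refine h3.congr_deriv ?_
      rw [hψ]
      simp [smul_smul, sq]
  have hp : HasDerivAt (fun s : ℝ => (s ^ n)⁻¹) (-((n : ℝ) * s0⁻¹ * (s0 ^ n)⁻¹)) s0 := by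
    refine ((hasDerivAt_pow n s0).inv (by positivity)).congr_deriv ?_
    rcases n with _ | m
    · simp
    · simp only [Nat.add_sub_cancel]
      field_simp
      ring
  have h := hp.smul hI
  have e : (fun s => Mv L φ s f x) =ᶠ[𝓝 s0]
      fun s : ℝ => (s ^ n)⁻¹ • ∫ u, L (φ (s⁻¹ • u)) (f (x - u)) := by
    filter_upwards [Ioi_mem_nhds hs] with s hs' using Mv_eq_scale L φ hs' f x
  refine (h.congr_of_eventuallyEq e).congr_deriv ?_
  rw [Mv_eq_scale L φ hs, Mv_eq_scale L ψ hs, integral_neg, integral_smul]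
  simp only [smul_neg, smul_add, neg_add, neg_smul, smul_smul]
  rw [add_comm]
  congr 3 <;> ring

end Crest.Agent.N207.P
end
end

-- ▼ part N207/P/H2
section

/-!
# Row 207, parabolic solver (helper17): Duhamel integrals

`DI p L φ f t x = ∫₀ᵗ τ^(-p/2) Mv L φ √τ (f (t - τ)) x dτ`: bounds, continuity, `x`-derivative,
Hoelder estimate; the Leibniz rule for `t ↦ ∫₀ᵗ k τ (t - τ) dτ`.
-/

set_option autoImplicit false
set_option linter.unusedSectionVars false

open MeasureTheory Set Filter Topology SchwartzMap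

noncomputable section

namespace Crest.Agent.N207.P

variable {n : ℕ} {F V G : Type*} [NormedAddCommGroup F] [NormedSpace ℝ F]
  [NormedAddCommGroup V] [NormedSpace ℝ V] [NormedAddCommGroup G] [NormedSpace ℝ G]

/-- global version of `Yb` -/
structure Gy (A c : ℝ) (f : ℝ → En n → F) : Prop where
  cont : Continuous fun p : ℝ × En n => f p.1 p.2
  sup : ∀ t x, ‖f t x‖ ≤ A
  hol : ∀ t x y, ‖f t x - f t y‖ ≤ c * √(dist x y)

theorem Gy.slice {A c : ℝ} {f : ℝ → En n → F} (h : Gy A c f) (t : ℝ) : Continuous (f t) :=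
  h.cont.comp (Continuous.prodMk_right t)

def kern (p : ℕ) (L : V →L[ℝ] F →L[ℝ] G) (φ : 𝓢(En n, V)) (g : En n → F) (x : En n) (τ : ℝ) : G :=
  ((√τ)⁻¹) ^ p • Mv L φ (√τ) g x

def DI (p : ℕ) (L : V →L[ℝ] F →L[ℝ] G) (φ : 𝓢(En n, V)) (f : ℝ → En n → F) (t : ℝ) (x : En n) :
    G := ∫ τ in (0 : ℝ)..t, kern p L φ (f (t - τ)) x τ

/-- the kernel bound `K τ^(-γ)` -/
def KB (p : ℕ) (L : V →L[ℝ] F →L[ℝ] G) (φ : 𝓢(En n, V)) (f : ℝ → En n → F) (K γ : ℝ) : Prop :=
  ∀ r x, ∀ τ : ℝ, 0 < τ → ‖kern p L φ (f r) x τ‖ ≤ K * τ ^ (-γ)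

variable {p : ℕ} {L : V →L[ℝ] F →L[ℝ] G} {φ : 𝓢(En n, V)} {f : ℝ → En n → F} {A c K γ : ℝ}

theorem sqrt_inv_pow {τ : ℝ} (hτ : 0 < τ) (p : ℕ) : ((√τ)⁻¹) ^ p = τ ^ (-((p : ℝ) / 2)) := by
  rw [Real.sqrt_eq_rpow, ← Real.rpow_neg hτ.le, ← Real.rpow_natCast, ← Real.rpow_mul hτ.le]
  congr 1; ring

theorem kb_sup (h : Gy A c f) : KB p L φ f (‖L‖ * A * m0 φ) (p / 2) := by
  intro r x τ hτ
  unfold kern
  rw [norm_smul, Real.norm_eq_abs, abs_of_nonneg (by positivity), sqrt_inv_pow hτ, mul_comm]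
  exact mul_le_mul_of_nonneg_right (Mv_le L φ (h.sup r) _ _) (by positivity)

theorem kb_hol (h : Gy A c f) (h0 : ∀ v : F, ∫ z, L (φ z) v = 0) :
    KB p L φ f (‖L‖ * c * m1 φ) (p / 2 - 1 / 4) := by
  intro r x τ hτ
  unfold kern
  rw [norm_smul, Real.norm_eq_abs, abs_of_nonneg (by positivity), sqrt_inv_pow hτ]
  have h1 := Mv_le_hol L φ h0 (h.slice r) (h.sup r) (h.hol r) (Real.sqrt_nonneg τ) x
  have e : √(√τ) = τ ^ (1 / 4 : ℝ) := by
    rw [Real.sqrt_eq_rpow, Real.sqrt_eq_rpow, ← Real.rpow_mul hτ.le]; norm_num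
  rw [e] at h1
  refine (mul_le_mul_of_nonneg_left h1 (by positivity)).trans (le_of_eq ?_)
  rw [show -((p : ℝ) / 2 - 1 / 4) = -((p : ℝ) / 2) + 1 / 4 by ring, Real.rpow_add hτ]
  ring

theorem kern_meas (h : Gy A c f) (t : ℝ) (x : En n) (μ : Measure ℝ) :
    AEStronglyMeasurable (fun τ => kern p L φ (f (t - τ)) x τ) μ := by
  have h1 : Continuous fun τ : ℝ => Mv L φ (√τ) (f (t - τ)) x :=
    continuous_Mv L φ (g := fun τ => f (t - τ)) Real.continuous_sqrt continuous_const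
      (h.cont.comp ((continuous_const.sub continuous_fst).prodMk continuous_snd))
      (fun _ _ => h.sup _ _)
  have h2 : Measurable fun τ : ℝ => ((√τ)⁻¹) ^ p := by fun_prop
  exact h2.aestronglyMeasurable.smul h1.aestronglyMeasurable

theorem intg_rpow (hγ : γ < 1) (K a b : ℝ) :
    IntervalIntegrable (fun τ : ℝ => K * τ ^ (-γ)) volume a b :=
  (intervalIntegral.intervalIntegrable_rpow' (by linarith)).const_mul K

theorem kern_intg (h : Gy A c f) (hb : KB p L φ f K γ) (hγ : γ < 1) (t : ℝ) {a b : ℝ} (ha : 0 ≤ a)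
    (hab : a ≤ b) (x : En n) :
    IntervalIntegrable (fun τ => kern p L φ (f (t - τ)) x τ) volume a b := by
  refine (intg_rpow hγ K a b).mono_fun' (kern_meas h t x _) ?_
  rw [uIoc_of_le hab]
  filter_upwards [ae_restrict_mem measurableSet_Ioc] with τ hτ
  exact hb _ _ _ (ha.trans_lt hτ.1)

theorem int_rpow (hγ : γ < 1) (K : ℝ) (b : ℝ) :
    ∫ τ in (0 : ℝ)..b, K * τ ^ (-γ) = K * (b ^ (1 - γ) / (1 - γ)) := by
  rw [intervalIntegral.integral_const_mul, integral_rpow (Or.inl (by linarith)),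
    Real.zero_rpow (by linarith), sub_zero, show -γ + 1 = 1 - γ by ring]

theorem part_le (hb : KB p L φ f K γ) (hγ : γ < 1) (t : ℝ) {b : ℝ} (hb0 : 0 ≤ b) (x : En n) :
    ‖∫ τ in (0 : ℝ)..b, kern p L φ (f (t - τ)) x τ‖ ≤ K * (b ^ (1 - γ) / (1 - γ)) := by
  rw [← int_rpow hγ]
  refine intervalIntegral.norm_integral_le_of_norm_le hb0 (Eventually.of_forall fun τ hτ => ?_)
    (intg_rpow hγ K 0 b)
  exact hb _ _ _ hτ.1

theorem DI_le (hb : KB p L φ f K γ) (hγ : γ < 1) {t : ℝ} (ht : 0 ≤ t) (x : En n) :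
    ‖DI p L φ f t x‖ ≤ K * (t ^ (1 - γ) / (1 - γ)) := part_le hb hγ t ht x

theorem DI_cont (h : Gy A c f) (hb : KB p L φ f K γ) (hγ : γ < 1) (T : ℝ) :
    ContinuousOn (fun q : ℝ × En n => DI p L φ f q.1 q.2) (Icc 0 T ×ˢ univ) := by
  have e : ∀ q ∈ Icc (0 : ℝ) T ×ˢ (univ : Set (En n)), DI p L φ f q.1 q.2 =
      ∫ τ in Ioc 0 T, (Iic q.1).indicator (fun τ => kern p L φ (f (q.1 - τ)) q.2 τ) τ := by
    intro q hq
    rw [setIntegral_indicator measurableSet_Iic, DI, intervalIntegral.integral_of_le hq.1.1]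
    congr 2
    ext τ
    simp only [mem_Ioc, mem_inter_iff, mem_Iic]
    exact ⟨fun h => ⟨⟨h.1, h.2.trans hq.1.2⟩, h.2⟩, fun h => ⟨h.1.1, h.2⟩⟩
  refine ContinuousOn.congr (fun q hq => ?_) e
  have hT : 0 ≤ T := hq.1.1.trans hq.1.2
  refine continuousWithinAt_of_dominated (bound := fun τ => |K| * τ ^ (-γ))
    (Eventually.of_forall fun q => (kern_meas h _ _ _).indicator measurableSet_Iic)
    (Eventually.of_forall fun q => ?_)
    ((intervalIntegrable_iff_integrableOn_Ioc_of_le hT).1 (intg_rpow hγ _ 0 T)) ?_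
  · filter_upwards [ae_restrict_mem measurableSet_Ioc] with τ hτ
    have hτ0 := hτ.1
    refine (norm_indicator_le_norm_self _ _).trans ((hb _ _ _ hτ.1).trans ?_)
    exact mul_le_mul_of_nonneg_right (le_abs_self K) (by positivity)
  · have hne : ∀ᵐ τ ∂(volume.restrict (Ioc 0 T)), τ ≠ q.1 :=
      ae_restrict_of_ae (by simp [ae_iff])
    filter_upwards [hne] with τ hτ
    refine ContinuousAt.continuousWithinAt ?_
    rcases lt_or_gt_of_ne hτ with hl | hl
    · have hc : Continuous fun q : ℝ × En n => kern p L φ (f (q.1 - τ)) q.2 τ :=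
        (continuous_Mv L φ (g := fun q : ℝ × En n => f (q.1 - τ)) continuous_const continuous_snd
          (h.cont.comp ((continuous_fst.fst.sub continuous_const).prodMk continuous_snd))
          (fun _ _ => h.sup _ _)).const_smul _
      refine hc.continuousAt.congr ?_
      filter_upwards [(isOpen_lt continuous_const continuous_fst).mem_nhds
        (show q ∈ {q : ℝ × En n | τ < q.1} from hl)] with q' hq'
      rw [indicator_of_mem (show τ ∈ Iic q'.1 from le_of_lt hq')]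
    · refine (continuousAt_const (y := (0 : G))).congr ?_
      filter_upwards [(isOpen_lt continuous_fst continuous_const).mem_nhds
        (show q ∈ {q : ℝ × En n | q.1 < τ} from hl)] with q' hq'
      rw [indicator_of_notMem (show τ ∉ Iic q'.1 from not_le.2 hq')]

theorem kern_fderiv {g : En n → F} (hg : Continuous g) (hA : ∀ x, ‖g x‖ ≤ A) {τ : ℝ} (hτ : 0 < τ)
    (x : En n) : HasFDerivAt (fun x => kern p L φ g x τ)
      (kern (p + 1) (L.precompL (En n)) (fderivCLM ℝ (En n) V φ) g x τ) x := by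
  have h := (hasFDerivAt_Mv L φ hg hA (Real.sqrt_pos.2 hτ) x).const_smul (((√τ)⁻¹) ^ p)
  refine h.congr_fderiv ?_
  rw [kern, smul_smul, pow_succ]

theorem DI_fderiv (h : Gy A c f) (hb : KB p L φ f K γ) (hγ : γ < 1) {K' γ' : ℝ}
    (hb' : KB (p + 1) (L.precompL (En n)) (fderivCLM ℝ (En n) V φ) f K' γ') (hγ' : γ' < 1) {t : ℝ}
    (ht : 0 ≤ t) (x : En n) :
    HasFDerivAt (DI p L φ f t) (DI (p + 1) (L.precompL (En n)) (fderivCLM ℝ (En n) V φ) f t x) x := by
  refine hasFDerivAt_integral_of_dominated_of_fderiv_le'' (s := univ)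
    (F := fun x τ => kern p L φ (f (t - τ)) x τ)
    (F' := fun x τ => kern (p + 1) (L.precompL (En n)) (fderivCLM ℝ (En n) V φ) (f (t - τ)) x τ)
    (bound := fun τ => K' * τ ^ (-γ')) univ_mem (Eventually.of_forall fun x => kern_meas h t x _)
    (kern_intg h hb hγ t le_rfl ht x) (kern_meas h t x _) ?_ (intg_rpow hγ' _ _ _) ?_
  · rw [uIoc_of_le ht]
    filter_upwards [ae_restrict_mem measurableSet_Ioc] with τ hτ x _
    exact hb' _ _ _ hτ.1
  · rw [uIoc_of_le ht]
    filter_upwards [ae_restrict_mem measurableSet_Ioc] with τ hτ x _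
    exact kern_fderiv (h.slice _) (h.sup _) hτ.1 x

theorem DI_hol (h : Gy A c f) (hb : KB p L φ f K (3 / 4)) (hK : 0 ≤ K) {K' : ℝ} (hK' : 0 ≤ K')
    (hb' : KB (p + 1) (L.precompL (En n)) (fderivCLM ℝ (En n) V φ) f K' (5 / 4)) {t : ℝ}
    (ht : 0 ≤ t) (x y : En n) :
    ‖DI p L φ f t x - DI p L φ f t y‖ ≤ (8 * K + 4 * K') * √(dist x y) := by
  rcases eq_or_ne x y with rfl | hxy
  · simp
  set r := dist x y with hr
  have hr0 : 0 < r := dist_pos.2 hxy
  have e4 : (r ^ 2) ^ (1 - 3 / 4 : ℝ) = √r := by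
    rw [Real.sqrt_eq_rpow, ← Real.rpow_natCast, ← Real.rpow_mul hr0.le]; norm_num
  have h34 : (3 / 4 : ℝ) < 1 := by norm_num
  have hs : 0 ≤ √r := Real.sqrt_nonneg r
  rcases le_or_gt t (r ^ 2) with hl | hl
  · have h1 : t ^ (1 - 3 / 4 : ℝ) ≤ √r := e4 ▸ Real.rpow_le_rpow ht hl (by norm_num)
    have h2 := DI_le hb h34 ht x
    have h3 := DI_le hb h34 ht y
    have h4 := norm_sub_le (DI p L φ f t x) (DI p L φ f t y)
    have h5 := mul_le_mul_of_nonneg_left h1 hK
    have e7 : ∀ u : ℝ, K * (u / (1 - 3 / 4)) = 4 * (K * u) := fun u => by ring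
    rw [e7] at h2 h3
    have h6 := mul_nonneg hK' hs
    rw [add_mul, mul_assoc, mul_assoc]
    linarith
  · have hr2 : 0 < r ^ 2 := by positivity
    have sp : ∀ z, DI p L φ f t z = (∫ τ in (0 : ℝ)..r ^ 2, kern p L φ (f (t - τ)) z τ) +
        ∫ τ in r ^ 2..t, kern p L φ (f (t - τ)) z τ := fun z =>
      (intervalIntegral.integral_add_adjacent_intervals (kern_intg h hb h34 t le_rfl hr2.le z)
        (kern_intg h hb h34 t hr2.le hl.le z)).symm
    have h1 := part_le hb h34 t hr2.le x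
    have h2 := part_le hb h34 t hr2.le y
    rw [e4] at h1 h2
    have h3 : ‖(∫ τ in r ^ 2..t, kern p L φ (f (t - τ)) x τ) -
        ∫ τ in r ^ 2..t, kern p L φ (f (t - τ)) y τ‖ ≤ 4 * K' * √r := by
      rw [← intervalIntegral.integral_sub (kern_intg h hb h34 t hr2.le hl.le x)
        (kern_intg h hb h34 t hr2.le hl.le y)]
      have hi : IntervalIntegrable (fun τ : ℝ => K' * r * τ ^ (-(5 / 4) : ℝ)) volume (r ^ 2) t := by
        refine (intervalIntegral.intervalIntegrable_rpow (Or.inr ?_)).const_mul _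
        rw [uIcc_of_le hl.le]
        exact fun h => absurd h.1 (not_le.2 hr2)
      refine (intervalIntegral.norm_integral_le_of_norm_le hl.le
        (Eventually.of_forall fun τ hτ => ?_) hi).trans ?_
      · have hτ0 : 0 < τ := hr2.trans hτ.1
        have := Convex.norm_image_sub_le_of_norm_hasFDerivWithin_le (𝕜 := ℝ) (s := univ)
          (f := fun z => kern p L φ (f (t - τ)) z τ) (C := K' * τ ^ (-(5 / 4) : ℝ))
          (fun z _ => (kern_fderiv (h.slice _) (h.sup _) hτ0 z).hasFDerivWithinAt)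
          (fun z _ => hb' _ _ _ hτ0) convex_univ (mem_univ y) (mem_univ x)
        rw [← dist_eq_norm x y, ← hr] at this
        refine this.trans (le_of_eq (by ring))
      · rw [intervalIntegral.integral_const_mul, integral_rpow (Or.inr ⟨by norm_num, ?_⟩)]
        swap
        · rw [uIcc_of_le hl.le]
          exact fun h => absurd h.1 (not_le.2 hr2)
        have e5 : r * (r ^ 2) ^ (-(5 / 4) + 1 : ℝ) = √r := by
          rw [Real.sqrt_eq_rpow, ← Real.rpow_natCast, ← Real.rpow_mul hr0.le]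
          nth_rewrite 1 [← Real.rpow_one r]
          rw [← Real.rpow_add hr0]; norm_num
        have h6 : 0 ≤ K' * r * t ^ (-(5 / 4) + 1 : ℝ) := by positivity
        have e6 : K' * r * ((t ^ (-(5 / 4) + 1 : ℝ) - (r ^ 2) ^ (-(5 / 4) + 1 : ℝ)) / (-(5 / 4) + 1))
            = 4 * K' * (r * (r ^ 2) ^ (-(5 / 4) + 1 : ℝ)) - 4 * (K' * r * t ^ (-(5 / 4) + 1 : ℝ)) := by
          ring
        rw [e6, e5]
        linarith
    rw [sp x, sp y, add_sub_add_comm]
    refine (norm_add_le _ _).trans ?_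
    have h4 := norm_sub_le (∫ τ in (0 : ℝ)..r ^ 2, kern p L φ (f (t - τ)) x τ)
      (∫ τ in (0 : ℝ)..r ^ 2, kern p L φ (f (t - τ)) y τ)
    have e7 : ∀ u : ℝ, K * (u / (1 - 3 / 4)) = 4 * (K * u) := fun u => by ring
    rw [e7] at h1 h2
    rw [add_mul, mul_assoc 8]
    linarith

theorem DI_sub {g : ℝ → En n → F} {A' c' K' γ' : ℝ} (h : Gy A c f) (hb : KB p L φ f K γ) (hγ : γ < 1)
    (hg : Gy A' c' g) (hb' : KB p L φ g K' γ') (hγ' : γ' < 1) {t : ℝ} (ht : 0 ≤ t) (x : En n) :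
    DI p L φ (f - g) t x = DI p L φ f t x - DI p L φ g t x := by
  unfold DI
  rw [← intervalIntegral.integral_sub (kern_intg h hb hγ t le_rfl ht x)
    (kern_intg hg hb' hγ' t le_rfl ht x)]
  refine intervalIntegral.integral_congr fun τ _ => ?_
  simp only [kern, Pi.sub_apply]
  rw [Mv_sub L φ (h.slice _) (hg.slice _) (h.sup _) (hg.sup _), smul_sub]

section leibniz

variable [CompleteSpace F]

theorem hasDerivAt_diag {Φ : ℝ → ℝ → F} (hΦ : Continuous fun q : ℝ × ℝ => Φ q.1 q.2) (t : ℝ) :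
    HasDerivAt (fun u => ∫ σ in t..u, Φ u σ) (Φ t t) t := by
  rw [hasDerivAt_iff_isLittleO, Asymptotics.isLittleO_iff]
  intro ε hε
  obtain ⟨δ, hδ, h⟩ := Metric.continuousAt_iff.1 (hΦ.continuousAt (x := (t, t))) ε hε
  filter_upwards [Metric.ball_mem_nhds t hδ] with u hu
  have hc : Continuous (Φ u) := hΦ.comp (Continuous.prodMk_right u)
  have e : (∫ σ in t..u, Φ u σ) - (∫ σ in t..t, Φ t σ) - (u - t) • Φ t t =
      ∫ σ in t..u, (Φ u σ - Φ t t) := by
    rw [intervalIntegral.integral_sub (hc.intervalIntegrable _ _) (by simp)]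
    simp
  rw [e, Real.norm_eq_abs]
  refine intervalIntegral.norm_integral_le_of_norm_le_const fun σ hσ => ?_
  rw [← dist_eq_norm]
  refine (h (x := (u, σ)) ?_).le
  rw [Prod.dist_eq, max_lt_iff]
  refine ⟨hu, lt_of_le_of_lt ?_ hu⟩
  rw [Real.dist_eq, Real.dist_eq]
  exact abs_sub_left_of_mem_uIcc (uIoc_subset_uIcc hσ)

theorem leibniz_right {k q : ℝ → ℝ → F} (hk : Continuous fun z : ℝ × ℝ => k z.1 z.2)
    (hq : ∀ σ τ, 0 < τ → HasDerivAt (fun τ => k τ σ) (q τ σ) τ) (hK : 0 ≤ K)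
    (hb : ∀ σ τ, 0 < τ → ‖q τ σ‖ ≤ K * τ ^ (-(3 / 4) : ℝ)) {t : ℝ} (ht : 0 ≤ t) :
    HasDerivWithinAt (fun u => ∫ τ in (0 : ℝ)..u, k τ (u - τ))
      (k 0 t + ∫ τ in (0 : ℝ)..t, q τ (t - τ)) (Ioi t) t := by
  have e : (fun u => ∫ τ in (0 : ℝ)..u, k τ (u - τ)) = fun u =>
      (∫ σ in t..u, k (u - σ) σ) + ∫ τ in (0 : ℝ)..t, k (τ + (u - t)) (t - τ) := by
    funext u
    have hc : Continuous fun σ => k (u - σ) σ := hk.comp ((continuous_const.sub continuous_id).prodMk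
      continuous_id)
    have h1 := intervalIntegral.integral_comp_sub_left (a := 0) (b := u) (fun σ => k (u - σ) σ) u
    have h2 := intervalIntegral.integral_comp_sub_left (a := 0) (b := t) (fun σ => k (u - σ) σ) t
    simp only [sub_sub_cancel, sub_self, sub_zero] at h1 h2
    rw [h1, ← intervalIntegral.integral_add_adjacent_intervals (b := t) (hc.intervalIntegrable _ _)
      (hc.intervalIntegrable _ _), add_comm, ← h2]
    congr 1
    refine intervalIntegral.integral_congr fun τ _ => ?_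
    show k (u - (t - τ)) (t - τ) = k (τ + (u - t)) (t - τ)
    congr 1; ring
  rw [e]
  have hd := hasDerivAt_diag (Φ := fun u σ => k (u - σ) σ)
    (hk.comp ((continuous_fst.sub continuous_snd).prodMk continuous_snd)) t
  simp only [sub_self] at hd
  refine hd.hasDerivWithinAt.add ?_
  rw [hasDerivWithinAt_iff_tendsto_slope' (by simp)]
  have hc : ∀ u, Continuous fun τ => k (τ + (u - t)) (t - τ) := fun u =>
    hk.comp ((continuous_id.add continuous_const).prodMk (continuous_const.sub continuous_id))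
  have e2 : slope (fun u => ∫ τ in (0 : ℝ)..t, k (τ + (u - t)) (t - τ)) t = fun u =>
      ∫ τ in (0 : ℝ)..t, (u - t)⁻¹ • (k (τ + (u - t)) (t - τ) - k (τ + (t - t)) (t - τ)) := by
    funext u
    rw [slope, vsub_eq_sub, intervalIntegral.integral_smul,
      intervalIntegral.integral_sub ((hc u).intervalIntegrable _ _) ((hc t).intervalIntegrable _ _)]
  rw [e2]
  refine intervalIntegral.tendsto_integral_filter_of_dominated_convergence
    (fun τ => K * τ ^ (-(3 / 4) : ℝ))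
    (Eventually.of_forall fun u => (((hc u).sub (hc t)).const_smul _).aestronglyMeasurable) ?_
    (intg_rpow (by norm_num) _ _ _) (Eventually.of_forall fun τ hτ => ?_)
  · filter_upwards [self_mem_nhdsWithin] with u hu
    refine Eventually.of_forall fun τ hτ => ?_
    rw [uIoc_of_le ht] at hτ
    have hu' : 0 < u - t := sub_pos.2 hu
    have := norm_image_sub_le_of_norm_deriv_le_segment' (f := fun r => k r (t - τ))
      (f' := fun r => q r (t - τ)) (a := τ) (b := τ + (u - t)) (C := K * τ ^ (-(3 / 4) : ℝ))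
      (fun r hr => (hq _ _ (hτ.1.trans_le hr.1)).hasDerivWithinAt)
      (fun r hr => (hb _ _ (hτ.1.trans_le hr.1)).trans (mul_le_mul_of_nonneg_left
        (Real.rpow_le_rpow_of_nonpos hτ.1 hr.1 (by norm_num)) hK))
      (τ + (u - t)) ⟨by linarith, le_rfl⟩
    rw [norm_smul, Real.norm_eq_abs, abs_of_pos (by positivity), sub_self, add_zero,
      inv_mul_le_iff₀ hu']
    refine this.trans (le_of_eq (by ring))
  · rw [uIoc_of_le ht] at hτ
    have h1 : HasDerivAt (fun u => k (τ + (u - t)) (t - τ)) (q τ (t - τ)) t := by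
      have h2 := hq (t - τ) (τ + (t - t)) (by simpa using hτ.1)
      have h3 := h2.scomp t (((hasDerivAt_id t).sub_const t).const_add τ)
      simpa [Function.comp_def] using h3
    have h4 := (hasDerivWithinAt_iff_tendsto_slope' (s := Ioi t) (by simp)).1 h1.hasDerivWithinAt
    refine h4.congr fun u => ?_
    rw [slope, vsub_eq_sub]

theorem hasDerivWithinAt_Icc_of_right {W g : ℝ → F} {T : ℝ} (hW : ContinuousOn W (Icc 0 T))
    (hg : ContinuousOn g (Icc 0 T)) (hd : ∀ t ∈ Ioo 0 T, HasDerivWithinAt W (g t) (Ioi t) t)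
    {t : ℝ} (ht : t ∈ Icc 0 T) : HasDerivWithinAt W (g t) (Icc 0 T) t := by
  have hi : ∀ u ∈ Icc 0 T, IntervalIntegrable g volume 0 u := fun u hu =>
    (hg.mono (by rw [uIcc_of_le hu.1]; exact Icc_subset_Icc le_rfl hu.2)).intervalIntegrable
  have e : ∀ u ∈ Icc 0 T, W u = W 0 + ∫ r in (0 : ℝ)..u, g r := fun u hu => by
    rw [intervalIntegral.integral_eq_sub_of_hasDeriv_right_of_le hu.1
      (hW.mono (Icc_subset_Icc le_rfl hu.2)) (fun r hr => hd r ⟨hr.1, hr.2.trans_le hu.2⟩) (hi u hu)]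
    simp
  have : Fact (t ∈ Icc 0 T) := ⟨ht⟩
  have h1 := intervalIntegral.integral_hasDerivWithinAt_right (s := Icc 0 T) (t := Icc 0 T)
    (hi t ht) (hg.stronglyMeasurableAtFilter_nhdsWithin measurableSet_Icc t) (hg t ht)
  exact (h1.const_add (W 0)).congr e (e t ht)

end leibniz

end Crest.Agent.N207.P
end
end

-- ▼ part N207/P/H3
section

/-!
# Row 207, parabolic solver (helper17): the Gaussian kernel and the Schauder estimate

* `exists_kernel` : the anisotropic Gaussian of a positive definite matrix;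
* `schauder` : `SchauderStmt n F`;
* small lemmas on `Yb` (`congr`, `mono`, `nonneg`), `hol_of_lip`.
-/

set_option autoImplicit false
set_option linter.unusedSectionVars false

open MeasureTheory Set Filter Topology SchwartzMap
open scoped InnerProductSpace MatrixOrder

noncomputable section

namespace Crest.Agent.N207.P

variable {n : ℕ} {F : Type*} [NormedAddCommGroup F] [NormedSpace ℝ F]

theorem exists_root {a : Matrix (Fin n) (Fin n) ℝ} (ha : a.PosDef) :
    ∃ P Q : Matrix (Fin n) (Fin n) ℝ, P * Q = 1 ∧ Q * P = 1 ∧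
      P * a * P.transpose = (1 / 2 : ℝ) • (1 : Matrix (Fin n) (Fin n) ℝ) := by
  obtain ⟨B, hB⟩ := CStarAlgebra.nonneg_iff_eq_star_mul_self.mp ha.posSemidef.nonneg
  have hB' : a = B.transpose * B := by rw [hB]; rfl
  have hd : IsUnit B.det := by
    have h := ha.det_pos
    rw [hB', Matrix.det_mul, Matrix.det_transpose] at h
    exact isUnit_iff_ne_zero.2 fun h0 => by simp [h0] at h
  have hd' : IsUnit B.transpose.det := by rwa [Matrix.det_transpose]
  have h2 : (0 : ℝ) < √2 := by positivity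
  refine ⟨(√2)⁻¹ • B.transpose⁻¹, √2 • B.transpose, ?_, ?_, ?_⟩
  · rw [Matrix.smul_mul, Matrix.mul_smul, smul_smul, Matrix.nonsing_inv_mul _ hd',
      inv_mul_cancel₀ h2.ne', one_smul]
  · rw [Matrix.smul_mul, Matrix.mul_smul, smul_smul, Matrix.mul_nonsing_inv _ hd',
      mul_inv_cancel₀ h2.ne', one_smul]
  · rw [hB', Matrix.transpose_smul, Matrix.transpose_nonsing_inv, Matrix.transpose_transpose,
      Matrix.smul_mul, Matrix.smul_mul, Matrix.mul_smul, smul_smul, ← Matrix.mul_assoc,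
      Matrix.nonsing_inv_mul _ hd', Matrix.one_mul, Matrix.mul_nonsing_inv _ hd, ← mul_inv,
      Real.mul_self_sqrt (by norm_num), one_div]

theorem exists_kernel {a : Matrix (Fin n) (Fin n) ℝ} (ha : a.PosDef) :
    ∃ G : 𝓢(En n, ℝ), ∫ z, G z = 1 ∧ ∀ z, fderiv ℝ G z z = -(n * G z) -
      2 * ∑ k, ∑ l, a k l * fderiv ℝ (fderiv ℝ G) z (EuclideanSpace.single k 1)
        (EuclideanSpace.single l 1) := by
  obtain ⟨P, Q, hPQ, hQP, hP⟩ := exists_root ha
  let T : En n ≃L[ℝ] En n := ContinuousLinearEquiv.equivOfInverse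
    (Matrix.toEuclideanCLM (𝕜 := ℝ) P) (Matrix.toEuclideanCLM (𝕜 := ℝ) Q)
    (fun x => by rw [← mul_apply_eq_comp, ← map_mul, hQP, map_one]; rfl)
    (fun x => by rw [← mul_apply_eq_comp, ← map_mul, hPQ, map_one]; rfl)
  have hT : ∀ k i, T (EuclideanSpace.single k 1) i = P i k := fun k i => by
    show (Matrix.toEuclideanCLM (𝕜 := ℝ) P (EuclideanSpace.single k 1)).ofLp i = _
    rw [Matrix.ofLp_toEuclideanCLM]
    simp
  let G0 : 𝓢(En n, ℝ) := compCLMOfContinuousLinearEquiv ℝ T (R338.HO.gaussRS (En n))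
  have hG0 : ∀ z, G0 z = Real.exp (-(‖T z‖ ^ 2) / 2) := fun z => rfl
  have hpos : 0 < ∫ z, G0 z := integral_pos_of_integrable_nonneg_nonzero (x := 0) G0.continuous
    G0.integrable (fun z => (Real.exp_pos _).le) (Real.exp_pos _).ne'
  set c := (∫ z, G0 z)⁻¹ with hc
  have hG : ∀ z, (c • G0) z = c * Real.exp (-(‖T z‖ ^ 2) / 2) := fun z => rfl
  have hD : ∀ z, HasFDerivAt (c • G0 : 𝓢(En n, ℝ))
      (-((c • G0) z) • (innerSL ℝ (T z)).comp (T : En n →L[ℝ] En n)) z := fun z => by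
    have h1 := ((((T : En n →L[ℝ] En n).hasFDerivAt (x := z)).norm_sq.const_mul
      (-(1 / 2) : ℝ)).exp).const_mul c
    have e : ((c • G0 : 𝓢(En n, ℝ)) : En n → ℝ) =
        fun y => c * Real.exp (-(1 / 2) * ‖(T : En n →L[ℝ] En n) y‖ ^ 2) := by
      funext y
      rw [hG]
      congr 2
      simp only [ContinuousLinearEquiv.coe_coe]
      ring
    rw [e]
    refine h1.congr_fderiv ?_
    ext v
    simp
    ring
  have hD' : fderiv ℝ (c • G0 : 𝓢(En n, ℝ)) =
      fun z => -((c • G0) z) • (innerSL ℝ (T z)).comp (T : En n →L[ℝ] En n) :=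
    funext fun z => (hD z).fderiv
  have hD2 : ∀ z u v, fderiv ℝ (fderiv ℝ (c • G0 : 𝓢(En n, ℝ))) z u v =
      (⟪T z, T u⟫_ℝ * ⟪T z, T v⟫_ℝ - ⟪T u, T v⟫_ℝ) * (c • G0) z := fun z u v => by
    let M : En n →L[ℝ] En n →L[ℝ] ℝ :=
      ((ContinuousLinearMap.compL ℝ (En n) (En n) ℝ).flip (T : En n →L[ℝ] En n)).comp
        ((innerSL ℝ).comp (T : En n →L[ℝ] En n))
    have h1 := (hD z).neg.smul (M.hasFDerivAt (x := z))
    have e : fderiv ℝ (c • G0 : 𝓢(En n, ℝ)) = (-(c • G0 : 𝓢(En n, ℝ)) : En n → ℝ) • (M : En n → _) := by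
      rw [hD']; rfl
    rw [e, h1.fderiv]
    simp [M]
    ring
  refine ⟨c • G0, ?_, fun z => ?_⟩
  · simp only [hG, ← hG0]
    rw [integral_const_mul, hc, inv_mul_cancel₀ hpos.ne']
  · simp only [hD2]
    rw [hD']
    set w := T z with hw
    have hin : ∀ k, ⟪w, T (EuclideanSpace.single k 1)⟫_ℝ = ∑ i, w i * P i k := fun k => by
      simp [PiLp.inner_apply, hT, mul_comm]
    have hin2 : ∀ k l, ⟪T (EuclideanSpace.single k 1), T (EuclideanSpace.single l 1)⟫_ℝ =
        ∑ i, P i k * P i l := fun k l => by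
      simp [PiLp.inner_apply, hT, mul_comm]
    have hE : ∀ i j, ∑ k, ∑ l, P i k * a k l * P j l = if i = j then 1 / 2 else 0 := fun i j => by
      have := congrFun (congrFun hP i) j
      simp only [Matrix.mul_apply, Matrix.transpose_apply, Matrix.smul_apply, Matrix.one_apply,
        smul_eq_mul, mul_ite, mul_one, mul_zero, Finset.sum_mul] at this
      rw [Finset.sum_comm, this]
    have s1 : ∑ k, ∑ l, a k l * ((∑ i, w i * P i k) * ∑ j, w j * P j l) = ‖w‖ ^ 2 / 2 := by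
      calc _ = ∑ k, ∑ l, ∑ i, ∑ j, w i * w j * (P i k * a k l * P j l) := by
            refine Finset.sum_congr rfl fun k _ => Finset.sum_congr rfl fun l _ => ?_
            rw [Finset.sum_mul_sum, Finset.mul_sum]
            refine Finset.sum_congr rfl fun i _ => ?_
            rw [Finset.mul_sum]
            exact Finset.sum_congr rfl fun j _ => by ring
        _ = ∑ i, ∑ j, w i * w j * ∑ k, ∑ l, (P i k * a k l * P j l) := by
            simp only [Finset.mul_sum]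
            rw [Finset.sum_congr rfl fun k _ => Finset.sum_comm, Finset.sum_comm]
            refine Finset.sum_congr rfl fun i _ => ?_
            rw [Finset.sum_congr rfl fun k _ => Finset.sum_comm, Finset.sum_comm]
        _ = ‖w‖ ^ 2 / 2 := by
            simp only [hE, mul_ite, mul_zero, Finset.sum_ite_eq, Finset.mem_univ, if_true]
            rw [EuclideanSpace.real_norm_sq_eq, Finset.sum_div]
            exact Finset.sum_congr rfl fun i _ => by ring
    have s2 : ∑ k, ∑ l, a k l * ∑ i, P i k * P i l = n / 2 := by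
      calc _ = ∑ i, ∑ k, ∑ l, P i k * a k l * P i l := by
            simp only [Finset.mul_sum]
            rw [Finset.sum_congr rfl fun k _ => Finset.sum_comm, Finset.sum_comm]
            exact Finset.sum_congr rfl fun i _ => Finset.sum_congr rfl fun k _ =>
              Finset.sum_congr rfl fun l _ => by ring
        _ = n / 2 := by simp [hE]; ring
    have s3 : ∑ k, ∑ l, a k l * ((⟪w, T (EuclideanSpace.single k 1)⟫_ℝ *
        ⟪w, T (EuclideanSpace.single l 1)⟫_ℝ -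
        ⟪T (EuclideanSpace.single k 1), T (EuclideanSpace.single l 1)⟫_ℝ) * (c • G0) z) =
        (‖w‖ ^ 2 / 2 - n / 2) * (c • G0) z := by
      rw [← s1, ← s2, ← Finset.sum_sub_distrib, Finset.sum_mul]
      refine Finset.sum_congr rfl fun k _ => ?_
      rw [← Finset.sum_sub_distrib, Finset.sum_mul]
      refine Finset.sum_congr rfl fun l _ => ?_
      rw [hin, hin, hin2]; ring
    rw [s3]
    simp [← hw]
    ring

section Y

variable {X : Type*} [TopologicalSpace X] {d : X → X → ℝ} {τ A c : ℝ} {f g : ℝ → X → F}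

theorem Yb.congr (h : Yb d τ A c f) (e : ∀ t ∈ Icc 0 τ, g t = f t) : Yb d τ A c g :=
  ⟨h.cont.congr fun q hq => by simp only [e q.1 hq.1], fun t ht x => e t ht ▸ h.sup t ht x,
    fun t ht x y => e t ht ▸ h.hol t ht x y⟩

theorem Yb.mono (h : Yb d τ A c f) {A' c' : ℝ} (hA : A ≤ A') (hc : c ≤ c') : Yb d τ A' c' f :=
  ⟨h.cont, fun t ht x => (h.sup t ht x).trans hA, fun t ht x y =>
    (h.hol t ht x y).trans (mul_le_mul_of_nonneg_right hc (Real.sqrt_nonneg _))⟩

theorem Yb.nonneg [Nonempty X] (h : Yb d τ A c f) (hτ : 0 ≤ τ) : 0 ≤ A :=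
  (norm_nonneg _).trans (h.sup 0 ⟨le_rfl, hτ⟩ (Classical.arbitrary X))

end Y

theorem hol_of_lip {X : Type*} [PseudoMetricSpace X] {v : X → F} {a b : ℝ} (ha : ∀ x, ‖v x‖ ≤ a)
    (hb0 : 0 ≤ b) (hb : ∀ x y, ‖v x - v y‖ ≤ b * dist x y) (x y : X) :
    ‖v x - v y‖ ≤ (2 * a + b) * √(dist x y) := by
  have ha0 : 0 ≤ a := (norm_nonneg _).trans (ha x)
  have hs := Real.sqrt_nonneg (dist x y)
  rcases le_total (dist x y) 1 with h | h
  · have h1 : dist x y ≤ √(dist x y) := by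
      rw [Real.le_sqrt dist_nonneg dist_nonneg]; nlinarith [dist_nonneg (x := x) (y := y)]
    have h2 := mul_le_mul_of_nonneg_left h1 hb0
    nlinarith [hb x y, mul_nonneg ha0 hs]
  · have h1 : 1 ≤ √(dist x y) := Real.one_le_sqrt.2 h
    nlinarith [norm_sub_le (v x) (v y), ha x, ha y, mul_nonneg hb0 hs]

theorem lip_of_fderiv {v : En n → F} {v' : En n → En n →L[ℝ] F} (h : ∀ x, HasFDerivAt v (v' x) x)
    {b : ℝ} (hb : ∀ x, ‖v' x‖ ≤ b) (x y : En n) : ‖v x - v y‖ ≤ b * dist x y := by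
  rw [dist_eq_norm]
  exact Convex.norm_image_sub_le_of_norm_hasFDerivWithin_le (𝕜 := ℝ) (s := univ)
    (fun z _ => (h z).hasFDerivWithinAt) (fun z _ => hb z) convex_univ (mem_univ y) (mem_univ x)

theorem Yb.apply {G : Type*} [NormedAddCommGroup G] [NormedSpace ℝ G] {τ A c : ℝ}
    {f : ℝ → En n → En n →L[ℝ] G} (h : Yb dist τ A c f) (k : Fin n) :
    Yb dist τ A c (fun t x => f t x (EuclideanSpace.single k 1)) := by
  have hk : ∀ T : En n →L[ℝ] G, ‖T (EuclideanSpace.single k 1)‖ ≤ ‖T‖ := fun T => by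
    simpa using T.le_opNorm (EuclideanSpace.single k 1)
  refine ⟨h.cont.clm_apply continuousOn_const, fun t ht x => (hk _).trans (h.sup t ht x),
    fun t ht x y => ?_⟩
  rw [← sub_apply]
  exact (hk _).trans (h.hol t ht x y)

theorem Yb.clamp {τ A c : ℝ} {f : ℝ → En n → F} (h : Yb dist τ A c f) (hτ : 0 ≤ τ) :
    Gy A c (fun t => f (projIcc 0 τ hτ t)) :=
  ⟨h.cont.comp_continuous
    (((continuous_subtype_val.comp (continuous_projIcc (h := hτ))).comp continuous_fst).prodMk continuous_snd)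
    fun q => ⟨(projIcc 0 τ hτ q.1).2, mem_univ _⟩,
   fun t x => h.sup _ (projIcc 0 τ hτ t).2 x, fun t x y => h.hol _ (projIcc 0 τ hτ t).2 x y⟩

theorem rpow_le_quarter {t τ γ : ℝ} (ht : t ∈ Icc 0 τ) (hτ : τ ≤ 1) (hγ : 1 / 4 ≤ γ) :
    t ^ γ ≤ τ ^ (1 / 4 : ℝ) :=
  (Real.rpow_le_rpow_of_exponent_ge' ht.1 (ht.2.trans hτ) (by norm_num) hγ).trans
    (Real.rpow_le_rpow ht.1 ht.2 (by norm_num))

end Crest.Agent.N207.P
end
end

-- ▼ part N207/P/H4
section

/-!
# Row 207, parabolic solver (helper17): `schauder : SchauderStmt n F`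
-/

set_option autoImplicit false
set_option linter.unusedSectionVars false

open MeasureTheory Set Filter Topology SchwartzMap

noncomputable section

namespace Crest.Agent.N207.P

variable {n : ℕ} {F : Type*} [NormedAddCommGroup F] [NormedSpace ℝ F]

abbrev L0 (F : Type*) [NormedAddCommGroup F] [NormedSpace ℝ F] : ℝ →L[ℝ] F →L[ℝ] F :=
  ContinuousLinearMap.lsmul ℝ ℝ

abbrev L1 (n : ℕ) (F : Type*) [NormedAddCommGroup F] [NormedSpace ℝ F] := (L0 F).precompL (En n)
abbrev G1 (G : 𝓢(En n, ℝ)) := fderivCLM ℝ (En n) ℝ G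
/-- directional derivative of a kernel -/
def Dv (v : En n) (G : 𝓢(En n, ℝ)) : 𝓢(En n, ℝ) :=
  (G1 G).postcompCLM (ContinuousLinearMap.apply ℝ ℝ v)
abbrev Dk (k : Fin n) (G : 𝓢(En n, ℝ)) : 𝓢(En n, ℝ) := Dv (EuclideanSpace.single k 1) G

/-- operator norm (instances fixed) -/
def nL {V H : Type*} [NormedAddCommGroup V] [NormedSpace ℝ V] [NormedAddCommGroup H]
    [NormedSpace ℝ H] (L : V →L[ℝ] F →L[ℝ] H) : ℝ := ‖L‖

theorem Dv_apply (v : En n) (G : 𝓢(En n, ℝ)) (z : En n) : Dv v G z = fderiv ℝ G z v := rfl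

variable [CompleteSpace F] {a : Matrix (Fin n) (Fin n) ℝ} {G : 𝓢(En n, ℝ)} {A c : ℝ}
  {f : ℝ → En n → F}

theorem KB.mono {V H : Type*} [NormedAddCommGroup V] [NormedSpace ℝ V] [NormedAddCommGroup H]
    [NormedSpace ℝ H] {p : ℕ} {L : V →L[ℝ] F →L[ℝ] H} {φ : 𝓢(En n, V)} {K K' γ : ℝ}
    (h : KB p L φ f K γ) (hK : K ≤ K') : KB p L φ f K' γ := fun r x τ hτ =>
  (h r x τ hτ).trans (mul_le_mul_of_nonneg_right hK (by positivity))

theorem Mv_apply {g : En n → F} (hg : Continuous g) (hA : ∀ x, ‖g x‖ ≤ A) (s : ℝ) (x v : En n) :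
    Mv (L1 n F) (G1 G) s g x v = Mv (L0 F) (Dv v G) s g x := by
  unfold Mv
  rw [ContinuousLinearMap.integral_apply (intg_Mv _ _ hg hA s x)]
  rfl

theorem Dv_zero (v : En n) (G : 𝓢(En n, ℝ)) (w : F) : ∫ z, L0 F (Dv v G z) w = 0 := by
  have h := Mv_apply (G := G) (g := fun _ => w) continuous_const (fun _ => le_rfl) 1 0 v
  have h2 : Mv (L1 n F) (G1 G) 1 (fun _ => w) 0 = 0 := integral_fderiv_zero (L0 F) G w
  rw [h2] at h
  exact h.symm

theorem DI_apply {p : ℕ} {K γ : ℝ} (h : Gy A c f) (hb : KB p (L1 n F) (G1 G) f K γ) (hγ : γ < 1)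
    {t : ℝ} (ht : 0 ≤ t) (x v : En n) :
    DI p (L1 n F) (G1 G) f t x v = DI p (L0 F) (Dv v G) f t x := by
  unfold DI
  rw [ContinuousLinearMap.intervalIntegral_apply (kern_intg h hb hγ t le_rfl ht x)]
  refine intervalIntegral.integral_congr fun τ _ => ?_
  simp only [kern, smul_apply, Mv_apply (h.slice _) (h.sup _)]

theorem kb2 (h : Gy A c f) (G : 𝓢(En n, ℝ)) :
    KB 2 (L1 n F) (G1 G) f (nL (L1 n F) * m1 (G1 G) * c) (3 / 4) := by
  have := kb_hol (p := 2) (L := L1 n F) (φ := G1 G) h (integral_fderiv_zero _ _)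
  unfold nL
  rwa [mul_right_comm, show ((2 : ℕ) : ℝ) / 2 - 1 / 4 = 3 / 4 by norm_num] at this

theorem kb2' (h : Gy A c f) (G : 𝓢(En n, ℝ)) (v : En n) :
    KB 2 (L0 F) (Dv v G) f (‖L0 F‖ * m1 (Dv v G) * c) (3 / 4) := by
  have := kb_hol (p := 2) (L := L0 F) (φ := Dv v G) h (Dv_zero _ _)
  rwa [mul_right_comm, show ((2 : ℕ) : ℝ) / 2 - 1 / 4 = 3 / 4 by norm_num] at this

theorem pd_S (h : Gy A c f) {t : ℝ} (ht : 0 ≤ t) (x : En n) :
    HasFDerivAt (DI 0 (L0 F) G f t) (DI 1 (L1 n F) (G1 G) f t x) x :=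
  DI_fderiv h (kb_sup h) (by norm_num) (kb_sup h) (by norm_num) ht x

theorem pd_S1 (h : Gy A c f) {t : ℝ} (ht : 0 ≤ t) (x : En n) :
    HasFDerivAt (DI 1 (L0 F) G f t) (DI 2 (L1 n F) (G1 G) f t x) x :=
  DI_fderiv h (kb_sup h) (by norm_num) (kb2 h G) (by norm_num) ht x

theorem pd1_eq (h : Gy A c f) {t : ℝ} (ht : 0 ≤ t) (l : Fin n) :
    pd l (DI 0 (L0 F) G f t) = DI 1 (L0 F) (Dk l G) f t :=
  funext fun x => by rw [pd, (pd_S h ht x).fderiv, DI_apply h (kb_sup h) (by norm_num) ht]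

theorem pd2_eq (h : Gy A c f) {t : ℝ} (ht : 0 ≤ t) (k l : Fin n) :
    pd k (pd l (DI 0 (L0 F) G f t)) = DI 2 (L0 F) (Dk k (Dk l G)) f t := by
  funext x
  rw [pd1_eq h ht, pd, (pd_S1 h ht x).fderiv, DI_apply h (kb2 h _) (by norm_num) ht]

theorem Dk_Dk (G : 𝓢(En n, ℝ)) (k l : Fin n) (z : En n) : Dk k (Dk l G) z =
    fderiv ℝ (fderiv ℝ G) z (EuclideanSpace.single k 1) (EuclideanSpace.single l 1) := by
  have h : HasFDerivAt (fderiv ℝ G) (fderiv ℝ (fderiv ℝ G) z) z :=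
    ((G1 G).differentiableAt (x := z)).hasFDerivAt
  have e : ((Dk l G : 𝓢(En n, ℝ)) : En n → ℝ) =
      fun z => fderiv ℝ G z (EuclideanSpace.single l 1) := rfl
  rw [Dv_apply, e, (h.clm_apply (hasFDerivAt_const _ z)).fderiv]
  simp

theorem heat_deriv (hG : ∀ z, fderiv ℝ G z z = -(n * G z) -
      2 * ∑ k, ∑ l, a k l * fderiv ℝ (fderiv ℝ G) z (EuclideanSpace.single k 1)
        (EuclideanSpace.single l 1)) {g : En n → F} (hg : Continuous g) (hA : ∀ x, ‖g x‖ ≤ A)
    (x : En n) {τ : ℝ} (hτ : 0 < τ) :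
    HasDerivAt (fun τ => Mv (L0 F) G (√τ) g x)
      (∑ k, ∑ l, a k l • kern 2 (L0 F) (Dk k (Dk l G)) g x τ) τ := by
  let ψ : 𝓢(En n, ℝ) := -((n : ℝ) • G) - (2 : ℝ) • ∑ k, ∑ l, a k l • Dk k (Dk l G)
  have hψ0 : ∀ z, ψ z = -(n * G z) - 2 * ∑ k, ∑ l, a k l * Dk k (Dk l G) z := fun z => by
    simp [ψ]
  have hψ : ∀ z, ψ z = fderiv ℝ G z z := fun z => by
    simp only [hψ0, hG, Dk_Dk]
  have hs : 0 < √τ := Real.sqrt_pos.2 hτ
  have h1 := (hasDerivAt_Mv (L0 F) G ψ hψ hg hA hs x).scomp τ (Real.hasDerivAt_sqrt hτ.ne')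
  refine h1.congr_deriv ?_
  have e : (n : ℝ) • Mv (L0 F) G (√τ) g x + Mv (L0 F) ψ (√τ) g x =
      (-2 : ℝ) • ∑ k, ∑ l, a k l • Mv (L0 F) (Dk k (Dk l G)) (√τ) g x := by
    have hi := fun φ : 𝓢(En n, ℝ) => intg_Mv (L0 F) φ hg hA (√τ) x
    let M : 𝓢(En n, ℝ) →ₗ[ℝ] F :=
      { toFun := fun φ => Mv (L0 F) φ (√τ) g x
        map_add' := fun φ φ' => by
          unfold Mv
          rw [← integral_add (hi φ) (hi φ')]
          simp
        map_smul' := fun r φ => by
          unfold Mv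
          rw [RingHom.id_apply, ← integral_smul]
          simp [smul_smul] }
    show (n : ℝ) • M G + M ψ = (-2 : ℝ) • ∑ k, ∑ l, a k l • M (Dk k (Dk l G))
    simp only [ψ, map_sub, map_neg, map_smul, map_sum, neg_smul]
    abel
  rw [e]
  simp only [kern, smul_comm (a _ _), ← Finset.smul_sum]
  rw [smul_smul, ← neg_smul, smul_smul]
  congr 1
  field_simp

theorem solves_global (hG1 : ∫ z, G z = 1) (hG : ∀ z, fderiv ℝ G z z = -(n * G z) -
      2 * ∑ k, ∑ l, a k l * fderiv ℝ (fderiv ℝ G) z (EuclideanSpace.single k 1)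
        (EuclideanSpace.single l 1)) (h : Gy A c f) (hc : 0 ≤ c) (τ : ℝ) :
    Solves a τ f (DI 0 (L0 F) G f) := by
  have h34 : (3 / 4 : ℝ) < 1 := by norm_num
  have hL : ∀ t, 0 ≤ t → ∀ x, Lop a (DI 0 (L0 F) G f t) x =
      ∑ k, ∑ l, a k l • DI 2 (L0 F) (Dk k (Dk l G)) f t x :=
    fun t ht x => by simp only [Lop, pd2_eq h ht]
  refine ⟨fun x => by simp [DI], fun t ht => ?_, fun t ht x => ?_⟩
  · refine contDiff_succ_iff_hasFDerivAt (n := 1) |>.2 ⟨_, ?_, pd_S h ht.1⟩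
    refine contDiff_clm_apply_iff.2 fun v => ?_
    simp only [DI_apply (p := 1) h (kb_sup h) (by norm_num) ht.1]
    refine contDiff_succ_iff_hasFDerivAt (n := 0) |>.2 ⟨_, ?_, pd_S1 h ht.1⟩
    rw [Nat.cast_zero, contDiff_zero]
    exact (DI_cont h (kb2 h (Dv v G)) h34 τ).comp_continuous (f := fun x => (t, x))
      (Continuous.prodMk_right t) fun x => ⟨ht, mem_univ _⟩
  · refine hasDerivWithinAt_Icc_of_right (W := fun s => DI 0 (L0 F) G f s x)
      (g := fun t => Lop a (DI 0 (L0 F) G f t) x + f t x) ?_ ?_ (fun t ht => ?_) ht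
    · exact (DI_cont h (kb_sup h) (by norm_num) τ).comp
        (continuous_id.prodMk continuous_const).continuousOn fun t ht => ⟨ht, mem_univ _⟩
    · refine ContinuousOn.add (ContinuousOn.congr ?_ fun t ht => hL t ht.1 x)
        (h.cont.comp (continuous_id.prodMk continuous_const)).continuousOn
      refine continuousOn_finsetSum _ fun k _ => continuousOn_finsetSum _ fun l _ => ?_
      exact ContinuousOn.const_smul ((DI_cont h (kb2' h _ _) h34 τ).comp
        (continuous_id.prodMk continuous_const).continuousOn fun t ht => ⟨ht, mem_univ _⟩) _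
    · have h1 := leibniz_right (k := fun τ σ => Mv (L0 F) G (√τ) (f σ) x)
        (q := fun τ σ => ∑ k, ∑ l, a k l • kern 2 (L0 F) (Dk k (Dk l G)) (f σ) x τ)
        (K := ∑ k, ∑ l, |a k l| * (‖L0 F‖ * m1 (Dk k (Dk l G)) * c))
        (continuous_Mv _ _ (g := fun z : ℝ × ℝ => f z.2) (Real.continuous_sqrt.comp continuous_fst)
          continuous_const (h.cont.comp (continuous_fst.snd.prodMk continuous_snd))
          fun _ _ => h.sup _ _)
        (fun σ τ hτ => heat_deriv hG (h.slice σ) (h.sup σ) x hτ)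
        (Finset.sum_nonneg fun k _ => Finset.sum_nonneg fun l _ => by
          have := m1_nonneg (Dk k (Dk l G)); positivity)
        (fun σ τ hτ => by
          rw [Finset.sum_mul]
          refine norm_sum_le_of_le _ fun k _ => ?_
          rw [Finset.sum_mul]
          refine norm_sum_le_of_le _ fun l _ => ?_
          rw [norm_smul, Real.norm_eq_abs, mul_assoc]
          exact mul_le_mul_of_nonneg_left (kb2' h _ _ σ x τ hτ) (abs_nonneg _)) ht.1.le
      have e0 : Mv (L0 F) G (√0) (f t) x = f t x := by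
        simp [Mv, integral_smul_const, hG1]
      have hi : ∀ k l, IntervalIntegrable
          (fun τ => a k l • kern 2 (L0 F) (Dk k (Dk l G)) (f (t - τ)) x τ) volume 0 t :=
        fun k l => (kern_intg h (kb2' h (Dk l G) (EuclideanSpace.single k 1)) h34 t le_rfl
          ht.1.le x).smul (a k l)
      have e1 : ∫ τ in (0 : ℝ)..t, ∑ k, ∑ l, a k l • kern 2 (L0 F) (Dk k (Dk l G)) (f (t - τ)) x τ =
          ∑ k, ∑ l, a k l • DI 2 (L0 F) (Dk k (Dk l G)) f t x := by
        rw [intervalIntegral.integral_finsetSum fun k _ => ?_]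
        · refine Finset.sum_congr rfl fun k _ => ?_
          rw [intervalIntegral.integral_finsetSum fun l _ => hi k l]
          exact Finset.sum_congr rfl fun l _ => intervalIntegral.integral_smul _ _
        · have := IntervalIntegrable.sum (s := Finset.univ) fun l _ => hi k l
          rw [Finset.sum_fn] at this
          exact this
      rw [e0, e1, add_comm] at h1
      rw [hL t ht.1.le]
      simpa [DI, kern] using h1

theorem solB_global (G : 𝓢(En n, ℝ)) (F : Type*) [NormedAddCommGroup F] [NormedSpace ℝ F]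
    [CompleteSpace F] : ∃ C : ℝ, 1 ≤ C ∧ ∀ τ ∈ Ioc (0 : ℝ) 1, ∀ (A c : ℝ) (f : ℝ → En n → F),
      0 ≤ c → Gy A c f →
      SolB τ (C * τ ^ (1 / 4 : ℝ) * (A + c)) (C * c) (DI 0 (L0 F) G f) := by
  obtain ⟨κ, hκ⟩ := Finite.exists_le fun q : Option (Fin n × Fin n) => match q with
    | none => max 0 (max (‖L0 F‖ * m0 G) (nL (L1 n F) * m0 (G1 G)))
    | some q => max (max (‖L0 F‖ * m0 (Dk q.2 G)) (nL (L1 n F) * m1 (G1 (Dk q.2 G))))
        (max (‖L0 F‖ * m1 (Dk q.1 (Dk q.2 G))) (nL (L1 n F) * m1 (G1 (Dk q.1 (Dk q.2 G)))))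
  have hn := hκ none
  have hs := fun k l => hκ (some (k, l))
  simp only [max_le_iff] at hn hs
  have p0 := hn.1
  refine ⟨1 + 12 * κ, by linarith, fun τ hτ A c f hc h => ?_⟩
  have hA : 0 ≤ A := (norm_nonneg _).trans (h.sup 0 0)
  set θ := τ ^ (1 / 4 : ℝ) with hθ
  have hθ0 : 0 ≤ θ := Real.rpow_nonneg hτ.1.le _
  have b0 : KB 0 (L0 F) G f (κ * A) 0 := by
    have := kb_sup (p := 0) (L := L0 F) (φ := G) h
    rw [mul_right_comm, Nat.cast_zero, zero_div] at this
    exact this.mono (mul_le_mul_of_nonneg_right hn.2.1 hA)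
  have b1 : KB 1 (L1 n F) (G1 G) f (κ * A) (1 / 2) := by
    have := kb_sup (p := 1) (L := L1 n F) (φ := G1 G) h
    rw [mul_right_comm, Nat.cast_one] at this
    exact this.mono (mul_le_mul_of_nonneg_right hn.2.2 hA)
  have b1' : ∀ l, KB 1 (L0 F) (Dk l G) f (κ * A) (1 / 2) := fun l => by
    have := kb_sup (p := 1) (L := L0 F) (φ := Dk l G) h
    rw [mul_right_comm, Nat.cast_one] at this
    exact this.mono (mul_le_mul_of_nonneg_right (hs l l).1.1 hA)
  have b2 : ∀ l, KB 2 (L1 n F) (G1 (Dk l G)) f (κ * c) (3 / 4) := fun l =>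
    (kb2 h _).mono (mul_le_mul_of_nonneg_right (hs l l).1.2 hc)
  have b2' : ∀ k l, KB 2 (L0 F) (Dk k (Dk l G)) f (κ * c) (3 / 4) := fun k l =>
    (kb2' h _ _).mono (mul_le_mul_of_nonneg_right (hs k l).2.1 hc)
  have b3 : ∀ k l, KB (2 + 1) (L1 n F) (G1 (Dk k (Dk l G))) f (κ * c) (5 / 4) := fun k l => by
    have := kb_hol (p := 2 + 1) (L := L1 n F) (φ := G1 (Dk k (Dk l G))) h (integral_fderiv_zero _ _)
    rw [mul_right_comm, show ((2 + 1 : ℕ) : ℝ) / 2 - 1 / 4 = 5 / 4 by norm_num] at this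
    exact this.mono (mul_le_mul_of_nonneg_right (hs k l).2.2 hc)
  have r0 : ∀ t ∈ Icc 0 τ, t ^ (1 - 0 : ℝ) / (1 - 0) ≤ θ := fun t ht => by
    have := rpow_le_quarter (γ := 1 - 0) ht hτ.2 (by norm_num)
    rw [div_le_iff₀ (by norm_num), show θ * (1 - 0) = θ by ring]; exact this
  have r1 : ∀ t ∈ Icc 0 τ, t ^ (1 - 1 / 2 : ℝ) / (1 - 1 / 2) ≤ 2 * θ := fun t ht => by
    have := rpow_le_quarter (γ := 1 - 1 / 2) ht hτ.2 (by norm_num)
    rw [div_le_iff₀ (by norm_num)]; linarith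
  have r2 : ∀ t ∈ Icc 0 τ, t ^ (1 - 3 / 4 : ℝ) / (1 - 3 / 4) ≤ 4 * θ := fun t ht => by
    have := rpow_le_quarter (γ := 1 - 3 / 4) ht hτ.2 (by norm_num)
    rw [div_le_iff₀ (by norm_num)]; linarith
  have q1 := mul_nonneg hθ0 hA
  have q2 := mul_nonneg hθ0 hc
  have r01 := mul_nonneg p0 q1
  have r02 := mul_nonneg p0 q2
  have s0 : ∀ t ∈ Icc 0 τ, ∀ x, ‖DI 0 (L0 F) G f t x‖ ≤ κ * A * θ := fun t ht x =>
    (DI_le b0 (by norm_num) ht.1 x).trans (mul_le_mul_of_nonneg_left (r0 t ht) (by positivity))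
  have s1 : ∀ l, ∀ t ∈ Icc 0 τ, ∀ x, ‖DI 1 (L0 F) (Dk l G) f t x‖ ≤ κ * A * (2 * θ) :=
    fun l t ht x => (DI_le (b1' l) (by norm_num) ht.1 x).trans
      (mul_le_mul_of_nonneg_left (r1 t ht) (by positivity))
  have Y0 : Yb dist τ (κ * A * θ) (2 * (κ * A * θ) + κ * A * (2 * θ)) (DI 0 (L0 F) G f) :=
    ⟨DI_cont h b0 (by norm_num) τ, s0, fun t ht => hol_of_lip (s0 t ht) (by positivity)
      (lip_of_fderiv (pd_S h ht.1) fun x => (DI_le b1 (by norm_num) ht.1 x).trans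
        (mul_le_mul_of_nonneg_left (r1 t ht) (by positivity)))⟩
  have Y1 : ∀ l, Yb dist τ (κ * A * (2 * θ)) (2 * (κ * A * (2 * θ)) + κ * c * (4 * θ))
      (DI 1 (L0 F) (Dk l G) f) := fun l =>
    ⟨DI_cont h (b1' l) (by norm_num) τ, s1 l, fun t ht => hol_of_lip (s1 l t ht) (by positivity)
      (lip_of_fderiv (pd_S1 h ht.1) fun x => (DI_le (b2 l) (by norm_num) ht.1 x).trans
        (mul_le_mul_of_nonneg_left (r2 t ht) (by positivity)))⟩
  have Y2 : ∀ k l, Yb dist τ (κ * c * (4 * θ)) (8 * (κ * c) + 4 * (κ * c))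
      (DI 2 (L0 F) (Dk k (Dk l G)) f) := fun k l =>
    ⟨DI_cont h (b2' k l) (by norm_num) τ, fun t ht x => (DI_le (b2' k l) (by norm_num) ht.1 x).trans
      (mul_le_mul_of_nonneg_left (r2 t ht) (by positivity)),
      fun t ht => DI_hol h (b2' k l) (by positivity) (by positivity) (b3 k l) ht.1⟩
  refine ⟨Y0.mono (by nlinarith) (by nlinarith), fun k => ?_, fun k l => ?_⟩
  · exact ((Y1 k).mono (by nlinarith) (by nlinarith)).congr fun t ht => pd1_eq h ht.1 k
  · exact ((Y2 k l).mono (by nlinarith) (by nlinarith)).congr fun t ht => pd2_eq h ht.1 k l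

theorem SolB.congr {τ η c' : ℝ} {w w' : ℝ → En n → F} (h : SolB τ η c' w)
    (e : ∀ t ∈ Icc 0 τ, w' t = w t) : SolB τ η c' w' :=
  ⟨h.y0.congr e, fun k => (h.y1 k).congr fun t ht => by rw [e t ht],
    fun k l => (h.y2 k l).congr fun t ht => by rw [e t ht]⟩

theorem Solves.congr {τ : ℝ} (hτ : 0 ≤ τ) {f' w w' : ℝ → En n → F} (h : Solves a τ f w)
    (e : ∀ t ∈ Icc 0 τ, w' t = w t) (e' : ∀ t ∈ Icc 0 τ, f' t = f t) : Solves a τ f' w' :=
  ⟨fun x => by rw [e 0 ⟨le_rfl, hτ⟩, h.init], fun t ht => e t ht ▸ h.c2 t ht, fun t ht x => by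
    rw [e t ht, e' t ht]
    exact (h.eqn t ht x).congr (fun s hs => by rw [e s hs]) (by rw [e t ht])⟩

theorem DI_clamp {τ : ℝ} (hτ : 0 ≤ τ) (f : ℝ → En n → F) {t : ℝ} (ht : t ∈ Icc 0 τ) :
    DI 0 (L0 F) G f t = DI 0 (L0 F) G (fun t => f (projIcc 0 τ hτ t)) t := by
  funext x
  refine intervalIntegral.integral_congr fun σ hσ => ?_
  rw [uIcc_of_le ht.1] at hσ
  simp only
  rw [projIcc_of_mem hτ ⟨by linarith [hσ.2], by linarith [hσ.1, ht.2]⟩]

theorem schauder (n : ℕ) (F : Type*) [NormedAddCommGroup F] [NormedSpace ℝ F] [CompleteSpace F] :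
    SchauderStmt n F := by
  intro a ha
  obtain ⟨G, hG1, hG⟩ := exists_kernel ha
  obtain ⟨C, hC, hB⟩ := solB_global G F
  refine ⟨C, hC, DI 0 (L0 F) G, fun τ hτ => ⟨fun A c f hc h => ⟨?_, ?_⟩, ?_⟩⟩
  · exact (solves_global hG1 hG (h.clamp hτ.1.le) hc τ).congr hτ.1.le
      (fun t ht => DI_clamp hτ.1.le f ht) fun t ht => by rw [projIcc_of_mem _ ht]
  · exact (hB τ hτ A c _ hc (h.clamp hτ.1.le)).congr fun t ht => DI_clamp hτ.1.le f ht
  · intro A c A' c' f g hf hg t ht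
    rw [DI_clamp hτ.1.le f ht, DI_clamp hτ.1.le g ht, DI_clamp hτ.1.le (f - g) ht]
    funext x
    have h1 := hf.clamp hτ.1.le
    have h2 := hg.clamp hτ.1.le
    exact DI_sub h1 (kb_sup h1) (by norm_num) h2 (kb_sup h2) (by norm_num) ht.1 x

end Crest.Agent.N207.P
end
end

-- ▼ part N207/P/U

/-!
# Row 207, parabolic solver (helper17): uniqueness and `apr : AprStmt n F`
-/

set_option autoImplicit false
set_option linter.unusedSectionVars false

open Set Filter Topology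

noncomputable section

namespace Crest.Agent.N207.P

variable {n : ℕ} {F : Type*} [NormedAddCommGroup F] [NormedSpace ℝ F]

theorem pd_pd_eq {f : En n → F} {y : En n} (hf : ContDiffAt ℝ 2 f y) (i j : Fin n) :
    pd i (pd j f) y = fderiv ℝ (fderiv ℝ f) y (EuclideanSpace.single i 1)
      (EuclideanSpace.single j 1) := by
  have hd : DifferentiableAt ℝ (fderiv ℝ f) y :=
    (hf.fderiv_right (m := 1) (by norm_num)).differentiableAt (by simp)
  unfold pd
  rw [fderiv_clm_apply hd (differentiableAt_const _)]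
  simp

theorem lop_nonpos {a : Matrix (Fin n) (Fin n) ℝ} (ha : a.PosSemidef) {u : En n → ℝ} {x : En n}
    (hu : ContDiffAt ℝ 2 u x) (h : IsLocalMax u x) : Lop a u x ≤ 0 := by
  simp only [Lop, pd_pd_eq hu, smul_eq_mul]
  exact R281.YVSMax_355.trace_nonpos ha _ _ (R281.YVSMax_355.hess_nonpos hu h)

theorem lop_clm {G : Type*} [NormedAddCommGroup G] [NormedSpace ℝ G] (a : Matrix (Fin n) (Fin n) ℝ)
    (L : F →L[ℝ] G) {u : En n → F} (hu : ContDiff ℝ 2 u) (x : En n) :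
    Lop a (fun y => L (u y)) x = L (Lop a u x) := by
  have h1 : ∀ {v : En n → F}, Differentiable ℝ v → ∀ k, pd k (fun y => L (v y)) = fun y => L (pd k v y) :=
    fun {v} hv k => funext fun y => by
      unfold pd
      exact DFunLike.congr_fun (L.hasFDerivAt.comp y (hv y).hasFDerivAt).fderiv _
  simp only [Lop, map_sum, map_smul]
  refine Finset.sum_congr rfl fun k _ => Finset.sum_congr rfl fun l _ => ?_
  rw [h1 (hu.differentiable (by norm_num)),
    h1 ((contDiff_pd (m := 1) hu (by norm_num) l).differentiable (by norm_num))]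

theorem lop_sub (a : Matrix (Fin n) (Fin n) ℝ) {u v : En n → F} (hu : ContDiff ℝ 2 u)
    (hv : ContDiff ℝ 2 v) (x : En n) : Lop a (fun y => u y - v y) x = Lop a u x - Lop a v x := by
  simp only [Lop, ← Finset.sum_sub_distrib, ← smul_sub]
  refine Finset.sum_congr rfl fun k _ => Finset.sum_congr rfl fun l _ => ?_
  have e : pd l (fun y => u y - v y) = fun y => pd l u y - pd l v y := funext fun y =>
    pd_sub' (hu.differentiable (by norm_num) y) (hv.differentiable (by norm_num) y) l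
  rw [e, pd_sub' ((contDiff_pd (m := 1) hu (by norm_num) l).differentiable (by norm_num) x)
    ((contDiff_pd (m := 1) hv (by norm_num) l).differentiable (by norm_num) x)]

theorem lop_quad (a : Matrix (Fin n) (Fin n) ℝ) (ε c : ℝ) (x : En n) :
    Lop a (fun y : En n => ε * (‖y‖ ^ 2 + c)) x = ε * (2 * ∑ k, a k k) := by
  have h1 : ∀ l, pd l (fun y : En n => ε * (‖y‖ ^ 2 + c)) = fun y => ε * (2 * y l) := fun l => by
    funext y
    unfold pd
    refine (DFunLike.congr_fun ((((hasFDerivAt_id y).norm_sq).add_const c).const_mul ε).fderiv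
      _).trans ?_
    simp [EuclideanSpace.inner_single_right]
  have h2 : ∀ k l, pd k (fun y : En n => ε * (2 * y l)) x = if k = l then ε * 2 else 0 := fun k l => by
    unfold pd
    refine (DFunLike.congr_fun ((((EuclideanSpace.proj (𝕜 := ℝ) l).hasFDerivAt (x := x)).const_mul
      2).const_mul ε).fderiv _).trans ?_
    by_cases h : k = l
    · simp [h]
    · simp [h, Ne.symm h]
  simp only [Lop, h1, h2, smul_eq_mul, mul_ite, mul_zero, Finset.sum_ite_eq, Finset.mem_univ, if_true,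
    Finset.mul_sum]
  exact Finset.sum_congr rfl fun k _ => by ring

theorem deriv_nonneg_of_max {φ : ℝ → ℝ} {τ t d : ℝ} (ht : t ∈ Ioc 0 τ)
    (h : HasDerivWithinAt φ d (Icc 0 τ) t) (hm : ∀ s ∈ Icc 0 τ, φ s ≤ φ t) : 0 ≤ d := by
  have h1 : HasDerivWithinAt φ d (Ioo 0 t) t :=
    h.mono fun s hs => ⟨hs.1.le, hs.2.le.trans ht.2⟩
  rw [hasDerivWithinAt_iff_tendsto_slope' (by simp)] at h1
  have : (𝓝[Ioo 0 t] t).NeBot := by
    rw [nhdsWithin_Ioo_eq_nhdsLT ht.1]; infer_instance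
  refine ge_of_tendsto h1 ?_
  filter_upwards [self_mem_nhdsWithin] with s hs
  rw [slope_def_field]
  exact div_nonneg_of_nonpos (sub_nonpos.2 (hm s ⟨hs.1.le, hs.2.le.trans ht.2⟩))
    (sub_nonpos.2 hs.2.le)

/-- weak maximum principle for bounded solutions on `ℝⁿ` -/
theorem max_global {a : Matrix (Fin n) (Fin n) ℝ} (ha : a.PosSemidef) {τ B : ℝ}
    {u : ℝ → En n → ℝ} (hc : ContinuousOn (fun p : ℝ × En n => u p.1 p.2) (Icc 0 τ ×ˢ univ))
    (hB : ∀ t ∈ Icc 0 τ, ∀ x, u t x ≤ B) (h0 : ∀ x, u 0 x ≤ 0)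
    (h2 : ∀ t ∈ Icc 0 τ, ContDiff ℝ 2 (u t))
    (he : ∀ t ∈ Icc 0 τ, ∀ x, HasDerivWithinAt (fun s => u s x) (Lop a (u t) x) (Icc 0 τ) t)
    {t0 : ℝ} (ht0 : t0 ∈ Icc 0 τ) (x0 : En n) : u t0 x0 ≤ 0 := by
  set K := |2 * ∑ k, a k k| + 1 with hK
  have hK0 : 0 < K := by positivity
  have key : ∀ ε, 0 < ε → u t0 x0 ≤ ε * (‖x0‖ ^ 2 + K * t0) := by
    intro ε hε
    by_contra hcon
    push Not at hcon
    set φ : ℝ × En n → ℝ := fun p => u p.1 p.2 - ε * (‖p.2‖ ^ 2 + K * p.1) with hφ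
    set R := ‖x0‖ + |B| / ε + 1 with hR
    have hR1 : 1 ≤ R := by have : 0 ≤ |B| / ε := by positivity
                           linarith [norm_nonneg x0]
    have hout : ∀ t ∈ Icc 0 τ, ∀ x : En n, R ≤ ‖x‖ → φ (t, x) ≤ 0 := fun t ht x hx => by
      have h1 : |B| / ε ≤ ‖x‖ ^ 2 := by nlinarith [norm_nonneg x0]
      rw [div_le_iff₀ hε] at h1
      have h3 := mul_nonneg hε.le (mul_nonneg hK0.le ht.1)
      simp only [hφ]
      nlinarith [hB t ht x, le_abs_self B]
    have hφc : ContinuousOn φ (Icc 0 τ ×ˢ Metric.closedBall 0 R) :=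
      (hc.mono (prod_mono_right (subset_univ _))).sub (by fun_prop)
    have hx0 : (t0, x0) ∈ Icc 0 τ ×ˢ Metric.closedBall (0 : En n) R :=
      ⟨ht0, by rw [mem_closedBall_zero_iff]; have : 0 ≤ |B| / ε := by positivity
               linarith⟩
    obtain ⟨⟨t1, x1⟩, ⟨ht1, -⟩, hmax⟩ := (isCompact_Icc.prod (isCompact_closedBall 0 R)).exists_isMaxOn
      ⟨_, hx0⟩ hφc
    have hpos : 0 < φ (t1, x1) := lt_of_lt_of_le (by simp only [hφ]; linarith) (hmax hx0)
    have hall : ∀ t ∈ Icc 0 τ, ∀ x, φ (t, x) ≤ φ (t1, x1) := fun t ht x => by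
      rcases le_total ‖x‖ R with h | h
      · exact hmax (show (t, x) ∈ _ from ⟨ht, mem_closedBall_zero_iff.2 h⟩)
      · exact (hout t ht x h).trans hpos.le
    have ht1' : t1 ∈ Ioc 0 τ := by
      refine ⟨lt_of_le_of_ne ht1.1 ?_, ht1.2⟩
      rintro rfl
      have := h0 x1
      have h3 : 0 ≤ ε * ‖x1‖ ^ 2 := by positivity
      simp only [hφ] at hpos
      linarith
    have hq : ContDiff ℝ 2 fun y : En n => ε * (‖y‖ ^ 2 + K * t1) :=
      contDiff_const.mul ((contDiff_norm_sq ℝ).add contDiff_const)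
    have h3 := lop_nonpos ha (u := fun y => u t1 y - ε * (‖y‖ ^ 2 + K * t1)) (x := x1)
      ((h2 t1 ht1).sub hq).contDiffAt (Eventually.of_forall fun x => hall t1 ht1 x)
    rw [lop_sub a (h2 t1 ht1) hq, lop_quad] at h3
    have h4 : HasDerivWithinAt (fun s => φ (s, x1)) (Lop a (u t1) x1 - ε * K) (Icc 0 τ) t1 := by
      have h5 : HasDerivAt (fun s => ε * (‖x1‖ ^ 2 + K * s)) (ε * K) t1 := by
        simpa using (((hasDerivAt_id t1).const_mul K).const_add (‖x1‖ ^ 2)).const_mul ε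
      exact (he t1 ht1 x1).sub h5.hasDerivWithinAt
    have h6 := deriv_nonneg_of_max ht1' h4 fun s hs => hall s hs x1
    have h7 := mul_le_mul_of_nonneg_left (le_abs_self (2 * ∑ k, a k k)) hε.le
    rw [hK] at h6
    nlinarith
  have hlim : Tendsto (fun ε : ℝ => ε * (‖x0‖ ^ 2 + K * t0)) (𝓝[>] 0) (𝓝 0) := by
    have : Continuous fun ε : ℝ => ε * (‖x0‖ ^ 2 + K * t0) := by fun_prop
    simpa using (this.tendsto 0).mono_left nhdsWithin_le_nhds
  exact ge_of_tendsto hlim (eventually_mem_nhdsWithin.mono fun ε hε => key ε hε)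

/-- uniqueness of bounded solutions -/
theorem solves_unique {a : Matrix (Fin n) (Fin n) ℝ} (ha : a.PosSemidef) {τ B B' : ℝ}
    {f w w' : ℝ → En n → F} (h : Solves a τ f w) (h' : Solves a τ f w')
    (hc : ContinuousOn (fun p : ℝ × En n => w p.1 p.2) (Icc 0 τ ×ˢ univ))
    (hc' : ContinuousOn (fun p : ℝ × En n => w' p.1 p.2) (Icc 0 τ ×ˢ univ))
    (hB : ∀ t ∈ Icc 0 τ, ∀ x, ‖w t x‖ ≤ B) (hB' : ∀ t ∈ Icc 0 τ, ∀ x, ‖w' t x‖ ≤ B') :
    ∀ t ∈ Icc 0 τ, w t = w' t := by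
  have key : ∀ L : F →L[ℝ] ℝ, ∀ t ∈ Icc 0 τ, ∀ x, L (w t x - w' t x) ≤ 0 := by
    intro L t ht x
    refine max_global ha (B := ‖L‖ * (B + B')) (u := fun t x => L (w t x - w' t x))
      (L.continuous.comp_continuousOn (hc.sub hc')) (fun t ht x => ?_)
      (fun x => by simp [h.init, h'.init])
      (fun t ht => L.contDiff.comp ((h.c2 t ht).sub (h'.c2 t ht))) (fun t ht x => ?_) ht x
    · refine (le_abs_self _).trans ((L.le_opNorm _).trans ?_)
      exact mul_le_mul_of_nonneg_left ((norm_sub_le _ _).trans (add_le_add (hB t ht x) (hB' t ht x)))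
        (norm_nonneg _)
    · rw [lop_clm a L ((h.c2 t ht).sub (h'.c2 t ht)), lop_sub a (h.c2 t ht) (h'.c2 t ht)]
      have := L.hasFDerivAt.comp_hasDerivWithinAt t ((h.eqn t ht x).sub (h'.eqn t ht x))
      rw [add_sub_add_right_eq_sub] at this
      exact this
  intro t ht
  funext x
  rw [← sub_eq_zero]
  refine SeparatingDual.eq_zero_of_forall_dual_eq_zero (R := ℝ) fun L => le_antisymm (key L t ht x) ?_
  have := key (-L) t ht x
  simpa using this

theorem apr (n : ℕ) (F : Type*) [NormedAddCommGroup F] [NormedSpace ℝ F] [CompleteSpace F] :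
    AprStmt n F := by
  intro a ha
  obtain ⟨C, hC, S, hS⟩ := schauder n F a ha
  refine ⟨C, hC, fun τ hτ A c B f w hc hf hw hwc hB => ?_⟩
  obtain ⟨h1, h2⟩ := (hS τ hτ).1 A c f hc hf
  exact h2.congr (solves_unique ha.posSemidef hw h1 hwc h2.y0.cont hB h2.y0.sup)

end Crest.Agent.N207.P
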