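import Crest.Agent.N207.P.Tr
import Crest.Agent.N207.P.Yl1
import Crest.Agent.N207.P.Yl2
import Crest.Agent.N207.X.JS
import Crest.Agent.N207.P.U

-- ▼ part N207/P/Cmp
section

/-!
# Row 207, parabolic solver (helper11): the chart expressions of a `QLOp` are compatible on `C²`
functions
-/

set_option autoImplicit false
set_option linter.unusedSectionVars false

open Set Filter
open scoped ContDiff Topology Manifold

noncomputable section

namespace Crest.Agent.N207.P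

variable {n : ℕ} {V : Type*} [NormedAddCommGroup V] [NormedSpace ℝ V]

theorem two_le_inf : (2 : WithTop ℕ∞) ≤ ∞ :=
  WithTop.coe_le_coe.2 (le_top : (2 : ℕ∞) ≤ ⊤)

/-! ### quadratic polynomials -/

/-- the linear function `w ↦ w k - y k` -/
def lc (y : En n) (k : Fin n) (w : En n) : ℝ := w k - y k

theorem contDiff_lc (y : En n) (k : Fin n) : ContDiff ℝ ∞ (lc y k) :=
  (EuclideanSpace.proj k : En n →L[ℝ] ℝ).contDiff.sub contDiff_const

theorem pd_lc (y w : En n) (k m : Fin n) : pd m (lc y k) w = if k = m then 1 else 0 := by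
  have h : HasFDerivAt (lc y k) (EuclideanSpace.proj k : En n →L[ℝ] ℝ) w :=
    (EuclideanSpace.proj k : En n →L[ℝ] ℝ).hasFDerivAt.sub_const _
  unfold pd
  rw [h.fderiv]
  simp

theorem pd_smul_const' {κ : En n → ℝ} {y : En n} (h : DifferentiableAt ℝ κ y) (c : V) (k : Fin n) :
    pd k (fun z => κ z • c) y = pd k κ y • c := by
  unfold pd; rw [fderiv_smul_const h]; simp

theorem pd_mul' {f g : En n → ℝ} {y : En n} (hf : DifferentiableAt ℝ f y)
    (hg : DifferentiableAt ℝ g y) (k : Fin n) :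
    pd k (fun z => f z * g z) y = pd k f y * g y + f y * pd k g y := by
  unfold pd; rw [fderiv_fun_mul hf hg]; simp; ring

/-- affine function with value `v` and gradient `p` at `y` -/
def aff (y : En n) (v : V) (p : Fin n → V) (w : En n) : V := v + ∑ k, lc y k w • p k

theorem contDiff_aff (y : En n) (v : V) (p : Fin n → V) : ContDiff ℝ ∞ (aff y v p) :=
  contDiff_const.add (ContDiff.sum fun k _ => (contDiff_lc y k).smul contDiff_const)

theorem aff_self (y : En n) (v : V) (p : Fin n → V) : aff y v p y = v := by simp [aff, lc]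

theorem pd_aff (y : En n) (v : V) (p : Fin n → V) (m : Fin n) :
    pd m (aff y v p) = fun _ => p m := by
  funext w
  have hd : ∀ k, DifferentiableAt ℝ (lc y k) w := fun k =>
    (contDiff_lc y k).differentiable (by simp) w
  have h1 : ∀ k, DifferentiableAt ℝ (fun z => lc y k z • p k) w := fun k => (hd k).smul_const _
  unfold aff
  rw [pd_add' (differentiableAt_const _) (DifferentiableAt.fun_sum fun k _ => h1 k), pd_const',
    pd_sum' _ fun k _ => h1 k]
  simp [pd_smul_const' (hd _), pd_lc]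

/-- quadratic polynomial with prescribed `2`-jet at `y` -/
def qp (y : En n) (v : V) (p : Fin n → V) (q : Fin n → Fin n → V) (w : En n) : V :=
  aff y v p w + ∑ k, ∑ l, (lc y k w * lc y l w) • ((1 / 2 : ℝ) • q k l)

theorem contDiff_qp (y : En n) (v : V) (p : Fin n → V) (q : Fin n → Fin n → V) :
    ContDiff ℝ ∞ (qp y v p q) :=
  (contDiff_aff y v p).add (ContDiff.sum fun k _ => ContDiff.sum fun l _ =>
    ((contDiff_lc y k).mul (contDiff_lc y l)).smul contDiff_const)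

theorem qp_self (y : En n) (v : V) (p : Fin n → V) (q : Fin n → Fin n → V) :
    qp y v p q y = v := by simp [qp, aff, lc]

theorem pd_qp (y : En n) (v : V) (p : Fin n → V) {q : Fin n → Fin n → V}
    (hq : ∀ k l, q k l = q l k) (m : Fin n) :
    pd m (qp y v p q) = aff y (p m) (fun k => q k m) := by
  funext w
  have hd : ∀ k, DifferentiableAt ℝ (lc y k) w := fun k =>
    (contDiff_lc y k).differentiable (by simp) w
  have h0 : ∀ k l, DifferentiableAt ℝ (fun z => lc y k z * lc y l z) w := fun k l =>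
    (hd k).mul (hd l)
  have h1 : ∀ k l, DifferentiableAt ℝ (fun z => (lc y k z * lc y l z) • ((1 / 2 : ℝ) • q k l)) w :=
    fun k l => (h0 k l).smul_const _
  unfold qp
  rw [pd_add' ((contDiff_aff y v p).differentiable (by simp) w)
    (DifferentiableAt.fun_sum fun k _ => DifferentiableAt.fun_sum fun l _ => h1 k l), pd_aff,
    pd_sum' _ fun k _ => DifferentiableAt.fun_sum fun l _ => h1 k l]
  simp only [pd_sum' _ fun l _ => h1 _ l, pd_smul_const' (h0 _ _), pd_mul' (hd _) (hd _), pd_lc,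
    add_smul, Finset.sum_add_distrib, ite_mul, mul_ite, one_mul, mul_one, zero_mul, mul_zero,
    ite_smul, zero_smul, Finset.sum_ite_eq', Finset.mem_univ, if_true]
  rw [Finset.sum_comm]
  simp only [Finset.sum_ite_eq', Finset.mem_univ, if_true, aff]
  rw [← Finset.sum_add_distrib]
  congr 1
  refine Finset.sum_congr rfl fun k _ => ?_
  rw [hq m k, ← smul_add, ← add_smul]
  norm_num

/-! ### `2`-jets -/

/-- same `2`-jet at `y` -/
structure Jet2 (f g : En n → V) (y : En n) : Prop where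
  e0 : f y = g y
  e1 : ∀ k, pd k f y = pd k g y
  e2 : ∀ k l, pd k (pd l f) y = pd k (pd l g) y

theorem Jet2.of_ev {f g : En n → V} {y : En n} (h : f =ᶠ[𝓝 y] g) : Jet2 f g y :=
  ⟨h.self_of_nhds, pd_congr h, fun k l => pd_congr (pd_congr_ev h l) k⟩

theorem Jet2.d1 {f g : En n → V} {y : En n} (h : Jet2 f g y) : d1 f y = d1 g y := funext h.e1

theorem Jet2.lop {f g : En n → V} {y : En n} (h : Jet2 f g y) (a : Matrix (Fin n) (Fin n) ℝ) :
    Lop a f y = Lop a g y := by simp only [Lop, h.e2]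

theorem Jet2.comp {f g : En n → V} {θ : En n → En n} {y : En n} (h : Jet2 f g (θ y))
    (hθ : ContDiffAt ℝ 2 θ y) (hf : ContDiffAt ℝ 2 f (θ y)) (hg : ContDiffAt ℝ 2 g (θ y)) :
    Jet2 (fun z => f (θ z)) (fun z => g (θ z)) y := by
  have e : ∀ w : En n → V, (fun z => w (θ z)) = z0 (fun _ => 1) θ w := fun w => by
    funext z; simp [z0]
  rw [e f, e g]
  refine ⟨by simp [z0, h.e0], fun k => ?_, fun k l => ?_⟩
  · rw [pd_z0 contDiffAt_const hθ hf, pd_z0 contDiffAt_const hθ hg]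
    simp only [z1, h.e0, h.e1]
  · rw [pd_pd_z0 contDiffAt_const hθ hf, pd_pd_z0 contDiffAt_const hθ hg]
    simp only [z2, z3, h.e0, h.e1, h.e2]

theorem jet2_qp {z : En n → V} {y : En n} (hz : ContDiffAt ℝ 2 z y) :
    Jet2 z (qp y (z y) (d1 z y) fun k l => pd k (pd l z) y) y := by
  have hq : ∀ k l, pd k (pd l z) y = pd l (pd k z) y := pd_symm hz
  refine ⟨(qp_self _ _ _ _).symm, fun k => ?_, fun k l => ?_⟩
  · rw [pd_qp _ _ _ hq, aff_self]; rfl
  · rw [pd_qp _ _ _ hq, pd_aff]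

theorem lop_add {f g : En n → V} {y : En n} (hf : ContDiffAt ℝ 2 f y) (hg : ContDiffAt ℝ 2 g y)
    (k l : Fin n) :
    pd k (pd l fun z => f z + g z) y = pd k (pd l f) y + pd k (pd l g) y := by
  have hev : pd l (fun z => f z + g z) =ᶠ[𝓝 y] fun z => pd l f z + pd l g z := by
    filter_upwards [hf.eventually (by simp), hg.eventually (by simp)] with z h1 h2
    exact pd_add' (h1.differentiableAt (by simp)) (h2.differentiableAt (by simp)) l
  rw [pd_congr hev, pd_add'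
    ((contDiffAt_pd (m := 1) hf (by norm_num) l).differentiableAt (by simp))
    ((contDiffAt_pd (m := 1) hg (by norm_num) l).differentiableAt (by simp))]

/-! ### changes of charts -/

section mfd

variable {M : Type*} [TopologicalSpace M] [ChartedSpace (En n) M] [IsManifold 𝓘(ℝ, En n) ∞ M]

/-- transition map -/
def tr (n : ℕ) {M : Type*} [TopologicalSpace M] [ChartedSpace (En n) M] (x x' : M) (y : En n) :
    En n := chartAt (En n) x' ((chartAt (En n) x).symm y)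

/-- its domain -/
def td (n : ℕ) {M : Type*} [TopologicalSpace M] [ChartedSpace (En n) M] (x x' : M) : Set (En n) :=
  (chartAt (En n) x).target ∩ (chartAt (En n) x).symm ⁻¹' (chartAt (En n) x').source

theorem isOpen_td (x x' : M) : IsOpen (td n x x') :=
  (chartAt (En n) x).isOpen_inter_preimage_symm (chartAt (En n) x').open_source

theorem contDiffOn_tr (x x' : M) : ContDiffOn ℝ ∞ (tr n x x') (td n x x') := by
  rw [← contMDiffOn_iff_contDiffOn]
  have h1 : ContMDiffOn 𝓘(ℝ, En n) 𝓘(ℝ, En n) ∞ (chartAt (En n) x).symm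
    (chartAt (En n) x).target := contMDiffOn_chart_symm
  have h2 : ContMDiffOn 𝓘(ℝ, En n) 𝓘(ℝ, En n) ∞ (chartAt (En n) x') (chartAt (En n) x').source :=
    contMDiffOn_chart
  exact h2.comp (h1.mono inter_subset_left) fun y hy => hy.2

theorem contDiffAt_tr {x x' : M} {y : En n} (hy : y ∈ td n x x') : ContDiffAt ℝ ∞ (tr n x x') y :=
  (contDiffOn_tr x x').contDiffAt ((isOpen_td x x').mem_nhds hy)

theorem symm_tr {x x' : M} {y : En n} (hy : y ∈ td n x x') :
    (chartAt (En n) x').symm (tr n x x' y) = (chartAt (En n) x).symm y :=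
  (chartAt (En n) x').left_inv hy.2

theorem tr_mem {x x' : M} {y : En n} (hy : y ∈ td n x x') :
    tr n x x' y ∈ (chartAt (En n) x').target := (chartAt (En n) x').map_source hy.2

theorem rd_tr {x x' : M} {y : En n} (hy : y ∈ td n x x') (u : M → V) :
    rd n x u =ᶠ[𝓝 y] fun z => rd n x' u (tr n x x' z) := by
  filter_upwards [(isOpen_td x x').mem_nhds hy] with z hz
  simp only [rd, symm_tr hz]

theorem contDiffOn_rd {u : M → V} (hu : ContMDiff 𝓘(ℝ, En n) 𝓘(ℝ, V) ∞ u) (x : M) :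
    ContDiffOn ℝ ∞ (rd n x u) (chartAt (En n) x).target := by
  rw [← contMDiffOn_iff_contDiffOn]
  exact hu.comp_contMDiffOn contMDiffOn_chart_symm

theorem contMDiff_of_rd {u : M → V}
    (h : ∀ x : M, ContDiffAt ℝ ∞ (rd n x u) (chartAt (En n) x x)) :
    ContMDiff 𝓘(ℝ, En n) 𝓘(ℝ, V) ∞ u := by
  intro x
  have h1 : ContMDiffAt 𝓘(ℝ, En n) 𝓘(ℝ, En n) ∞ (chartAt (En n) x) x :=
    (contMDiffOn_chart (x := x)).contMDiffAt (chart_source_mem_nhds (En n) x)
  refine ((h x).contMDiffAt.comp x h1).congr_of_eventuallyEq ?_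
  filter_upwards [chart_source_mem_nhds (En n) x] with p hp
  simp [rd, (chartAt (En n) x).left_inv hp]

theorem isOpen_domO {O : Set (M × V)} (hO : IsOpen O) (x : M) : IsOpen (domO n O x) := by
  have h : ContinuousOn (fun q : En n × V => ((chartAt (En n) x).symm q.1, q.2))
      ((chartAt (En n) x).target ×ˢ univ) :=
    ((chartAt (En n) x).continuousOn_symm.comp continuousOn_fst fun q hq => hq.1).prodMk
      continuousOn_snd
  have := h.isOpen_inter_preimage ((chartAt (En n) x).open_target.prod isOpen_univ) hO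
  convert this using 1
  ext q; simp [domO]

variable {I : Set ℝ} {O : Set (M × V)} {Op : ℝ → (M → V) → M → V}

/-- the expression of the operator in the chart at `x` -/
def QLOp.N (Q : QLOp n I O Op) (x : M) (t : ℝ) (z : En n → V) (y : En n) : V :=
  Lop (Q.a x (t, y, z y)) z y + Q.b x (t, (y, z y), d1 z y)

theorem Jet2.N (Q : QLOp n I O Op) (x : M) (t : ℝ) {f g : En n → V} {y : En n} (h : Jet2 f g y) :
    Q.N x t f y = Q.N x t g y := by
  simp only [QLOp.N, h.e0, h.d1, h.lop]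

theorem QLOp.compat (Q : QLOp n I O Op) (hO : IsOpen O) {x x' : M} {t : ℝ} (ht : t ∈ I)
    {y : En n} (hy : y ∈ td n x x') {z : En n → V} (hz : ContDiffAt ℝ 2 z (tr n x x' y))
    (hm : ((chartAt (En n) x).symm y, z (tr n x x' y)) ∈ O) :
    Q.N x t (fun w => z (tr n x x' w)) y = Q.N x' t z (tr n x x' y) := by
  set y' := tr n x x' y with hy'
  set P := qp y' (z y') (d1 z y') fun k l => pd k (pd l z) y' with hP
  have hPs : ContDiff ℝ ∞ P := contDiff_qp _ _ _ _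
  have hJ : Jet2 z P y' := jet2_qp hz
  have hθ : ContDiffAt ℝ 2 (tr n x x') y := (contDiffAt_tr hy).of_le two_le_inf
  rw [(hJ.comp hθ hz (hPs.contDiffAt.of_le two_le_inf)).N Q x t, hJ.N Q x' t]
  set u : M → V := fun p => P (chartAt (En n) x' p) with hu
  have hus : ContMDiffOn 𝓘(ℝ, En n) 𝓘(ℝ, V) ∞ u (chartAt (En n) x').source :=
    hPs.contMDiff.comp_contMDiffOn contMDiffOn_chart
  have hW : IsOpen ((chartAt (En n) x').source ∩ (fun p => (p, u p)) ⁻¹' O) :=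
    (continuousOn_id.prodMk hus.continuousOn).isOpen_inter_preimage
      (chartAt (En n) x').open_source hO
  have hp : (chartAt (En n) x).symm y ∈ (chartAt (En n) x').source ∩ (fun p => (p, u p)) ⁻¹' O := by
    refine ⟨hy.2, ?_⟩
    show ((chartAt (En n) x).symm y, P y') ∈ O
    rw [← hJ.e0]; exact hm
  have h1 := Q.rep x t ht y hy.1 u _ hW hp (hus.mono inter_subset_left) fun p hp => hp.2
  have h2 := Q.rep x' t ht y' (tr_mem hy) u _ hW (by rw [hy', symm_tr hy]; exact hp)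
    (hus.mono inter_subset_left) fun p hp => hp.2
  have h3 : rd n x' u =ᶠ[𝓝 y'] P := by
    filter_upwards [(chartAt (En n) x').open_target.mem_nhds (tr_mem hy)] with w hw
    simp only [rd, hu, (chartAt (En n) x').right_inv hw]
  rw [← (Jet2.of_ev h3).N Q x' t]
  rw [hy', symm_tr hy] at h2
  exact h1.symm.trans h2

/-- compatibility of the principal parts -/
theorem QLOp.pc (Q : QLOp n I O Op) (hO : IsOpen O) {x x' : M} {t : ℝ} (ht : t ∈ I)
    {y : En n} (hy : y ∈ td n x x') {v : V} (hm : ((chartAt (En n) x).symm y, v) ∈ O)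
    {w : En n → V} (hw : ContDiffAt ℝ 2 w (tr n x x' y)) :
    ∑ k, ∑ l, Q.a x (t, y, v) k l • z3 (fun _ => 1) (tr n x x') w y k l =
      Lop (Q.a x' (t, tr n x x' y, v)) w (tr n x x' y) := by
  set y' := tr n x x' y with hy'
  have hθ : ContDiffAt ℝ 2 (tr n x x') y := (contDiffAt_tr hy).of_le two_le_inf
  have hq : ∀ k l, pd k (pd l w) y' = pd l (pd k w) y' := pd_symm hw
  set P := qp y' v 0 fun k l => pd k (pd l w) y' with hP
  have hPs : ContDiffAt ℝ 2 P y' :=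
    (contDiff_qp _ _ _ _).contDiffAt.of_le two_le_inf
  have p0 : P y' = v := qp_self _ _ _ _
  have p1 : ∀ k, pd k P y' = 0 := fun k => by rw [hP, pd_qp _ _ _ hq, aff_self]; rfl
  have p2 : ∀ k l, pd k (pd l P) y' = pd k (pd l w) y' := fun k l => by
    rw [hP, pd_qp _ _ _ hq, pd_aff]
  have h1 := Q.compat hO ht hy hPs (by rw [p0]; exact hm)
  have h2 := Q.compat hO ht hy (z := fun _ => v) contDiffAt_const hm
  have e : (fun z => P (tr n x x' z)) = z0 (fun _ => 1) (tr n x x') P := by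
    funext z; simp [z0]
  have z1' : ∀ k l : Fin n, ∀ y : En n, pd k (pd l fun _ : En n => (1 : ℝ)) y = 0 := by
    intro k l y
    rw [show (pd l fun _ : En n => (1 : ℝ)) = fun _ => 0 from funext fun z => pd_const' _ z l,
      pd_const']
  have z2' : ∀ k l : Fin n, ∀ y : En n, pd k (pd l fun _ : En n => v) y = 0 := by
    intro k l y
    rw [show (pd l fun _ : En n => v) = fun _ => 0 from funext fun z => pd_const' _ z l,
      pd_const']
  have d0 : d1 (fun z => P (tr n x x' z)) y = 0 := by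
    funext k
    rw [d1, e, pd_z0 contDiffAt_const hθ hPs]
    simp [z1, ← hy', p1, pd_const']
  have d0' : d1 P y' = 0 := funext p1
  have d0'' : ∀ y : En n, d1 (fun _ : En n => v) y = 0 := fun y => funext fun k => pd_const' _ _ _
  have l1 : Lop (Q.a x (t, y, v)) (fun z => P (tr n x x' z)) y =
      ∑ k, ∑ l, Q.a x (t, y, v) k l • z3 (fun _ => 1) (tr n x x') w y k l := by
    simp only [Lop, e, pd_pd_z0 contDiffAt_const hθ hPs, z2, z3, ← hy', p1, p2, z1', smul_zero,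
      zero_smul, Finset.sum_const_zero, zero_add]
  have l2 : Lop (Q.a x' (t, y', v)) P y' = Lop (Q.a x' (t, y', v)) w y' := by
    simp only [Lop, p2]
  simp only [QLOp.N, ← hy', p0, d0, d0', d0'', l1, l2] at h1 h2
  simp only [Lop, z2', smul_zero, Finset.sum_const_zero, zero_add] at h2
  rw [h2] at h1
  exact add_right_cancel h1

end mfd

end Crest.Agent.N207.P
end
end

-- ▼ part N207/P/Atl
section

/-!
# Row 207, parabolic solver (helper11): finite atlases of small balls with cut-offs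
-/

set_option autoImplicit false
set_option linter.unusedSectionVars false

open Set Filter Metric
open scoped ContDiff Topology Manifold

noncomputable section

namespace Crest.Agent.N207.P

variable {n : ℕ}

theorem ext_cpt {W : Type*} [NormedAddCommGroup W] [NormedSpace ℝ W] {K U : Set (En n)}
    (hK : IsCompact K) (hU : IsOpen U) (hKU : K ⊆ U) {g : En n → W} (hg : ContDiffOn ℝ ∞ g U) :
    ∃ g' : En n → W, ContDiff ℝ ∞ g' ∧ HasCompactSupport g' ∧ ∀ y ∈ K, g' =ᶠ[𝓝 y] g := by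
  obtain ⟨K', hK', h1, h2⟩ := exists_compact_between hK hU hKU
  obtain ⟨f, hf1, hf0, -⟩ := exists_contMDiffMap_one_nhds_of_subset_interior (n := ⊤)
    𝓘(ℝ, En n) hK.isClosed h1
  have hf : ContDiff ℝ ∞ f := f.contMDiff.contDiff
  refine ⟨fun y => f y • g y, contDiff_iff_contDiffAt.2 fun y => ?_,
    HasCompactSupport.intro hK' fun y hy => by simp [hf0 y hy], fun y hy => ?_⟩
  · by_cases hy : y ∈ U
    · exact hf.contDiffAt.smul (hg.contDiffAt (hU.mem_nhds hy))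
    · refine (contDiffAt_const (c := (0 : W))).congr_of_eventuallyEq ?_
      filter_upwards [hK'.isClosed.isOpen_compl.mem_nhds fun h => hy (h2 h)] with z hz
      simp [hf0 z hz]
  · filter_upwards [(hf1.filter_mono (nhds_le_nhdsSet hy))] with z hz
    simp [hz]

/-- centre of the preferred chart -/
abbrev cen (n : ℕ) {M : Type*} [TopologicalSpace M] [ChartedSpace (En n) M] (x : M) : En n :=
  chartAt (En n) x x

/-- a finite atlas of balls of radii `r`, a partition of unity and global versions of the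
transition data -/
structure Atl (n : ℕ) {M : Type*} [TopologicalSpace M] [ChartedSpace (En n) M] (N : ℕ)
    (r : M → ℝ) where
  x : Fin N → M
  χ : Fin N → M → ℝ
  η : Fin N → En n → ℝ
  ψ : Fin N → Fin N → En n → ℝ
  θ : Fin N → Fin N → En n → En n
  sum : ∀ p, ∑ c, χ c p = 1
  supp : ∀ c p, χ c p ≠ 0 → p ∈ (chartAt (En n) (x c)).source ∧
    chartAt (En n) (x c) p ∈ ball (cen n (x c)) (r (x c))
  η_sm : ∀ a, ContDiff ℝ ∞ (η a)
  η_one : ∀ a, ∀ y ∈ ball (cen n (x a)) (r (x a)), η a y = 1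
  η_zero : ∀ a, ∀ y ∉ closedBall (cen n (x a)) (2 * r (x a)), η a y = 0
  η_le : ∀ a y, |η a y| ≤ 1
  ψ_sm : ∀ c a, ContDiff ℝ ∞ (ψ c a)
  ψ_cs : ∀ c a, HasCompactSupport (ψ c a)
  θ_sm : ∀ c a, ContDiff ℝ ∞ (θ c a)
  θ_cs : ∀ c a, HasCompactSupport (θ c a)
  ψ_eq : ∀ c a, ∀ y ∈ closedBall (cen n (x a)) (2 * r (x a)), ψ c a =ᶠ[𝓝 y] rd n (x a) (χ c)
  dich : ∀ c a, ∀ y ∈ closedBall (cen n (x a)) (2 * r (x a)),
    (y ∈ td n (x a) (x c) ∧ θ c a =ᶠ[𝓝 y] tr n (x a) (x c)) ∨ rd n (x a) (χ c) =ᶠ[𝓝 y] fun _ => 0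

variable {M : Type*} [TopologicalSpace M] [ChartedSpace (En n) M] [IsManifold 𝓘(ℝ, En n) ∞ M]

theorem exists_atl [T2Space M] [CompactSpace M] (r : M → ℝ) (hr : ∀ x, 0 < r x)
    (hsub : ∀ x, closedBall (cen n x) (2 * r x) ⊆ (chartAt (En n) x).target) :
    ∃ N : ℕ, Nonempty (Atl n N r) := by
  set U : M → Set M := fun x =>
    (chartAt (En n) x).source ∩ chartAt (En n) x ⁻¹' ball (cen n x) (r x) with hU
  have hUo : ∀ x, IsOpen (U x) := fun x =>
    (chartAt (En n) x).isOpen_inter_preimage isOpen_ball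
  obtain ⟨s, hs⟩ := isCompact_univ.elim_finite_subcover U hUo fun p _ =>
    mem_iUnion.2 ⟨p, mem_chart_source _ p, mem_ball_self (hr p)⟩
  set x : Fin s.card → M := fun i => (s.equivFin.symm i : M) with hx
  have hcov : (univ : Set M) ⊆ ⋃ i, U (x i) := by
    intro p hp
    obtain ⟨q, hq, hpq⟩ := mem_iUnion₂.1 (hs hp)
    exact mem_iUnion.2 ⟨s.equivFin ⟨q, hq⟩, by simpa [hx] using hpq⟩
  obtain ⟨f, hf⟩ := SmoothPartitionOfUnity.exists_isSubordinate 𝓘(ℝ, En n) isClosed_univ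
    (fun i => U (x i)) (fun i => hUo _) hcov
  have hB : ∀ a, IsCompact (closedBall (cen n (x a)) (2 * r (x a))) := fun a =>
    isCompact_closedBall _ _
  have hψ : ∀ c a, ∃ g' : En n → ℝ, ContDiff ℝ ∞ g' ∧ HasCompactSupport g' ∧
      ∀ y ∈ closedBall (cen n (x a)) (2 * r (x a)), g' =ᶠ[𝓝 y] rd n (x a) (f c) := fun c a =>
    ext_cpt (hB a) (chartAt (En n) (x a)).open_target (hsub _) (contDiffOn_rd (f c).contMDiff _)
  choose ψ hψ1 hψ2 hψ3 using hψ
  have hθ : ∀ c a, ∃ g' : En n → En n, ContDiff ℝ ∞ g' ∧ HasCompactSupport g' ∧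
      ∀ y ∈ closedBall (cen n (x a)) (2 * r (x a)) ∩
        (chartAt (En n) (x a)).symm ⁻¹' tsupport (f c), g' =ᶠ[𝓝 y] tr n (x a) (x c) := by
    intro c a
    refine ext_cpt ?_ (isOpen_td (x a) (x c)) (fun y hy => ⟨hsub _ hy.1, (hf c hy.2).1⟩)
      (contDiffOn_tr _ _)
    exact (hB a).of_isClosed_subset (((chartAt (En n) (x a)).continuousOn_symm.mono
      (hsub _)).preimage_isClosed_of_isClosed isClosed_closedBall (isClosed_tsupport _))
      inter_subset_left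
  choose θ hθ1 hθ2 hθ3 using hθ
  let b : ∀ a : Fin s.card, ContDiffBump (cen n (x a)) := fun a =>
    ⟨r (x a), 2 * r (x a), hr _, by linarith [hr (x a)]⟩
  refine ⟨s.card, ⟨⟨x, fun c => f c, fun a => b a, ψ, θ, fun p => ?_, fun c p hp => ?_,
    fun a => (b a).contDiff, fun a y hy => (b a).one_of_mem_closedBall (ball_subset_closedBall hy),
    fun a y hy => (b a).zero_of_le_dist ?_, fun a y => ?_, hψ1, hψ2, hθ1, hθ2, hψ3,
    fun c a y hy => ?_⟩⟩⟩
  · have := f.sum_eq_one (mem_univ p)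
    rwa [finsum_eq_sum_of_fintype] at this
  · exact hf c (subset_tsupport _ hp)
  · rw [mem_closedBall, not_le] at hy; exact hy.le
  · rw [abs_of_nonneg (b a).nonneg]; exact (b a).le_one
  · by_cases h : (chartAt (En n) (x a)).symm y ∈ tsupport (f c)
    · exact Or.inl ⟨⟨hsub _ hy, (hf c h).1⟩, hθ3 c a y ⟨hy, h⟩⟩
    · refine Or.inr ?_
      have h1 : ContinuousAt (chartAt (En n) (x a)).symm y :=
        (chartAt (En n) (x a)).continuousAt_symm (hsub _ hy)
      filter_upwards [h1.eventually ((isClosed_tsupport (f c)).isOpen_compl.mem_nhds h)] with z hz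
      exact image_eq_zero_of_notMem_tsupport (f := f c) hz

namespace Atl

variable {N : ℕ} {r : M → ℝ} (𝒜 : Atl n N r)

theorem cover (p : M) : ∃ a, p ∈ (chartAt (En n) (𝒜.x a)).source ∧
    chartAt (En n) (𝒜.x a) p ∈ ball (cen n (𝒜.x a)) (r (𝒜.x a)) := by
  by_contra h
  have h0 : ∀ c, 𝒜.χ c p = 0 := fun c => by
    by_contra hc
    exact h ⟨c, 𝒜.supp c p hc⟩
  have := 𝒜.sum p
  simp [h0] at this

variable {V : Type*} [NormedAddCommGroup V] [NormedSpace ℝ V]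

/-- a local piece read in the chart `a` -/
theorem rd_piece (c a : Fin N) {y : En n}
    (hy : y ∈ closedBall (cen n (𝒜.x a)) (2 * r (𝒜.x a))) (w : En n → V) :
    rd n (𝒜.x a) (fun p => 𝒜.χ c p • w (chartAt (En n) (𝒜.x c) p)) =ᶠ[𝓝 y]
      z0 (𝒜.ψ c a) (𝒜.θ c a) w := by
  rcases 𝒜.dich c a y hy with h | h
  · filter_upwards [𝒜.ψ_eq c a y hy, h.2] with z h1 h2
    simp only [z0, h1, h2]; rfl
  · filter_upwards [𝒜.ψ_eq c a y hy, h] with z h1 h2
    have h3 : 𝒜.χ c ((chartAt (En n) (𝒜.x a)).symm z) = 0 := h2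
    simp only [z0, h1, rd, h3, zero_smul]

/-- the top order terms of a local piece -/
theorem top_piece {I : Set ℝ} {O : Set (M × V)} {Op : ℝ → (M → V) → M → V}
    (Q : QLOp n I O Op) (hO : IsOpen O) {t : ℝ} (ht : t ∈ I) (c a : Fin N) {y : En n}
    (hy : y ∈ closedBall (cen n (𝒜.x a)) (2 * r (𝒜.x a))) {v : V}
    (hm : ((chartAt (En n) (𝒜.x a)).symm y, v) ∈ O) {w : En n → V} (hw : ContDiff ℝ 2 w) :
    ∑ k, ∑ l, Q.a (𝒜.x a) (t, y, v) k l • z3 (𝒜.ψ c a) (𝒜.θ c a) w y k l =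
      𝒜.χ c ((chartAt (En n) (𝒜.x a)).symm y) •
        Lop (Q.a (𝒜.x c) (t, tr n (𝒜.x a) (𝒜.x c) y, v)) w (tr n (𝒜.x a) (𝒜.x c) y) := by
  have hψ : 𝒜.ψ c a y = 𝒜.χ c ((chartAt (En n) (𝒜.x a)).symm y) :=
    (𝒜.ψ_eq c a y hy).self_of_nhds
  rcases 𝒜.dich c a y hy with h | h
  · rw [← Q.pc hO ht h.1 hm hw.contDiffAt, ← hψ]
    have hc : ∀ m, cp (𝒜.θ c a) m =ᶠ[𝓝 y] cp (tr n (𝒜.x a) (𝒜.x c)) m := fun m =>
      h.2.mono fun z hz => by simp only [cp, hz]
    simp only [z3, pd_congr (hc _), h.2.self_of_nhds, Finset.smul_sum, smul_smul]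
    refine Finset.sum_congr rfl fun k _ => Finset.sum_congr rfl fun l _ =>
      Finset.sum_congr rfl fun m _ => Finset.sum_congr rfl fun m' _ => ?_
    congr 1; ring
  · have h3 : 𝒜.χ c ((chartAt (En n) (𝒜.x a)).symm y) = 0 := h.self_of_nhds
    simp [z3, hψ, h3]

end Atl

end Crest.Agent.N207.P
end
end

-- ▼ part N207/P/Core1
section

/-!
# Row 207, parabolic solver (helper11): the transported jets
-/

set_option autoImplicit false
set_option linter.unusedSectionVars false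

open Set Filter Metric
open scoped ContDiff Topology Manifold

noncomputable section

namespace Crest.Agent.N207.P

variable {n : ℕ} {V : Type*} [NormedAddCommGroup V] [NormedSpace ℝ V]

/-- the space of lower order data -/
abbrev ZZ (n : ℕ) (V : Type*) := V × (Fin n → V) × (Fin n → Fin n → V)

/-- the lower order data of a transported function -/
def zz (κ : En n → ℝ) (θ : En n → En n) (w : En n → V) (y : En n) : ZZ n V :=
  (z0 κ θ w y, z1 κ θ w y, z2 κ θ w y)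

/-- functionals which are small on solutions -/
def Sml {W : Type*} [NormedAddCommGroup W] (V : Type*) [NormedAddCommGroup V] [NormedSpace ℝ V]
    (Φ : (En n → V) → En n → W) : Prop :=
  ∃ C : ℝ, 0 < C ∧ ∀ (τ η c' : ℝ) (w : ℝ → En n → V), 0 ≤ η → SolB τ η c' w →
    Yb dist τ (C * η) (C * η) (fun t => Φ (w t))

section sml

variable {W W' : Type*} [NormedAddCommGroup W] [NormedSpace ℝ W] [NormedAddCommGroup W']
  [NormedSpace ℝ W']

theorem Sml.add {Φ Ψ : (En n → V) → En n → W} (h : Sml V Φ) (h' : Sml V Ψ) :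
    Sml V (fun w y => Φ w y + Ψ w y) := by
  obtain ⟨C, hC, h⟩ := h
  obtain ⟨C', hC', h'⟩ := h'
  refine ⟨C + C', by positivity, fun τ η c' w hη hw => ?_⟩
  rw [add_mul]
  exact yb_add (h τ η c' w hη hw) (h' τ η c' w hη hw)

theorem Sml.sum {ι : Type*} (s : Finset ι) {Φ : ι → (En n → V) → En n → W}
    (h : ∀ i, Sml V (Φ i)) : Sml V (fun w y => ∑ i ∈ s, Φ i w y) := by
  classical
  induction s using Finset.induction_on with
  | empty =>
    exact ⟨1, one_pos, fun τ η c' w hη _ => by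
      simpa using yb_mono (yb_zero (V := W) (d := dist) (τ := τ)) hη hη⟩
  | insert i s hi ih =>
    simp only [Finset.sum_insert hi]
    exact (h i).add ih

theorem Sml.prod {Φ : (En n → V) → En n → W} {Ψ : (En n → V) → En n → W'} (h : Sml V Φ)
    (h' : Sml V Ψ) : Sml V (fun w y => (Φ w y, Ψ w y)) := by
  obtain ⟨C, hC, h⟩ := h
  obtain ⟨C', hC', h'⟩ := h'
  refine ⟨C + C', by positivity, fun τ η c' w hη hw => ?_⟩
  have h1 : C * η ≤ (C + C') * η := by nlinarith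
  have h2 : C' * η ≤ (C + C') * η := by nlinarith
  exact yb_prod (yb_mono (h τ η c' w hη hw) h1 h1) (yb_mono (h' τ η c' w hη hw) h2 h2)

theorem Sml.pi {ι : Type*} [Fintype ι] {Φ : (En n → V) → En n → ι → W}
    (h : ∀ i, Sml V (fun w y => Φ w y i)) : Sml V Φ := by
  choose C hC h using h
  have h0 : 0 ≤ ∑ i, C i := Finset.sum_nonneg fun i _ => (hC i).le
  refine ⟨∑ i, C i + 1, by positivity, fun τ η c' w hη hw => ?_⟩
  refine yb_pi (by positivity) (by positivity) fun i => ?_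
  have h1 : C i ≤ ∑ i, C i := Finset.single_le_sum (fun i _ => (hC i).le) (Finset.mem_univ i)
  have h2 : C i * η ≤ (∑ i, C i + 1) * η := by nlinarith
  exact yb_mono (h i τ η c' w hη hw) h2 h2

end sml

variable {κ : En n → ℝ} {θ : En n → En n}

theorem sml0 (hκ : ContDiff ℝ ∞ κ) (hκc : HasCompactSupport κ) (hθ : ContDiff ℝ ∞ θ)
    (hθc : HasCompactSupport θ) : Sml V (fun w y => κ y • w (θ y)) := by
  obtain ⟨C, hC, h⟩ := yb_transfer (V := V) hκ hκc hθ hθc
  refine ⟨2 * C, by positivity, fun τ η c' w hη hw => ?_⟩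
  exact yb_mono (h τ η η w hη hη hw.y0) (by nlinarith) (by nlinarith)

theorem sml1 (hκ : ContDiff ℝ ∞ κ) (hκc : HasCompactSupport κ) (hθ : ContDiff ℝ ∞ θ)
    (hθc : HasCompactSupport θ) (m : Fin n) : Sml V (fun w y => κ y • pd m w (θ y)) := by
  obtain ⟨C, hC, h⟩ := yb_transfer (V := V) hκ hκc hθ hθc
  refine ⟨2 * C, by positivity, fun τ η c' w hη hw => ?_⟩
  exact yb_mono (h τ η η _ hη hη (hw.y1 m)) (by nlinarith) (by nlinarith)

theorem contDiff_cp (hθ : ContDiff ℝ ∞ θ) (m : Fin n) : ContDiff ℝ ∞ (cp θ m) :=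
  contDiff_iff_contDiffAt.2 fun _ => contDiffAt_cp hθ.contDiffAt m

theorem sml_z1 (hκ : ContDiff ℝ ∞ κ) (hκc : HasCompactSupport κ) (hθ : ContDiff ℝ ∞ θ)
    (hθc : HasCompactSupport θ) (k : Fin n) : Sml V (fun w y => z1 κ θ w y k) :=
  (sml0 (contDiff_pd_top hκ k) (hcs_pd hκc k) hθ hθc).add (Sml.sum _ fun m =>
    sml1 (κ := fun y => κ y * pd k (cp θ m) y) (hκ.mul (contDiff_pd_top (contDiff_cp hθ m) k))
      hκc.mul_right hθ hθc m)

theorem sml_z2 (hκ : ContDiff ℝ ∞ κ) (hκc : HasCompactSupport κ) (hθ : ContDiff ℝ ∞ θ)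
    (hθc : HasCompactSupport θ) (k l : Fin n) : Sml V (fun w y => z2 κ θ w y k l) := by
  refine (sml0 (contDiff_pd_top (contDiff_pd_top hκ l) k) (hcs_pd (hcs_pd hκc l) k) hθ hθc).add
    (Sml.sum _ fun m => sml1 (κ := fun y => pd l κ y * pd k (cp θ m) y +
      pd k (fun z => κ z * pd l (cp θ m) z) y) ?_ ?_ hθ hθc m)
  · exact ((contDiff_pd_top hκ l).mul (contDiff_pd_top (contDiff_cp hθ m) k)).add
      (contDiff_pd_top (hκ.mul (contDiff_pd_top (contDiff_cp hθ m) l)) k)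
  · exact HasCompactSupport.add (f := fun y => pd l κ y * pd k (cp θ m) y)
      (hcs_pd hκc l).mul_right (hcs_pd hκc.mul_right k)

theorem sml_zz (hκ : ContDiff ℝ ∞ κ) (hκc : HasCompactSupport κ) (hθ : ContDiff ℝ ∞ θ)
    (hθc : HasCompactSupport θ) : Sml V (zz κ θ) :=
  (sml0 hκ hκc hθ hθc).prod ((Sml.pi fun k => sml_z1 hκ hκc hθ hθc k).prod
    (Sml.pi fun k => Sml.pi fun l => sml_z2 hκ hκc hθ hθc k l))

theorem pd_sub_fun {w w' : En n → V} (hw : ContDiff ℝ 2 w) (hw' : ContDiff ℝ 2 w') (m : Fin n) :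
    pd m (w - w') = pd m w - pd m w' := funext fun y =>
  pd_sub' (hw.differentiable (by simp) y) (hw'.differentiable (by simp) y) m

theorem pd_pd_sub_fun {w w' : En n → V} (hw : ContDiff ℝ 2 w) (hw' : ContDiff ℝ 2 w')
    (k l : Fin n) : pd k (pd l (w - w')) = pd k (pd l w) - pd k (pd l w') := by
  rw [pd_sub_fun hw hw']
  exact funext fun y => pd_sub'
    ((contDiff_pd (m := 1) hw (by norm_num) l).differentiable (by simp) y)
    ((contDiff_pd (m := 1) hw' (by norm_num) l).differentiable (by simp) y) k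

theorem zz_sub {w w' : En n → V} (hw : ContDiff ℝ 2 w) (hw' : ContDiff ℝ 2 w') (y : En n) :
    zz κ θ (w - w') y = zz κ θ w y - zz κ θ w' y := by
  refine Prod.ext ?_ (Prod.ext (funext fun k => ?_) (funext fun k => funext fun l => ?_))
  · simp [zz, z0, smul_sub]
  · simp only [zz, z1, pd_sub_fun hw hw', Pi.sub_apply, smul_sub, Finset.sum_sub_distrib,
      Prod.snd_sub, Prod.fst_sub]
    abel
  · simp only [zz, z2, pd_sub_fun hw hw', Pi.sub_apply, smul_sub, Finset.sum_sub_distrib,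
      Prod.snd_sub]
    abel

theorem yl_of_yb {τ A c : ℝ} {f : ℝ → En n → V} (h : Yb dist τ A c f) : Yl (Icc 0 τ) univ 0 f :=
  ⟨h.cont, fun _ _ => ⟨1, one_pos, c, fun t ht y _ y' _ => h.hol t ht y y'⟩⟩

theorem yl_z0 (hκ : ContDiff ℝ ∞ κ) (hκc : HasCompactSupport κ) (hθ : ContDiff ℝ ∞ θ)
    (hθc : HasCompactSupport θ) {τ η c' : ℝ} {w : ℝ → En n → V} (hη : 0 ≤ η) (hc' : 0 ≤ c')
    (hw : SolB τ η c' w) (h2 : ∀ t ∈ Icc 0 τ, ContDiff ℝ 2 (w t)) :
    Yl (Icc 0 τ) univ 2 (fun t => z0 κ θ (w t)) := by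
  have k2 : ∀ y, ContDiffAt ℝ 2 κ y := fun y => hκ.contDiffAt.of_le two_le_inf
  have t2 : ∀ y, ContDiffAt ℝ 2 θ y := fun y => hθ.contDiffAt.of_le two_le_inf
  have hz : ∀ t ∈ Icc 0 τ, ∀ y, ContDiffAt ℝ 2 (z0 κ θ (w t)) y := fun t ht y =>
    contDiffAt_z0 (k2 y) (t2 y) (h2 t ht).contDiffAt
  obtain ⟨C0, -, h0⟩ := sml0 (V := V) hκ hκc hθ hθc
  refine ⟨(h0 τ η c' w hη hw).cont, fun t ht y _ => (hz t ht y).differentiableAt (by simp),
    fun l => ⟨?_, fun t ht y _ =>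
      (contDiffAt_pd (m := 1) (hz t ht y) (by norm_num) l).differentiableAt (by simp), fun k => ?_⟩⟩
  · obtain ⟨C1, -, h1⟩ := sml_z1 (V := V) hκ hκc hθ hθc l
    exact (h1 τ η c' w hη hw).cont.congr fun q hq =>
      pd_z0 (k2 _) (t2 _) (h2 _ hq.1).contDiffAt l
  · obtain ⟨C2, -, h3⟩ := sml_z2 (V := V) hκ hκc hθ hθc k l
    have h4 : Yl (Icc 0 τ) univ 0 (fun t y => z3 κ θ (w t) y k l) := by
      refine Yl.sum isOpen_univ _ fun m _ => Yl.sum isOpen_univ _ fun m' _ => ?_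
      obtain ⟨C, -, h5⟩ := yb_transfer (V := V)
        (κ := fun y => κ y * pd l (cp θ m) y * pd k (cp θ m') y)
        ((hκ.mul (contDiff_pd_top (contDiff_cp hθ m) l)).mul
          (contDiff_pd_top (contDiff_cp hθ m') k)) hκc.mul_right.mul_right hθ hθc
      exact yl_of_yb (h5 τ η c' _ hη hc' (hw.y2 m' m))
    exact Yl.congr isOpen_univ (Yl.add isOpen_univ (yl_of_yb (h3 τ η c' w hη hw)) h4)
      fun t ht y _ => pd_pd_z0 (k2 _) (t2 _) (h2 t ht).contDiffAt k l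

theorem pd_pd_sum {ι : Type*} (s : Finset ι) {f : ι → En n → V} {y : En n}
    (hf : ∀ i, ContDiffAt ℝ 2 (f i) y) (k l : Fin n) :
    pd k (pd l fun z => ∑ i ∈ s, f i z) y = ∑ i ∈ s, pd k (pd l (f i)) y := by
  have hev : pd l (fun z => ∑ i ∈ s, f i z) =ᶠ[𝓝 y] fun z => ∑ i ∈ s, pd l (f i) z := by
    filter_upwards [(Finset.eventually_all s).2 fun i _ => (hf i).eventually (by simp)] with z hz
    exact pd_sum' s (fun i hi => (hz i hi).differentiableAt (by simp)) l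
  rw [pd_congr hev, pd_sum' s fun i _ =>
    (contDiffAt_pd (m := 1) (hf i) (by norm_num) l).differentiableAt (by simp)]

end Crest.Agent.N207.P
end
end

-- ▼ part N207/P/Core2
section

/-!
# Row 207, parabolic solver (helper11): a fixed point gives a smooth solution
-/

set_option autoImplicit false
set_option linter.unusedSectionVars false

open Set Filter Metric
open scoped ContDiff Topology Manifold

noncomputable section

namespace Crest.Agent.N207.P

variable {n : ℕ} {V : Type*} [NormedAddCommGroup V] [NormedSpace ℝ V]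
  {M : Type*} [TopologicalSpace M] [ChartedSpace (En n) M] [IsManifold 𝓘(ℝ, En n) ∞ M]
  {I : Set ℝ} {O : Set (M × V)} {Op : ℝ → (M → V) → M → V} {N : ℕ} {r : M → ℝ}

/-- the lower order part of the equation in the chart at `x` -/
def QLOp.Phi (Q : QLOp n I O Op) (u0 : M → V) (x : M) (q : ℝ × En n × ZZ n V) : V :=
  ∑ k, ∑ l, Q.a x (q.1, q.2.1, rd n x u0 q.2.1 + q.2.2.1) k l •
      (pd k (pd l (rd n x u0)) q.2.1 + q.2.2.2.2 k l) +
    Q.b x (q.1, (q.2.1, rd n x u0 q.2.1 + q.2.2.1), d1 (rd n x u0) q.2.1 + q.2.2.2.1)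

namespace Atl

variable (𝒜 : Atl n N r)

/-- closed ball of the chart `a` -/
abbrev B (a : Fin N) : Set (En n) := closedBall (cen n (𝒜.x a)) (2 * r (𝒜.x a))

/-- open ball of the chart `a` -/
abbrev U (a : Fin N) : Set (En n) := ball (cen n (𝒜.x a)) (r (𝒜.x a))

theorem U_sub (a : Fin N) : 𝒜.U a ⊆ 𝒜.B a := fun y hy => by
  have h1 : dist y (cen n (𝒜.x a)) < r (𝒜.x a) := hy
  have h2 := dist_nonneg (x := y) (y := cen n (𝒜.x a))
  exact mem_closedBall.2 (by linarith)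

/-- all lower order data in the chart `a` -/
def ze (w : Fin N → En n → V) (a : Fin N) (y : En n) : ZZ n V :=
  ∑ c, zz (𝒜.ψ c a) (𝒜.θ c a) (w c) y

/-- the global function -/
def uu (u0 : M → V) (w : Fin N → En n → V) (p : M) : V :=
  u0 p + ∑ c, 𝒜.χ c p • w c (chartAt (En n) (𝒜.x c) p)

/-- its expression in the chart `a` -/
def gg (u0 : M → V) (w : Fin N → En n → V) (a : Fin N) (y : En n) : V :=
  rd n (𝒜.x a) u0 y + ∑ c, z0 (𝒜.ψ c a) (𝒜.θ c a) (w c) y

theorem rd_uu (u0 : M → V) (w : Fin N → En n → V) {a : Fin N} {y : En n} (hy : y ∈ 𝒜.B a) :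
    rd n (𝒜.x a) (𝒜.uu u0 w) =ᶠ[𝓝 y] 𝒜.gg u0 w a := by
  filter_upwards [(Finset.eventually_all Finset.univ).2
    fun c _ => 𝒜.rd_piece c a hy (w c)] with z hz
  simp only [gg, ← hz _ (Finset.mem_univ _)]
  rfl

variable {𝒜} {u0 : M → V} {w : Fin N → En n → V}

theorem c2_z0 (hw : ∀ c, ContDiff ℝ 2 (w c)) (c a : Fin N) (y : En n) :
    ContDiffAt ℝ 2 (z0 (𝒜.ψ c a) (𝒜.θ c a) (w c)) y :=
  contDiffAt_z0 ((𝒜.ψ_sm c a).contDiffAt.of_le two_le_inf)
    ((𝒜.θ_sm c a).contDiffAt.of_le two_le_inf) (hw c).contDiffAt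

theorem c2_uu (hw : ∀ c, ContDiff ℝ 2 (w c)) {a : Fin N} {y : En n} (hy : y ∈ 𝒜.B a)
    (h0 : ContDiffAt ℝ 2 (rd n (𝒜.x a) u0) y) : ContDiffAt ℝ 2 (rd n (𝒜.x a) (𝒜.uu u0 w)) y :=
  (h0.add (ContDiffAt.sum fun c _ => c2_z0 hw c a y)).congr_of_eventuallyEq (𝒜.rd_uu u0 w hy)

theorem val_uu {a : Fin N} {y : En n} (hy : y ∈ 𝒜.B a) :
    rd n (𝒜.x a) (𝒜.uu u0 w) y = rd n (𝒜.x a) u0 y + (𝒜.ze w a y).1 := by
  rw [(𝒜.rd_uu u0 w hy).self_of_nhds]
  simp [gg, ze, zz, Prod.fst_sum]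

theorem N_uu (Q : QLOp n I O Op) (hO : IsOpen O) {t : ℝ} (ht : t ∈ I)
    (hw : ∀ c, ContDiff ℝ 2 (w c)) {a : Fin N} {y : En n} (hy : y ∈ 𝒜.B a)
    (h0 : ContDiffAt ℝ 2 (rd n (𝒜.x a) u0) y)
    (hm : ((chartAt (En n) (𝒜.x a)).symm y, rd n (𝒜.x a) (𝒜.uu u0 w) y) ∈ O) :
    Q.N (𝒜.x a) t (rd n (𝒜.x a) (𝒜.uu u0 w)) y = Q.Phi u0 (𝒜.x a) (t, y, 𝒜.ze w a y) +
      ∑ c, 𝒜.χ c ((chartAt (En n) (𝒜.x a)).symm y) •
        Lop (Q.a (𝒜.x c) (t, tr n (𝒜.x a) (𝒜.x c) y, rd n (𝒜.x a) (𝒜.uu u0 w) y)) (w c)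
          (tr n (𝒜.x a) (𝒜.x c) y) := by
  have hJ := Jet2.of_ev (𝒜.rd_uu u0 w hy)
  have hs : ContDiffAt ℝ 2 (fun z => ∑ c, z0 (𝒜.ψ c a) (𝒜.θ c a) (w c) z) y :=
    ContDiffAt.sum fun c _ => c2_z0 hw c a y
  have k2 : ∀ c, ContDiffAt ℝ 2 (𝒜.ψ c a) y := fun c => (𝒜.ψ_sm c a).contDiffAt.of_le two_le_inf
  have t2 : ∀ c, ContDiffAt ℝ 2 (𝒜.θ c a) y := fun c => (𝒜.θ_sm c a).contDiffAt.of_le two_le_inf
  have e1 : d1 (rd n (𝒜.x a) (𝒜.uu u0 w)) y = d1 (rd n (𝒜.x a) u0) y + (𝒜.ze w a y).2.1 := by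
    rw [hJ.d1]
    funext k
    have : pd k (𝒜.gg u0 w a) y = _ :=
      pd_add' (h0.differentiableAt (by simp)) (hs.differentiableAt (by simp)) k
    rw [d1, this, pd_sum' _ fun c _ => (c2_z0 hw c a y).differentiableAt (by simp)]
    simp only [pd_z0 (k2 _) (t2 _) (hw _).contDiffAt, ze, zz, Prod.snd_sum, Prod.fst_sum,
      Pi.add_apply, Finset.sum_apply, d1]
  have e2 : ∀ k l, pd k (pd l (rd n (𝒜.x a) (𝒜.uu u0 w))) y =
      (pd k (pd l (rd n (𝒜.x a) u0)) y + (𝒜.ze w a y).2.2 k l) +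
        ∑ c, z3 (𝒜.ψ c a) (𝒜.θ c a) (w c) y k l := by
    intro k l
    have : pd k (pd l (𝒜.gg u0 w a)) y = _ := lop_add h0 hs k l
    rw [hJ.e2, this, pd_pd_sum _ fun c => c2_z0 hw c a y]
    simp only [pd_pd_z0 (k2 _) (t2 _) (hw _).contDiffAt, ze, zz, Prod.snd_sum,
      Finset.sum_apply, Finset.sum_add_distrib, add_assoc]
  simp only [← 𝒜.top_piece Q hO ht _ a hy hm (hw _)]
  simp only [QLOp.N, QLOp.Phi, Lop, e1, e2, ← val_uu hy, smul_add, Finset.sum_add_distrib,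
    Finset.smul_sum]
  have : ∑ k, ∑ l, ∑ c, Q.a (𝒜.x a) (t, y, rd n (𝒜.x a) (𝒜.uu u0 w) y) k l •
      z3 (𝒜.ψ c a) (𝒜.θ c a) (w c) y k l = ∑ c, ∑ k, ∑ l,
      Q.a (𝒜.x a) (t, y, rd n (𝒜.x a) (𝒜.uu u0 w) y) k l •
      z3 (𝒜.ψ c a) (𝒜.θ c a) (w c) y k l := by
    rw [Finset.sum_comm (s := (Finset.univ : Finset (Fin N)))]
    exact Finset.sum_congr rfl fun k _ => Finset.sum_comm
  rw [this]
  abel

/-- the data produced by the fixed point theorem -/
structure Fx (𝒜 : Atl n N r) (Q : QLOp n I O Op) (u0 : M → V) (H : ℝ → M → V) (s τ : ℝ)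
    (a0 : Fin N → Matrix (Fin n) (Fin n) ℝ) (f w : Fin N → ℝ → En n → V) : Prop where
  sub : ∀ a, 𝒜.B a ⊆ (chartAt (En n) (𝒜.x a)).target
  sol : ∀ a, Solves (a0 a) τ (f a) (w a)
  bd : ∀ a, ∃ η c', 0 ≤ η ∧ 0 ≤ c' ∧ SolB τ η c' (w a)
  mem : ∀ a, ∀ t ∈ Icc 0 τ, ∀ y ∈ 𝒜.B a, ((chartAt (En n) (𝒜.x a)).symm y,
    rd n (𝒜.x a) u0 y + (𝒜.ze (fun c => w c t) a y).1) ∈ O
  fix : ∀ a, ∀ t ∈ Icc 0 τ, ∀ y ∈ 𝒜.U a, f a t y =
    ∑ k, ∑ l, (Q.a (𝒜.x a) (s + t, y, rd n (𝒜.x a) u0 y + (𝒜.ze (fun c => w c t) a y).1) k l -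
      a0 a k l) • pd k (pd l (w a t)) y +
      Q.Phi u0 (𝒜.x a) (s + t, y, 𝒜.ze (fun c => w c t) a y) + rd n (𝒜.x a) (H (s + t)) y

variable {Q : QLOp n I O Op} {H : ℝ → M → V} {s τ : ℝ}
  {a0 : Fin N → Matrix (Fin n) (Fin n) ℝ} {f W : Fin N → ℝ → En n → V}

theorem Fx.memO (h : Fx 𝒜 Q u0 H s τ a0 f W) {t : ℝ} (ht : t ∈ Icc 0 τ) (p : M) :
    (p, 𝒜.uu u0 (fun c => W c t) p) ∈ O := by
  obtain ⟨a, h1, h2⟩ := 𝒜.cover p
  have h3 := h.mem a t ht _ (𝒜.U_sub a h2)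
  rw [← val_uu (𝒜.U_sub a h2), rd, (chartAt (En n) (𝒜.x a)).left_inv h1] at h3
  exact h3

theorem Fx.deriv (h : Fx 𝒜 Q u0 H s τ a0 f W) (hO : IsOpen O)
    (hu0 : ContMDiff 𝓘(ℝ, En n) 𝓘(ℝ, V) ∞ u0) {t : ℝ} (ht : t ∈ Icc 0 τ) (hst : s + t ∈ I)
    {a : Fin N} {y : En n} (hy : y ∈ 𝒜.B a) :
    HasDerivWithinAt (fun t' => rd n (𝒜.x a) (𝒜.uu u0 fun c => W c t') y)
      (Q.N (𝒜.x a) (s + t) (rd n (𝒜.x a) (𝒜.uu u0 fun c => W c t)) y +
        rd n (𝒜.x a) (H (s + t)) y) (Icc 0 τ) t := by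
  set p := (chartAt (En n) (𝒜.x a)).symm y with hp
  set u := 𝒜.uu u0 fun c => W c t with hu
  have hw : ∀ c, ContDiff ℝ 2 (W c t) := fun c => (h.sol c).c2 t ht
  have h0 : ∀ c, ∀ z ∈ 𝒜.B c, ContDiffAt ℝ 2 (rd n (𝒜.x c) u0) z := fun c z hz =>
    ((contDiffOn_rd hu0 _).contDiffAt
      ((chartAt (En n) (𝒜.x c)).open_target.mem_nhds (h.sub c hz))).of_le two_le_inf
  have h1 : HasDerivWithinAt (fun t' => rd n (𝒜.x a) (𝒜.uu u0 fun c => W c t') y)
      (∑ c, 𝒜.χ c p • (Lop (a0 c) (W c t) (chartAt (En n) (𝒜.x c) p) +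
        f c t (chartAt (En n) (𝒜.x c) p))) (Icc 0 τ) t :=
    (HasDerivWithinAt.fun_sum fun c _ =>
      ((h.sol c).eqn t ht (chartAt (En n) (𝒜.x c) p)).const_smul (𝒜.χ c p)).const_add (u0 p)
  convert h1 using 1
  set S := ∑ c, 𝒜.χ c p • Lop (Q.a (𝒜.x c) (s + t, chartAt (En n) (𝒜.x c) p, u p)) (W c t)
    (chartAt (En n) (𝒜.x c) p) with hS
  set N0 := Q.N (𝒜.x a) (s + t) (rd n (𝒜.x a) u) y with hN0
  have key : ∀ c, 𝒜.χ c p • (Lop (a0 c) (W c t) (chartAt (En n) (𝒜.x c) p) +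
      f c t (chartAt (En n) (𝒜.x c) p)) =
      𝒜.χ c p • Lop (Q.a (𝒜.x c) (s + t, chartAt (En n) (𝒜.x c) p, u p)) (W c t)
        (chartAt (En n) (𝒜.x c) p) + 𝒜.χ c p • (N0 - S + H (s + t) p) := by
    intro c
    by_cases hc : 𝒜.χ c p = 0
    · simp [hc]
    obtain ⟨hs1, hs2⟩ := 𝒜.supp c p hc
    rw [← smul_add]
    congr 1
    set yc := chartAt (En n) (𝒜.x c) p with hyc
    have hpc : (chartAt (En n) (𝒜.x c)).symm yc = p := (chartAt (En n) (𝒜.x c)).left_inv hs1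
    have hB := 𝒜.U_sub c hs2
    have hv : rd n (𝒜.x c) u yc = u p := by rw [rd, hpc]
    have hmO : (p, u p) ∈ O := h.memO ht p
    have e1 := N_uu Q hO hst hw hB (h0 c yc hB) (by rw [← hu, hv, hpc]; exact hmO)
    rw [← hu, hv] at e1
    simp only [tr, hpc, ← hS] at e1
    have hyd : y ∈ td n (𝒜.x a) (𝒜.x c) := ⟨h.sub a hy, hs1⟩
    have e2 : N0 = Q.N (𝒜.x c) (s + t) (rd n (𝒜.x c) u) yc := by
      rw [hN0, (Jet2.of_ev (rd_tr hyd u)).N Q]
      exact Q.compat hO hst hyd (c2_uu hw hB (h0 c yc hB)) (by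
        show (p, rd n (𝒜.x c) u yc) ∈ O
        rw [hv]; exact hmO)
    have e3 := h.fix c t ht yc hs2
    rw [← val_uu hB, ← hu, hv] at e3
    rw [e3, e2, e1]
    simp only [Lop, sub_smul, Finset.sum_sub_distrib, rd, hpc]
    abel
  simp only [key, Finset.sum_add_distrib, ← Finset.sum_smul, 𝒜.sum, one_smul, ← hS]
  simp only [rd, ← hp]
  abel

theorem Fx.yl (h : Fx 𝒜 Q u0 H s τ a0 f W) (hu0 : ContMDiff 𝓘(ℝ, En n) 𝓘(ℝ, V) ∞ u0)
    (a : Fin N) :
    Yl (Icc 0 τ) (𝒜.U a) 2 (fun t => rd n (𝒜.x a) (𝒜.uu u0 fun c => W c t)) := by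
  have h1 : Yl (Icc 0 τ) (𝒜.U a) 2 (fun _ => rd n (𝒜.x a) u0) :=
    yl_static isCompact_Icc isOpen_ball
      ((contDiffOn_rd hu0 _).mono ((𝒜.U_sub a).trans (h.sub a)))
  have h2 : Yl (Icc 0 τ) (𝒜.U a) 2 (fun t y => ∑ c, z0 (𝒜.ψ c a) (𝒜.θ c a) (W c t) y) := by
    refine Yl.sum isOpen_ball _ fun c _ => ?_
    obtain ⟨η, c', h3, h4, h5⟩ := h.bd c
    exact (yl_z0 (𝒜.ψ_sm c a) (𝒜.ψ_cs c a) (𝒜.θ_sm c a) (𝒜.θ_cs c a) h3 h4 h5
      (h.sol c).c2).mono le_rfl (subset_univ _)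
  exact Yl.congr isOpen_ball (h1.add isOpen_ball h2) fun t _ y hy =>
    (𝒜.rd_uu u0 _ (𝒜.U_sub a hy)).self_of_nhds

theorem Fx.isSol {a b : ℝ} {Q : QLOp n (Icc a b) O Op} (h : Fx 𝒜 Q u0 H s τ a0 f W)
    (hR : RegStmt n V) (hO : IsOpen O) (hu0 : ContMDiff 𝓘(ℝ, En n) 𝓘(ℝ, V) ∞ u0) (hτ : 0 < τ)
    (has : a ≤ s) (hsb : s + τ ≤ b) (hH : SmV n H (Icc a b)) :
    𝒜.uu u0 (fun c => W c (s - s)) = u0 ∧
      IsSol n O Op H s (s + τ) (fun t => 𝒜.uu u0 fun c => W c (t - s)) := by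
  have hm : ∀ t ∈ Icc s (s + τ), t - s ∈ Icc 0 τ := fun t ht =>
    ⟨by linarith [ht.1], by linarith [ht.2]⟩
  have hI : Icc s (s + τ) ⊆ Icc a b := Icc_subset_Icc has hsb
  have init : 𝒜.uu u0 (fun c => W c (s - s)) = u0 := by
    funext p; simp [uu, (h.sol _).init]
  set u : ℝ → M → V := fun t => 𝒜.uu u0 fun c => W c (t - s) with hu
  have hmem : ∀ t ∈ Icc s (s + τ), ∀ p, (p, u t p) ∈ O := fun t ht p => h.memO (hm t ht) p
  have hder : ∀ t ∈ Icc s (s + τ), ∀ i, ∀ y ∈ 𝒜.B i,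
      HasDerivWithinAt (fun t' => rd n (𝒜.x i) (u t') y)
        (Q.N (𝒜.x i) t (rd n (𝒜.x i) (u t)) y + rd n (𝒜.x i) (H t) y) (Icc s (s + τ)) t := by
    intro t ht i y hy
    have h1 := h.deriv hO hu0 (hm t ht) (by simpa using hI ht) hy
    have h2 : HasDerivWithinAt (fun t' : ℝ => t' - s) 1 (Icc s (s + τ)) t :=
      (hasDerivWithinAt_id t _).sub_const s
    have h3 := h1.scomp t h2 hm
    simpa [Function.comp_def] using h3
  have hloc : ∀ i, ContDiffOn ℝ ∞ (fun q : ℝ × En n => rd n (𝒜.x i) (u q.1) q.2)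
      (Icc s (s + τ) ×ˢ 𝒜.U i) := by
    intro i
    have hUT : 𝒜.U i ⊆ (chartAt (En n) (𝒜.x i)).target := (𝒜.U_sub i).trans (h.sub i)
    refine hR s (s + τ) (𝒜.U i) (domO n O (𝒜.x i)) (Q.a (𝒜.x i))
      (fun q => Q.b (𝒜.x i) q + rd n (𝒜.x i) (H q.1) q.2.1.1) (fun t => rd n (𝒜.x i) (u t))
      (by linarith) isOpen_ball (isOpen_domO hO _)
      (fun k l => (Q.sa _ k l).mono (prod_mono hI le_rfl)) ?_
      (fun t ht y hy => ⟨hUT hy, hmem t ht _⟩)
      (fun t ht y hy => Q.pos _ t (hI ht) _ ⟨hUT hy, hmem t ht _⟩) ?_ ?_ fun t ht y hy => ?_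
    · refine ((Q.sb _).mono (prod_mono hI le_rfl)).add ?_
      exact (hH (𝒜.x i)).comp (f := fun q : ℝ × (En n × V) × (Fin n → V) => (q.1, q.2.1.1))
        (by fun_prop) fun q hq => ⟨hI hq.1, hq.2.1.1⟩
    · exact (h.yl hu0 i).comp_time (σ := fun t => t - s) (by fun_prop) hm
    · rw [show u s = u0 from init]
      exact (contDiffOn_rd hu0 _).mono hUT
    · have := hder t ht i y (𝒜.U_sub i hy)
      simp only [QLOp.N, add_assoc] at this
      exact this
  have hsm : SmV n u (Icc s (s + τ)) := by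
    intro x q hq
    obtain ⟨i, h1, h2⟩ := 𝒜.cover ((chartAt (En n) x).symm q.2)
    have hd : q.2 ∈ td n x (𝒜.x i) := ⟨hq.2, h1⟩
    have hW : IsOpen (td n x (𝒜.x i) ∩ tr n x (𝒜.x i) ⁻¹' 𝒜.U i) :=
      (contDiffOn_tr _ _).continuousOn.isOpen_inter_preimage (isOpen_td _ _) isOpen_ball
    have h3 : ContDiffOn ℝ ∞ (fun q : ℝ × En n => rd n (𝒜.x i) (u q.1) (tr n x (𝒜.x i) q.2))
        (Icc s (s + τ) ×ˢ (td n x (𝒜.x i) ∩ tr n x (𝒜.x i) ⁻¹' 𝒜.U i)) :=
      (hloc i).comp (f := fun q : ℝ × En n => (q.1, tr n x (𝒜.x i) q.2))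
        (contDiffOn_fst.prodMk ((contDiffOn_tr _ _).comp contDiffOn_snd fun q hq => hq.2.1))
        fun q hq => ⟨hq.1, hq.2.2⟩
    have h4 : ContDiffOn ℝ ∞ (fun q : ℝ × En n => rd n x (u q.1) q.2)
        (Icc s (s + τ) ×ˢ (td n x (𝒜.x i) ∩ tr n x (𝒜.x i) ⁻¹' 𝒜.U i)) :=
      h3.congr fun q hq => by simp only [rd, symm_tr hq.2.1]
    refine (h4 q ⟨hq.1, hd, h2⟩).mono_of_mem_nhdsWithin ?_
    refine mem_nhdsWithin.2 ⟨univ ×ˢ _, isOpen_univ.prod hW, ⟨mem_univ _, hd, h2⟩, ?_⟩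
    exact fun p hp => ⟨hp.2.1, hp.1.2⟩
  refine ⟨init, hsm, hmem, fun t ht p => ?_⟩
  obtain ⟨i, h1, h2⟩ := 𝒜.cover p
  have h3 := hder t ht i _ (𝒜.U_sub i h2)
  have h4 : ContMDiff 𝓘(ℝ, En n) 𝓘(ℝ, V) ∞ (u t) := by
    refine contMDiff_of_rd fun x => ?_
    have h5 : ContDiffOn ℝ ∞ (rd n x (u t)) (chartAt (En n) x).target :=
      (hsm x).comp (f := fun y : En n => (t, y)) (by fun_prop) fun y hy => ⟨ht, hy⟩
    exact h5.contDiffAt ((chartAt (En n) x).open_target.mem_nhds (mem_chart_target _ x))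
  have h6 := Q.rep (𝒜.x i) t (hI ht) _ ((chartAt (En n) (𝒜.x i)).map_source h1) (u t) univ
    isOpen_univ (mem_univ _) h4.contMDiffOn fun p _ => hmem t ht p
  rw [(chartAt (En n) (𝒜.x i)).left_inv h1] at h6
  rw [h6]
  simpa only [rd, (chartAt (En n) (𝒜.x i)).left_inv h1, QLOp.N] using h3

end Atl

end Crest.Agent.N207.P
end
end

-- ▼ part N207/P/Nem
section

/-!
# Row 207, parabolic solver (helper11): Nemytskii bounds of smooth coefficients
-/

set_option autoImplicit false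
set_option linter.unusedSectionVars false

open Set Filter Metric
open scoped ContDiff Topology

noncomputable section

namespace Crest.Agent.N207.P

variable {n : ℕ}

section par

variable {W G : Type*} [NormedAddCommGroup W] [NormedSpace ℝ W] [NormedAddCommGroup G]
  [NormedSpace ℝ G]

/-- derivative in the second variable -/
def D2 (Ψ : ℝ × W → G) (q : ℝ × W) : W →L[ℝ] G := fderiv ℝ (fun w => Ψ (q.1, w)) q.2

theorem d2_spec {I : Set ℝ} {Ω : Set W} (hI : UniqueDiffOn ℝ I) (hΩ : IsOpen Ω) {Ψ : ℝ × W → G}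
    (h : ContDiffOn ℝ ∞ Ψ (I ×ˢ Ω)) :
    (∀ t ∈ I, ∀ w ∈ Ω, HasFDerivAt (fun w => Ψ (t, w)) (D2 Ψ (t, w)) w) ∧
      ContDiffOn ℝ ∞ (D2 Ψ) (I ×ˢ Ω) := by
  have hu : UniqueDiffOn ℝ (I ×ˢ Ω) := hI.prod hΩ.uniqueDiffOn
  have key : ∀ t ∈ I, ∀ w ∈ Ω, HasFDerivAt (fun w => Ψ (t, w))
      ((fderivWithin ℝ Ψ (I ×ˢ Ω) (t, w)).comp (ContinuousLinearMap.inr ℝ ℝ W)) w := by
    intro t ht w hw
    have h1 := (h.differentiableOn (by simp) (t, w) ⟨ht, hw⟩).hasFDerivWithinAt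
    have h2 : HasFDerivWithinAt (fun w : W => ((t, w) : ℝ × W)) (ContinuousLinearMap.inr ℝ ℝ W)
        Ω w := (hasFDerivAt_prodMk_right t w).hasFDerivWithinAt
    exact (h1.comp w h2 fun z hz => ⟨ht, hz⟩).hasFDerivAt (hΩ.mem_nhds hw)
  refine ⟨fun t ht w hw => (key t ht w hw).differentiableAt.hasFDerivAt, ?_⟩
  have h3 : ContDiffOn ℝ ∞ (fun q => (fderivWithin ℝ Ψ (I ×ˢ Ω) q).comp
      (ContinuousLinearMap.inr ℝ ℝ W)) (I ×ˢ Ω) :=
    (h.fderivWithin hu (m := ∞) (by simp)).clm_comp contDiffOn_const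
  exact h3.congr fun q hq => (key q.1 hq.1 q.2 hq.2).fderiv

end par

section nem

variable {Z G : Type*} [NormedAddCommGroup Z] [NormedSpace ℝ Z] [FiniteDimensional ℝ Z]
  [NormedAddCommGroup G] [NormedSpace ℝ G]

/-- smooth on `[a,b] × Ω`, vanishing for `y` outside of the closed set `Kc` -/
structure Cut (a b : ℝ) (Kc : Set (En n)) (Ω : Set (En n × Z)) (Ψ : ℝ × En n × Z → G) : Prop where
  sm : ContDiffOn ℝ ∞ Ψ (Icc a b ×ˢ Ω)
  zero : ∀ t, ∀ y ∉ Kc, ∀ z, Ψ (t, y, z) = 0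

variable {a b ρ : ℝ} {Kc : Set (En n)} {Ω : Set (En n × Z)}

theorem Cut.d2 (hab : a < b) (hK : IsCompact Kc) (hΩ : IsOpen Ω) {Ψ : ℝ × En n × Z → G}
    (h : Cut a b Kc Ω Ψ) : Cut a b Kc Ω (D2 Ψ) := by
  refine ⟨(d2_spec (uniqueDiffOn_Icc hab) hΩ h.sm).2, fun t y hy z => ?_⟩
  have : (fun w : En n × Z => Ψ (t, w)) =ᶠ[𝓝 (y, z)] fun _ => 0 := by
    have ho : IsOpen (Kcᶜ ×ˢ (univ : Set Z)) := hK.isClosed.isOpen_compl.prod isOpen_univ
    filter_upwards [ho.mem_nhds ⟨hy, mem_univ _⟩] with w hw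
    exact h.zero t w.1 hw.1 w.2
  simp only [D2]
  rw [this.fderiv_eq]; simp

theorem Cut.bdd (hK : IsCompact Kc) (hsub : univ ×ˢ closedBall (0 : Z) ρ ⊆ Ω)
    {Ψ : ℝ × En n × Z → G} (h : Cut a b Kc Ω Ψ) :
    ∃ K : ℝ, 0 < K ∧ ∀ t ∈ Icc a b, ∀ y z, ‖z‖ ≤ ρ → ‖Ψ (t, y, z)‖ ≤ K := by
  have hc : IsCompact (Icc a b ×ˢ Kc ×ˢ closedBall (0 : Z) ρ) :=
    isCompact_Icc.prod (hK.prod (isCompact_closedBall _ _))
  obtain ⟨K, hK'⟩ := hc.exists_bound_of_continuousOn (f := Ψ) (h.sm.continuousOn.mono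
    (prod_mono le_rfl ((prod_mono (subset_univ _) le_rfl).trans hsub)))
  refine ⟨max K 1, lt_max_of_lt_right one_pos, fun t ht y z hz => ?_⟩
  by_cases hy : y ∈ Kc
  · exact (hK' (t, y, z) ⟨ht, hy, by simpa using hz⟩).trans (le_max_left _ _)
  · rw [h.zero t y hy z]; simp

theorem Cut.lip (hab : a < b) (hK : IsCompact Kc) (hΩ : IsOpen Ω)
    (hsub : univ ×ˢ closedBall (0 : Z) ρ ⊆ Ω) {Ψ : ℝ × En n × Z → G} (h : Cut a b Kc Ω Ψ) :
    ∃ K : ℝ, 0 < K ∧ ∀ t ∈ Icc a b, ∀ x y z z', ‖z‖ ≤ ρ → ‖z'‖ ≤ ρ →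
      ‖Ψ (t, x, z) - Ψ (t, y, z')‖ ≤ K * (√(dist x y) + ‖z - z'‖) := by
  obtain ⟨K0, hK0, h0⟩ := h.bdd hK hsub
  obtain ⟨K1, hK1, h1⟩ := (h.d2 hab hK hΩ).bdd hK hsub
  have hd := (d2_spec (uniqueDiffOn_Icc hab) hΩ h.sm).1
  have hcv : Convex ℝ ((univ : Set (En n)) ×ˢ closedBall (0 : Z) ρ) :=
    convex_univ.prod (convex_closedBall _ _)
  have mv : ∀ t ∈ Icc a b, ∀ x y z z', ‖z‖ ≤ ρ → ‖z'‖ ≤ ρ →
      ‖Ψ (t, x, z) - Ψ (t, y, z')‖ ≤ K1 * ‖((x, z) : En n × Z) - (y, z')‖ := by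
    intro t ht x y z z' hz hz'
    exact hcv.norm_image_sub_le_of_norm_hasFDerivWithin_le (f := fun w => Ψ (t, w))
      (f' := fun w => D2 Ψ (t, w)) (fun w hw => (hd t ht w (hsub hw)).hasFDerivWithinAt)
      (fun w hw => h1 t ht w.1 w.2 (by simpa using hw.2)) ⟨mem_univ _, by simpa using hz'⟩
      ⟨mem_univ _, by simpa using hz⟩
  refine ⟨2 * K0 + K1, by positivity, fun t ht x y z z' hz hz' => ?_⟩
  have e : Ψ (t, x, z) - Ψ (t, y, z') =
      (Ψ (t, x, z) - Ψ (t, y, z)) + (Ψ (t, y, z) - Ψ (t, y, z')) := by abel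
  have a1 : ‖Ψ (t, x, z) - Ψ (t, y, z)‖ ≤ (2 * K0 + K1) * √(dist x y) := by
    refine le_sqrt_of_min hK0.le hK1.le dist_nonneg ((norm_sub_le _ _).trans
      (by linarith [h0 t ht x z hz, h0 t ht y z hz])) ?_
    simpa [Prod.norm_def, dist_eq_norm] using mv t ht x y z z hz hz
  have a2 : ‖Ψ (t, y, z) - Ψ (t, y, z')‖ ≤ K1 * ‖z - z'‖ := by
    simpa [Prod.norm_def] using mv t ht y y z z' hz hz'
  rw [e]
  refine (norm_add_le _ _).trans ?_
  nlinarith [norm_nonneg (z - z')]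

theorem Cut.sec (hab : a < b) (hK : IsCompact Kc) (hΩ : IsOpen Ω)
    (hsub : univ ×ˢ closedBall (0 : Z) ρ ⊆ Ω) {Ψ : ℝ × En n × Z → G} (h : Cut a b Kc Ω Ψ) :
    ∃ K : ℝ, 0 < K ∧ ∀ t ∈ Icc a b, ∀ x y z z' e e', ‖z‖ ≤ ρ → ‖z'‖ ≤ ρ → ‖e‖ ≤ ρ → ‖e'‖ ≤ ρ →
      ‖(Ψ (t, x, z) - Ψ (t, x, z')) - (Ψ (t, y, e) - Ψ (t, y, e'))‖ ≤
        K * (‖(z - z') - (e - e')‖ + (√(dist x y) + ‖z - e‖ + ‖z' - e'‖) * ‖e - e'‖) := by
  obtain ⟨K1, hK1, h1⟩ := (h.d2 hab hK hΩ).bdd hK hsub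
  obtain ⟨K2, hK2, h2⟩ := (h.d2 hab hK hΩ).lip hab hK hΩ hsub
  have hd := (d2_spec (uniqueDiffOn_Icc hab) hΩ h.sm).1
  refine ⟨K1 + K2, by positivity, fun t ht x y z z' e e' hz hz' he he' => ?_⟩
  have seg : ∀ {p q : Z}, ‖p‖ ≤ ρ → ‖q‖ ≤ ρ → ∀ s ∈ Icc (0 : ℝ) 1, ‖q + s • (p - q)‖ ≤ ρ := by
    intro p q hp hq s hs
    have := (convex_closedBall (0 : Z) ρ).add_smul_sub_mem (x := q) (y := p) (by simpa using hq)
      (by simpa using hp) hs
    simpa using this
  have der : ∀ (x : En n) {p q : Z}, ‖p‖ ≤ ρ → ‖q‖ ≤ ρ → ∀ s ∈ Icc (0 : ℝ) 1,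
      HasDerivAt (fun s : ℝ => Ψ (t, x, q + s • (p - q)))
        (D2 Ψ (t, x, q + s • (p - q)) (0, p - q)) s := by
    intro x p q hp hq s hs
    have h3 : HasDerivAt (fun s : ℝ => ((x, q + s • (p - q)) : En n × Z)) (0, p - q) s := by
      refine (hasDerivAt_const s x).prodMk ?_
      simpa using ((hasDerivAt_id s).smul_const (p - q)).const_add q
    exact (hd t ht _ (hsub ⟨mem_univ _, by simpa using seg hp hq s hs⟩)).comp_hasDerivAt s h3
  have key := norm_image_sub_le_of_norm_deriv_le_segment_01'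
    (f := fun s : ℝ => Ψ (t, x, z' + s • (z - z')) - Ψ (t, y, e' + s • (e - e')))
    (f' := fun s => D2 Ψ (t, x, z' + s • (z - z')) (0, z - z') -
      D2 Ψ (t, y, e' + s • (e - e')) (0, e - e'))
    (C := (K1 + K2) * (‖(z - z') - (e - e')‖ + (√(dist x y) + ‖z - e‖ + ‖z' - e'‖) * ‖e - e'‖))
    (fun s hs => ((der x hz hz' s hs).sub (der y he he' s hs)).hasDerivWithinAt) ?_
  · simp only [one_smul, zero_smul, add_zero, add_sub_cancel] at key
    have e1 : Ψ (t, x, z) - Ψ (t, x, z') - (Ψ (t, y, e) - Ψ (t, y, e')) =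
        Ψ (t, x, z) - Ψ (t, y, e) - (Ψ (t, x, z') - Ψ (t, y, e')) := by abel
    rw [e1]; exact key
  · intro s hs
    have hs' : s ∈ Icc (0 : ℝ) 1 := Ico_subset_Icc_self hs
    set L1 := D2 Ψ (t, x, z' + s • (z - z'))
    set L2 := D2 Ψ (t, y, e' + s • (e - e'))
    have e1 : L1 (0, z - z') - L2 (0, e - e') =
        L1 (0, (z - z') - (e - e')) + (L1 - L2) (0, e - e') := by
      have : ((0, (z - z') - (e - e')) : En n × Z) = (0, z - z') - (0, e - e') := by simp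
      rw [this, map_sub, sub_apply]; abel
    have b1 : ‖L1 (0, (z - z') - (e - e'))‖ ≤ K1 * ‖(z - z') - (e - e')‖ := by
      refine (L1.le_opNorm _).trans ?_
      simp only [Prod.norm_def, norm_zero, norm_nonneg, max_eq_right]
      exact mul_le_mul_of_nonneg_right (h1 t ht _ _ (seg hz hz' s hs')) (norm_nonneg _)
    have b3 : ‖z' + s • (z - z') - (e' + s • (e - e'))‖ ≤ ‖z - e‖ + ‖z' - e'‖ := by
      have : z' + s • (z - z') - (e' + s • (e - e')) = s • (z - e) + (1 - s) • (z' - e') := by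
        module
      rw [this]
      refine (norm_add_le _ _).trans (add_le_add ?_ ?_)
      · rw [norm_smul, Real.norm_of_nonneg hs'.1]
        nlinarith [norm_nonneg (z - e), hs'.2]
      · rw [norm_smul, Real.norm_of_nonneg (by linarith [hs'.2])]
        nlinarith [norm_nonneg (z' - e'), hs'.1]
    have b2 : ‖(L1 - L2) (0, e - e')‖ ≤
        K2 * (√(dist x y) + ‖z - e‖ + ‖z' - e'‖) * ‖e - e'‖ := by
      refine ((L1 - L2).le_opNorm _).trans ?_
      simp only [Prod.norm_def, norm_zero, norm_nonneg, max_eq_right]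
      refine mul_le_mul_of_nonneg_right ((h2 t ht x y _ _ (seg hz hz' s hs')
        (seg he he' s hs')).trans ?_) (norm_nonneg _)
      exact mul_le_mul_of_nonneg_left (by linarith) hK2.le
    rw [e1]
    refine (norm_add_le _ _).trans ((add_le_add b1 b2).trans ?_)
    have p1 := norm_nonneg ((z - z') - (e - e'))
    have p2 : 0 ≤ (√(dist x y) + ‖z - e‖ + ‖z' - e'‖) * ‖e - e'‖ := by positivity
    nlinarith

theorem Nem.mono {X : Type*} [TopologicalSpace X] {d : X → X → ℝ} {τ K K' : ℝ}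
    {H : ℝ → X → Z → G} (h : Nem d τ ρ K H) (hK : K ≤ K') : Nem d τ ρ K' H :=
  ⟨h.cont, fun t ht x z hz => (h.sup t ht x z hz).trans hK,
    fun t ht x y z z' hz hz' => (h.lip t ht x y z z' hz hz').trans
      (mul_le_mul_of_nonneg_right hK (by positivity)),
    fun t ht x y z z' e e' hz hz' he he' => (h.sec t ht x y z z' e e' hz hz' he he').trans
      (mul_le_mul_of_nonneg_right hK (by positivity))⟩

theorem Cut.nem (hab : a < b) (hK : IsCompact Kc) (hΩ : IsOpen Ω)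
    (hsub : univ ×ˢ closedBall (0 : Z) ρ ⊆ Ω) {Ψ : ℝ × En n × Z → G} (h : Cut a b Kc Ω Ψ) :
    ∃ K : ℝ, 0 < K ∧ ∀ s τ, a ≤ s → s + τ ≤ b →
      Nem dist τ ρ K (fun t y z => Ψ (s + t, y, z)) := by
  obtain ⟨K0, hK0, h0⟩ := h.bdd hK hsub
  obtain ⟨K1, hK1, h1⟩ := h.lip hab hK hΩ hsub
  obtain ⟨K2, hK2, h2⟩ := h.sec hab hK hΩ hsub
  refine ⟨K0 + K1 + K2, by positivity, fun s τ hs hτ => ?_⟩
  have hm : ∀ t ∈ Icc 0 τ, s + t ∈ Icc a b := fun t ht =>
    ⟨by linarith [ht.1], by linarith [ht.2]⟩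
  refine ⟨?_, fun t ht x z hz => (h0 _ (hm t ht) x z hz).trans (by linarith),
    fun t ht x y z z' hz hz' => (h1 _ (hm t ht) x y z z' hz hz').trans
      (mul_le_mul_of_nonneg_right (by linarith) (by positivity)),
    fun t ht x y z z' e e' hz hz' he he' => (h2 _ (hm t ht) x y z z' e e' hz hz' he he').trans
      (mul_le_mul_of_nonneg_right (by linarith) (by positivity))⟩
  exact h.sm.continuousOn.comp (f := fun p : ℝ × En n × Z => (s + p.1, p.2))
    ((continuous_const.add continuous_fst).prodMk continuous_snd).continuousOn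
    fun p hp => ⟨hm _ hp.1, hsub ⟨mem_univ _, hp.2.2⟩⟩

/-- Nemytskii bounds for `η y • Φ (s + t, y, z)` -/
theorem nem_smooth (hab : a < b) (hK : IsCompact Kc) (hΩ : IsOpen Ω)
    (hsub : Kc ×ˢ closedBall (0 : Z) ρ ⊆ Ω) {η : En n → ℝ} (hη : ContDiff ℝ ∞ η)
    (hηs : ∀ y ∉ Kc, η y = 0) {Φ : ℝ × En n × Z → G} (hΦ : ContDiffOn ℝ ∞ Φ (Icc a b ×ˢ Ω)) :
    ∃ K : ℝ, 0 < K ∧ ∀ s τ, a ≤ s → s + τ ≤ b →
      Nem dist τ ρ K (fun t y z => η y • Φ (s + t, y, z)) := by
  have ho : IsOpen (Kcᶜ ×ˢ (univ : Set Z)) := hK.isClosed.isOpen_compl.prod isOpen_univ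
  have hc : Cut a b Kc (Ω ∪ Kcᶜ ×ˢ univ) (fun q => η q.2.1 • Φ q) := by
    refine ⟨fun q hq => ?_, fun t y hy z => by simp [hηs y hy]⟩
    rcases hq.2 with h | h
    · have h1 : ContDiffWithinAt ℝ ∞ (fun q : ℝ × En n × Z => η q.2.1 • Φ q) (Icc a b ×ˢ Ω) q :=
        ((hη.comp (contDiff_fst.comp contDiff_snd)).contDiffWithinAt).smul (hΦ q ⟨hq.1, h⟩)
      refine h1.mono_of_mem_nhdsWithin ?_
      refine mem_nhdsWithin.2 ⟨univ ×ˢ Ω, isOpen_univ.prod hΩ, ⟨mem_univ _, h⟩, ?_⟩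
      exact fun p hp => ⟨hp.2.1, hp.1.2⟩
    · refine (contDiffAt_const (c := (0 : G))).congr_of_eventuallyEq ?_ |>.contDiffWithinAt
      filter_upwards [(isOpen_univ.prod ho).mem_nhds (⟨mem_univ _, h⟩ : q ∈ univ ×ˢ _)] with p hp
      simp [hηs p.2.1 hp.2.1]
  refine hc.nem hab hK (hΩ.union ho) fun p hp => ?_
  by_cases h : p.1 ∈ Kc
  · exact Or.inl (hsub ⟨h, hp.2⟩)
  · exact Or.inr ⟨h, mem_univ _⟩

end nem

/-! ### gluing over a finite family of copies of `ℝⁿ` -/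

section glue

variable {N : ℕ} {V : Type*} [NormedAddCommGroup V]

/-- the "distance" on a disjoint union -/
def dX (p q : Fin N × En n) : ℝ := if p.1 = q.1 then dist p.2 q.2 else 4

theorem contOn_glue {Y : Type*} [TopologicalSpace Y] {S : Set Y} {τ : ℝ}
    {g : Fin N → ℝ → En n → Y → V}
    (h : ∀ i, ContinuousOn (fun p : ℝ × En n × Y => g i p.1 p.2.1 p.2.2) (Icc 0 τ ×ˢ univ ×ˢ S)) :
    ContinuousOn (fun p : ℝ × (Fin N × En n) × Y => g p.2.1.1 p.1 p.2.1.2 p.2.2)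
      (Icc 0 τ ×ˢ univ ×ˢ S) := by
  intro p hp
  have h1 : ContinuousWithinAt (fun q : ℝ × (Fin N × En n) × Y => g p.2.1.1 q.1 q.2.1.2 q.2.2)
      (Icc 0 τ ×ˢ univ ×ˢ S) p :=
    ContinuousWithinAt.comp (f := fun q : ℝ × (Fin N × En n) × Y => (q.1, q.2.1.2, q.2.2))
      (h p.2.1.1 _ ⟨hp.1, mem_univ _, hp.2.2⟩) (by fun_prop)
      fun q hq => ⟨hq.1, mem_univ _, hq.2.2⟩
  refine h1.congr_of_eventuallyEq ?_ rfl
  have ho : IsOpen {q : ℝ × (Fin N × En n) × Y | q.2.1.1 = p.2.1.1} :=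
    (isOpen_discrete {p.2.1.1}).preimage (by fun_prop)
  filter_upwards [mem_nhdsWithin_of_mem_nhds (ho.mem_nhds rfl)] with q hq
  rw [show q.2.1.1 = p.2.1.1 from hq]

theorem sqrt_four : √(4 : ℝ) = 2 := by
  rw [show (4 : ℝ) = 2 ^ 2 by norm_num]; exact Real.sqrt_sq (by norm_num)

theorem yb_glue {τ A c : ℝ} {g : Fin N → ℝ → En n → V} (h : ∀ i, Yb dist τ A c (g i))
    (hA : A ≤ c) : Yb dX τ A c (fun t p => g p.1 t p.2) := by
  refine ⟨?_, fun t ht p => (h p.1).sup t ht p.2, fun t ht p q => ?_⟩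
  · have h1 := contOn_glue (Y := Unit) (S := univ) (g := fun i t y _ => g i t y) (τ := τ)
      fun i => (h i).cont.comp (f := fun p : ℝ × En n × Unit => (p.1, p.2.1)) (by fun_prop)
        fun q hq => ⟨hq.1, mem_univ _⟩
    exact h1.comp (f := fun p : ℝ × (Fin N × En n) => (p.1, p.2, ())) (by fun_prop)
      fun q hq => ⟨hq.1, mem_univ _, mem_univ _⟩
  · unfold dX
    split_ifs with e
    · obtain ⟨i, y⟩ := p
      obtain ⟨j, y'⟩ := q
      obtain rfl : i = j := e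
      exact (h i).hol t ht y y'
    · rw [sqrt_four]
      exact (norm_sub_le _ _).trans
        (by linarith [(h p.1).sup t ht p.2, (h q.1).sup t ht q.2])

theorem yb_slice {τ A c : ℝ} {f : ℝ → Fin N × En n → V} (h : Yb dX τ A c f) (i : Fin N) :
    Yb dist τ A c (fun t y => f t (i, y)) :=
  ⟨h.cont.comp (f := fun p : ℝ × En n => (p.1, (i, p.2))) (by fun_prop)
      fun q hq => ⟨hq.1, mem_univ _⟩, fun t ht y => h.sup t ht _, fun t ht y y' => by
    simpa [dX] using h.hol t ht (i, y) (i, y')⟩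

theorem nem_glue {Z : Type*} [NormedAddCommGroup Z] {τ ρ K : ℝ} (hK : 0 ≤ K)
    {H : Fin N → ℝ → En n → Z → V} (h : ∀ i, Nem dist τ ρ K (H i)) :
    Nem dX τ ρ K (fun t p z => H p.1 t p.2 z) := by
  refine ⟨contOn_glue fun i => (h i).cont, fun t ht p z hz => (h p.1).sup t ht p.2 z hz,
    fun t ht p q z z' hz hz' => ?_, fun t ht p q z z' e e' hz hz' he he' => ?_⟩
  · unfold dX
    split_ifs with e
    · obtain ⟨i, y⟩ := p
      obtain ⟨j, y'⟩ := q
      obtain rfl : i = j := e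
      exact (h i).lip t ht y y' z z' hz hz'
    · rw [sqrt_four]
      refine (norm_sub_le _ _).trans ?_
      nlinarith [(h p.1).sup t ht p.2 z hz, (h q.1).sup t ht q.2 z' hz', norm_nonneg (z - z')]
  · unfold dX
    split_ifs with e0
    · obtain ⟨i, y⟩ := p
      obtain ⟨j, y'⟩ := q
      obtain rfl : i = j := e0
      exact (h i).sec t ht y y' z z' e e' hz hz' he he'
    · rw [sqrt_four]
      refine (norm_sub_le _ _).trans ?_
      have h1 := (h p.1).lip t ht p.2 p.2 z z' hz hz'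
      have h2 := (h q.1).lip t ht q.2 q.2 e e' he he'
      simp only [dist_self, Real.sqrt_zero, zero_add] at h1 h2
      have h3 : ‖z - z'‖ ≤ ‖(z - z') - (e - e')‖ + ‖e - e'‖ := norm_le_norm_sub_add _ _
      have h4 : 0 ≤ (‖z - e‖ + ‖z' - e'‖) * ‖e - e'‖ := by positivity
      have h5 := mul_le_mul_of_nonneg_left h3 hK
      nlinarith

theorem nem_zero {X Z : Type*} [TopologicalSpace X] [NormedAddCommGroup Z] {d : X → X → ℝ}
    {τ ρ K : ℝ} (hK : 0 ≤ K) : Nem d τ ρ K (fun (_ : ℝ) (_ : X) (_ : Z) => (0 : V)) :=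
  ⟨continuousOn_const, fun _ _ _ _ _ => by simpa using hK, fun _ _ _ _ _ _ _ _ => by
    simp only [sub_zero, norm_zero]; positivity, fun _ _ _ _ _ _ _ _ _ _ _ _ => by
    simp only [sub_zero, norm_zero]; positivity⟩

end glue

end Crest.Agent.N207.P
end
end

-- ▼ part N207/P/Core3
section

/-!
# Row 207, parabolic solver (helper11): (CORE) from (H), (ABS), (REG)
-/

set_option autoImplicit false
set_option linter.unusedSectionVars false

open Set Filter Metric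
open scoped ContDiff Topology Manifold

noncomputable section

namespace Crest.Agent.N207.P

variable {n : ℕ} {V : Type*} [NormedAddCommGroup V] [NormedSpace ℝ V]
  {M : Type*} [TopologicalSpace M] [ChartedSpace (En n) M] [IsManifold 𝓘(ℝ, En n) ∞ M]
  {a b : ℝ} {O : Set (M × V)} {Op : ℝ → (M → V) → M → V}

theorem exists_radius (Q : QLOp n (Icc a b) O Op) (hO : IsOpen O) {u0 : M → V}
    (hu0 : ContMDiff 𝓘(ℝ, En n) 𝓘(ℝ, V) ∞ u0) (h0 : ∀ p, (p, u0 p) ∈ O) {s0 : ℝ}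
    (hs0 : s0 ∈ Icc a b) (x : M) {ε : ℝ} (hε : 0 < ε) :
    ∃ r δ : ℝ, 0 < r ∧ 0 < δ ∧ ∀ y ∈ closedBall (cen n x) (2 * r), ∀ v : V, ‖v‖ ≤ δ →
      (y, rd n x u0 y + v) ∈ domO n O x ∧ ∀ t ∈ Icc a b, |t - s0| ≤ δ → ∀ k l,
        |Q.a x (t, y, rd n x u0 y + v) k l - Q.a x (s0, cen n x, u0 x) k l| ≤ ε := by
  have hc : cen n x ∈ (chartAt (En n) x).target := mem_chart_target _ x
  have hx : (chartAt (En n) x).symm (cen n x) = x :=
    (chartAt (En n) x).left_inv (mem_chart_source _ x)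
  have hm : (cen n x, u0 x) ∈ domO n O x := ⟨hc, by rw [hx]; exact h0 x⟩
  have hrd : ContinuousAt (rd n x u0) (cen n x) :=
    (contDiffOn_rd hu0 x).continuousOn.continuousAt
      ((chartAt (En n) x).open_target.mem_nhds hc)
  have hv : rd n x u0 (cen n x) = u0 x := by rw [rd, hx]
  set G : ℝ × En n × V → ℝ × En n × V := fun q => (q.1, q.2.1, rd n x u0 q.2.1 + q.2.2) with hG
  have hGc : Tendsto G (𝓝 (s0, cen n x, 0)) (𝓝 (s0, cen n x, u0 x)) := by
    have h2 : ContinuousAt (fun q : ℝ × En n × V => rd n x u0 q.2.1) (s0, cen n x, 0) :=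
      ContinuousAt.comp (f := fun q : ℝ × En n × V => q.2.1) (x := (s0, cen n x, 0)) hrd
        (by fun_prop)
    have h1 : ContinuousAt G (s0, cen n x, 0) :=
      continuousAt_fst.prodMk ((continuousAt_fst.comp continuousAt_snd).prodMk
        (h2.add (continuousAt_snd.comp continuousAt_snd)))
    simpa [ContinuousAt, hG, hv] using h1
  have e1 : ∀ᶠ q in 𝓝 ((s0, cen n x, u0 x) : ℝ × En n × V), q.2 ∈ domO n O x :=
    continuousAt_snd.eventually ((isOpen_domO hO x).mem_nhds hm)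
  have e2 : ∀ᶠ q in 𝓝 ((s0, cen n x, u0 x) : ℝ × En n × V), ∀ k l,
      q ∈ Icc a b ×ˢ domO n O x → |Q.a x q k l - Q.a x (s0, cen n x, u0 x) k l| ≤ ε := by
    refine eventually_all.2 fun k => eventually_all.2 fun l => ?_
    have h1 := ((Q.sa x k l).continuousOn _ ⟨hs0, hm⟩).eventually
      (closedBall_mem_nhds (Q.a x (s0, cen n x, u0 x) k l) hε)
    exact (eventually_nhdsWithin_iff.1 h1).mono fun q hq hq' => by
      simpa [Real.dist_eq] using hq hq'
  obtain ⟨δ, hδ, h⟩ := Metric.eventually_nhds_iff.1 (hGc.eventually (e1.and e2))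
  refine ⟨δ / 4, δ / 2, by positivity, by positivity, fun y hy v hv => ?_⟩
  have key : ∀ t, |t - s0| ≤ δ / 2 → dist ((t, y, v) : ℝ × En n × V) (s0, cen n x, 0) < δ := by
    intro t ht
    rw [Prod.dist_eq, Prod.dist_eq, Real.dist_eq, dist_zero_right]
    have := mem_closedBall.1 hy
    exact max_lt (by linarith) (max_lt (by linarith) (by linarith))
  have h2 := (h (key s0 (by simp; positivity))).1
  exact ⟨h2, fun t ht hts k l => (h (key t hts)).2 k l ⟨ht, h2⟩⟩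

theorem exists_le_all {ι : Type*} [Fintype ι] {K : ι → ℝ} (hK : ∀ i, 0 < K i) :
    ∃ C : ℝ, 0 < C ∧ ∀ i, K i ≤ C :=
  ⟨∑ i, K i + 1, by have := Finset.sum_nonneg fun i (_ : i ∈ Finset.univ) => (hK i).le; positivity,
    fun i => (Finset.single_le_sum (fun i _ => (hK i).le) (Finset.mem_univ i)).trans
      (by linarith)⟩

theorem exists_ge_all {ι : Type*} [Fintype ι] {δ : ι → ℝ} (hδ : ∀ i, 0 < δ i) :
    ∃ ρ : ℝ, 0 < ρ ∧ ∀ i, ρ ≤ δ i := by
  obtain ⟨C, hC, h⟩ := exists_le_all (K := fun i => (δ i)⁻¹) fun i => inv_pos.2 (hδ i)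
  exact ⟨C⁻¹, inv_pos.2 hC, fun i => by
    simpa using inv_anti₀ (inv_pos.2 (hδ i)) (h i)⟩

/-- the domain of the coefficients in the chart at `x` -/
def omZ (n : ℕ) {M : Type*} [TopologicalSpace M] [ChartedSpace (En n) M] (O : Set (M × V))
    (u0 : M → V) (x : M) : Set (En n × ZZ n V) :=
  {q | (q.1, rd n x u0 q.1 + q.2.1) ∈ domO n O x}

theorem cd_rd_snd {u0 : M → V} (x : M) {W : Type*} [NormedAddCommGroup W] [NormedSpace ℝ W]
    {g : En n → W} (hg : ContDiffOn ℝ ∞ g (chartAt (En n) x).target) :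
    ContDiffOn ℝ ∞ (fun q : ℝ × En n × ZZ n V => g q.2.1) (Icc a b ×ˢ omZ n O u0 x) :=
  hg.comp (f := fun q : ℝ × En n × ZZ n V => q.2.1) (by fun_prop) fun _ hq => hq.2.1

theorem isOpen_omZ (hO : IsOpen O) {u0 : M → V} (hu0 : ContMDiff 𝓘(ℝ, En n) 𝓘(ℝ, V) ∞ u0)
    (x : M) : IsOpen (omZ n O u0 x) := by
  have h : ContinuousOn (fun q : En n × ZZ n V => (q.1, rd n x u0 q.1 + q.2.1))
      ((chartAt (En n) x).target ×ˢ univ) :=
    continuousOn_fst.prodMk (((contDiffOn_rd hu0 x).continuousOn.comp continuousOn_fst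
      fun q hq => hq.1).add (by fun_prop))
  have := h.isOpen_inter_preimage ((chartAt (En n) x).open_target.prod isOpen_univ)
    (isOpen_domO hO x)
  convert this using 1
  ext q
  exact ⟨fun hq => ⟨⟨hq.1, mem_univ _⟩, hq⟩, fun hq => hq.2⟩

theorem cd_a (Q : QLOp n (Icc a b) O Op) {u0 : M → V}
    (hu0 : ContMDiff 𝓘(ℝ, En n) 𝓘(ℝ, V) ∞ u0) (x : M) (k l : Fin n) :
    ContDiffOn ℝ ∞ (fun q : ℝ × En n × ZZ n V =>
      Q.a x (q.1, q.2.1, rd n x u0 q.2.1 + q.2.2.1) k l) (Icc a b ×ˢ omZ n O u0 x) :=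
  (Q.sa x k l).comp (f := fun q : ℝ × En n × ZZ n V =>
      (q.1, q.2.1, rd n x u0 q.2.1 + q.2.2.1))
    (contDiffOn_fst.prodMk ((by fun_prop : ContDiffOn ℝ ∞ (fun q : ℝ × En n × ZZ n V => q.2.1) _).prodMk
      ((cd_rd_snd x (contDiffOn_rd hu0 x)).add (by fun_prop)))) fun _ hq => ⟨hq.1, hq.2⟩

theorem cd_Phi (Q : QLOp n (Icc a b) O Op) {u0 : M → V}
    (hu0 : ContMDiff 𝓘(ℝ, En n) 𝓘(ℝ, V) ∞ u0) (x : M) :
    ContDiffOn ℝ ∞ (Q.Phi u0 x) (Icc a b ×ˢ omZ n O u0 x) := by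
  have ho := (chartAt (En n) x).open_target
  have h0 := contDiffOn_rd hu0 x
  refine (ContDiffOn.sum fun k _ => ContDiffOn.sum fun l _ => (cd_a Q hu0 x k l).smul
    ((cd_rd_snd x (contDiffOn_pd_top ho (contDiffOn_pd_top ho h0 l) k)).add (by fun_prop))).add ?_
  refine (Q.sb x).comp (f := fun q : ℝ × En n × ZZ n V =>
    (q.1, (q.2.1, rd n x u0 q.2.1 + q.2.2.1), d1 (rd n x u0) q.2.1 + q.2.2.2.1))
    (contDiffOn_fst.prodMk (((by fun_prop : ContDiffOn ℝ ∞
      (fun q : ℝ × En n × ZZ n V => q.2.1) _).prodMk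
      ((cd_rd_snd x h0).add (by fun_prop))).prodMk (ContDiffOn.add ?_ (by fun_prop))))
    fun _ hq => ⟨hq.1, hq.2, mem_univ _⟩
  exact contDiffOn_pi.2 fun k => cd_rd_snd x (contDiffOn_pd_top ho h0 k)

theorem core [FiniteDimensional ℝ V] [T2Space M] [CompactSpace M] (hS : SchauderStmt n V)
    (hA : ∀ N : ℕ, AbsStmt (Fin N × En n) V (ZZ n V) (Fin N × Fin n × Fin n))
    (hR : RegStmt n V) : CoreStmt n M V := by
  intro a b O Op Q u0 s0 hab hO hu0 h0 hs0
  have hm : ∀ x : M, (cen n x, u0 x) ∈ domO n O x := fun x =>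
    ⟨mem_chart_target _ x, by
      rw [(chartAt (En n) x).left_inv (mem_chart_source _ x)]; exact h0 x⟩
  choose C hC1 S hS using fun x : M => hS _ (Q.pos x s0 hs0 _ (hm x))
  have hC0 : ∀ x, 0 < C x := fun x => one_pos.trans_le (hC1 x)
  have hε : ∀ x, 0 < 1 / (4 * ((n : ℝ) ^ 2 + 1) * C x) := fun x => by
    have := hC0 x; positivity
  choose r δ hr hδ hP using fun x : M => exists_radius Q hO hu0 h0 hs0 x (hε x)
  have hsub : ∀ x, closedBall (cen n x) (2 * r x) ⊆ (chartAt (En n) x).target :=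
    fun x y hy => (hP x y hy 0 (by simpa using (hδ x).le)).1.1
  obtain ⟨N, ⟨𝒜⟩⟩ := exists_atl r hr hsub
  obtain ⟨ρ, hρ, hρδ⟩ := exists_ge_all fun i : Fin N => hδ (𝒜.x i)
  have hBc : ∀ i, IsCompact (𝒜.B i) := fun i => isCompact_closedBall _ _
  have hBo : ∀ i, 𝒜.B i ×ˢ closedBall (0 : ZZ n V) ρ ⊆ omZ n O u0 (𝒜.x i) := fun i q hq =>
    (hP _ _ hq.1 _ ((norm_fst_le q.2).trans ((mem_closedBall_zero_iff.1 hq.2).trans (hρδ i)))).1
  set a0 : Fin N → Matrix (Fin n) (Fin n) ℝ := fun i => Q.a (𝒜.x i) (s0, cen n (𝒜.x i), u0 (𝒜.x i))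
    with ha0
  choose Kα hKα hα using fun j : Fin N × Fin n × Fin n =>
    nem_smooth hab (hBc j.1) (isOpen_omZ hO hu0 _) (hBo j.1) (𝒜.η_sm j.1) (𝒜.η_zero j.1)
      ((cd_a Q hu0 (𝒜.x j.1) j.2.1 j.2.2).sub (contDiffOn_const (c := a0 j.1 j.2.1 j.2.2)))
  choose KB hKB hB using fun i : Fin N =>
    nem_smooth hab (hBc i) (isOpen_omZ hO hu0 _) (hBo i) (𝒜.η_sm i) (𝒜.η_zero i)
      (cd_Phi Q hu0 (𝒜.x i))
  obtain ⟨K1, hK1, hK1'⟩ := exists_le_all hKα
  obtain ⟨K2, hK2, hK2'⟩ := exists_le_all hKB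
  choose Cz hCz hz using fun j : Fin N × Fin N =>
    sml_zz (V := V) (𝒜.ψ_sm j.1 j.2) (𝒜.ψ_cs j.1 j.2) (𝒜.θ_sm j.1 j.2) (𝒜.θ_cs j.1 j.2)
  obtain ⟨C1, hC1p, hC1'⟩ := exists_le_all fun i : Fin N => hC0 (𝒜.x i)
  obtain ⟨C2, hC2p, hC2'⟩ := exists_le_all hCz
  set Cc : ℝ := C1 + N * (C2 * C1) with hCc
  have hCcp : 0 < Cc := by positivity
  obtain ⟨τ₁, hτ₁, hτ₁1, hAbs⟩ := hA N Cc (K1 + K2) ρ hCcp (by positivity) hρ
  refine ⟨min τ₁ (ρ / 2), by positivity, fun s s' has hss' hsb hs hs' H hH => ?_⟩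
  obtain ⟨τ, rfl⟩ : ∃ τ, s' = s + τ := ⟨s' - s, by ring⟩
  have hτ : τ ∈ Ioc 0 τ₁ := ⟨by linarith, by linarith [min_le_left τ₁ (ρ / 2)]⟩
  have hτρ : τ ≤ ρ / 2 := by linarith [min_le_right τ₁ (ρ / 2)]
  have hτ1 : τ ∈ Ioc (0 : ℝ) 1 := ⟨hτ.1, hτ.2.trans hτ₁1⟩
  have hq : 0 ≤ τ ^ (1 / 4 : ℝ) := Real.rpow_nonneg hτ.1.le _
  choose KH hKH hHn using fun i : Fin N =>
    nem_smooth hab (hBc i) (isOpen_omZ hO hu0 _) (hBo i) (𝒜.η_sm i) (𝒜.η_zero i)
      ((hH (𝒜.x i)).comp (f := fun q : ℝ × En n × ZZ n V => (q.1, q.2.1)) (by fun_prop)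
        fun q hq => ⟨hq.1, hq.2.1⟩)
  obtain ⟨K3, hK3, hK3'⟩ := exists_le_all hKH
  refine ⟨K3⁻¹, inv_pos.2 hK3, ?_⟩
  set W : (ℝ → Fin N × En n → V) → Fin N → ℝ → En n → V :=
    fun f i => S (𝒜.x i) fun t y => f t (i, y) with hW
  have hsol : ∀ A c f, 0 ≤ c → Yb dX τ A c f → ∀ i,
      Solves (a0 i) τ (fun t y => f t (i, y)) (W f i) ∧
      SolB τ (C (𝒜.x i) * τ ^ (1 / 4 : ℝ) * (A + c)) (C (𝒜.x i) * c) (W f i) :=
    fun A c f hc hf i => (hS (𝒜.x i) τ hτ1).1 A c _ hc (yb_slice hf i)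
  refine Exists.elim (hAbs τ hτ dX (fun j => C (𝒜.x j.1))
    (fun f t p => 𝒜.ze (fun i => W f i t) p.1 p.2)
    (fun j f t p => pd j.2.1 (pd j.2.2 (W f j.1 t)) p.2)
    (fun j t p z => if p.1 = j.1 then 𝒜.η j.1 p.2 •
      (Q.a (𝒜.x j.1) (s + t, p.2, rd n (𝒜.x j.1) u0 p.2 + z.1) j.2.1 j.2.2 - a0 j.1 j.2.1 j.2.2)
      else 0)
    (fun t p z => 𝒜.η p.1 p.2 • Q.Phi u0 (𝒜.x p.1) (s + t, p.2, z))
    (fun t p => K3⁻¹ • (𝒜.η p.1 p.2 • rd n (𝒜.x p.1) (H (s + t)) p.2))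
    (fun j => (hC0 _).le) (fun j => (hC1' j.1).trans
      (by rw [hCc]; linarith [show 0 ≤ (N : ℝ) * (C2 * C1) by positivity]))
    ?_ ?_ ?_ ?_ ?_ ?_) ?_
  rotate_right
  · rintro f ⟨A, c, hA0, hc0, hf, hfρ, hfix⟩
    have hζ : ∀ t ∈ Icc 0 τ, ∀ i y, ‖𝒜.ze (fun i => W f i t) i y‖ ≤ ρ := by
      intro t ht i y
      have h1 : ‖𝒜.ze (fun i => W f i t) i y‖ ≤ ∑ j : Fin N,
          C2 * (C1 * τ ^ (1 / 4 : ℝ) * (A + c)) := by
        refine (norm_sum_le _ _).trans (Finset.sum_le_sum fun j _ => ?_)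
        have h2 := (hz (j, i) τ _ _ _ (by have := hC0 (𝒜.x j); positivity)
          (hsol A c f hc0 hf j).2).sup t ht y
        refine h2.trans ?_
        have := hC0 (𝒜.x j)
        gcongr
        exacts [hC2' (j, i), hC1' j]
      simp only [Finset.sum_const, Finset.card_univ, Fintype.card_fin, nsmul_eq_mul] at h1
      have h3 : 0 ≤ C1 * τ ^ (1 / 4 : ℝ) * (A + c) := by positivity
      refine h1.trans (le_trans ?_ hfρ)
      rw [hCc]; nlinarith
    have hF : 𝒜.Fx Q u0 (fun t p => K3⁻¹ • H t p) s τ a0 (fun i t y => f t (i, y)) (W f) := by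
      refine ⟨fun i => hsub _, fun i => (hsol A c f hc0 hf i).1, fun i => ⟨_, _, ?_, ?_,
        (hsol A c f hc0 hf i).2⟩, fun i t ht y hy => ?_, fun i t ht y hy => ?_⟩
      · have := hC0 (𝒜.x i); positivity
      · have := hC0 (𝒜.x i); positivity
      · exact (hBo i (mk_mem_prod hy (mem_closedBall_zero_iff.2 (hζ t ht i y)))).2
      · have h1 := hfix t ht (i, y)
        simp only [Fintype.sum_prod_type, ite_smul, zero_smul, Finset.sum_ite_irrel,
          Finset.sum_const_zero, Finset.sum_ite_eq, Finset.mem_univ, if_true,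
          𝒜.η_one i y hy, one_smul] at h1
        exact h1
    obtain ⟨h1, h2⟩ := hF.isSol hR hO hu0 hτ.1 has hsb fun x => (hH x).const_smul K3⁻¹
    exact ⟨_, h1, h2⟩
  · intro A c f hA0 hc0 hf
    have hE : 0 ≤ τ ^ (1 / 4 : ℝ) * (A + c) := by positivity
    have hC1c : C1 ≤ Cc := by rw [hCc]; linarith [show 0 ≤ (N : ℝ) * (C2 * C1) by positivity]
    refine ⟨yb_glue (g := fun i t y => 𝒜.ze (fun j => W f j t) i y) (fun i => ?_) le_rfl,
      fun j => yb_glue (g := fun _ t y => pd j.2.1 (pd j.2.2 (W f j.1 t)) y) (fun _ => ?_) ?_⟩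
    · have h1 := yb_sum Finset.univ fun j _ => hz (j, i) τ _ _ _
        (by have := hC0 (𝒜.x j); positivity) (hsol A c f hc0 hf j).2
      have h2 : ∑ j : Fin N, Cz (j, i) * (C (𝒜.x j) * τ ^ (1 / 4 : ℝ) * (A + c)) ≤
          Cc * τ ^ (1 / 4 : ℝ) * (A + c) := by
        have h3 : ∑ j : Fin N, Cz (j, i) * (C (𝒜.x j) * τ ^ (1 / 4 : ℝ) * (A + c)) ≤
            ∑ j : Fin N, C2 * (C1 * τ ^ (1 / 4 : ℝ) * (A + c)) := by
          refine Finset.sum_le_sum fun j _ => ?_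
          have := hC0 (𝒜.x j)
          gcongr
          exacts [hC2' (j, i), hC1' j]
        simp only [Finset.sum_const, Finset.card_univ, Fintype.card_fin, nsmul_eq_mul] at h3
        refine h3.trans ?_
        rw [hCc]; nlinarith
      exact yb_mono h1 h2 h2
    · refine yb_mono ((hsol A c f hc0 hf j.1).2.y2 j.2.1 j.2.2) ?_ ?_
      · have := (hC1' j.1).trans hC1c
        gcongr
      · have : 0 ≤ Cc * τ ^ (1 / 4 : ℝ) * (A + c) := by positivity
        have : 0 ≤ Cc * A := by positivity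
        linarith
    · have := hC0 (𝒜.x j.1)
      have : 0 ≤ C (𝒜.x j.1) * c + Cc * A := by positivity
      linarith
  · intro A c A' c' f g hf hg t ht
    have hd : ∀ i, W (f - g) i t = W f i t - W g i t := fun i =>
      (hS (𝒜.x i) τ hτ1).2 A c A' c' _ _ (yb_slice hf i) (yb_slice hg i) t ht
    have h2 : ∀ {A c : ℝ} {f : ℝ → Fin N × En n → V}, Yb dX τ A c f → ∀ i,
        ContDiff ℝ 2 (W f i t) := fun {A c f} hf i =>
      (hsol A (max c 0) f (le_max_right _ _) (yb_mono hf le_rfl (le_max_left _ _)) i).1.c2 t ht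
    refine ⟨funext fun p => ?_, fun j => funext fun p => ?_⟩
    · simp only [Atl.ze, hd, zz_sub (h2 hf _) (h2 hg _), Finset.sum_sub_distrib, Pi.sub_apply]
    · simp only [hd, pd_pd_sub_fun (h2 hf _) (h2 hg _), Pi.sub_apply]
  · intro j
    refine nem_glue (H := fun i t y (z : ZZ n V) => if i = j.1 then 𝒜.η j.1 y •
      (Q.a (𝒜.x j.1) (s + t, y, rd n (𝒜.x j.1) u0 y + z.1) j.2.1 j.2.2 - a0 j.1 j.2.1 j.2.2)
      else 0) (by positivity) fun i => ?_
    by_cases hi : i = j.1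
    · simp only [hi, if_true]
      exact (hα j s τ has hsb).mono (by linarith [hK1' j])
    · simp only [hi, if_false]
      exact nem_zero (by positivity)
  · exact nem_glue (H := fun i t y z => 𝒜.η i y • Q.Phi u0 (𝒜.x i) (s + t, y, z))
      (by positivity) fun i => (hB i s τ has hsb).mono (by linarith [hK2' i])
  · refine yb_glue (g := fun i t y => K3⁻¹ • (𝒜.η i y • rd n (𝒜.x i) (H (s + t)) y))
      (fun i => ?_) le_rfl
    have h1 := (hHn i s τ has hsb).mono (hK3' i)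
    have hz0 : ‖(0 : ZZ n V)‖ ≤ ρ := by simpa using hρ.le
    refine ⟨ContinuousOn.const_smul (h1.cont.comp
      (f := fun p : ℝ × En n => (p.1, p.2, (0 : ZZ n V))) (by fun_prop)
      fun p hp => ⟨hp.1, mem_univ _, mem_closedBall_self hρ.le⟩) _, fun t ht y => ?_,
      fun t ht y y' => ?_⟩
    · rw [norm_smul, Real.norm_of_nonneg (inv_pos.2 hK3).le, inv_mul_le_iff₀ hK3, mul_one]
      exact h1.sup t ht y 0 hz0
    · rw [← smul_sub, norm_smul, Real.norm_of_nonneg (inv_pos.2 hK3).le, inv_mul_le_iff₀ hK3,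
        one_mul]
      simpa using h1.lip t ht y y' 0 0 hz0 hz0
  · intro t ht p z hz'
    obtain ⟨i, y⟩ := p
    simp only [Fintype.sum_prod_type, apply_ite abs, abs_zero, mul_ite, mul_zero,
      Finset.sum_ite_irrel, Finset.sum_const_zero, Finset.sum_ite_eq, Finset.mem_univ, if_true]
    have hCi := hC0 (𝒜.x i)
    have h1 : ∀ k l, C (𝒜.x i) * |𝒜.η i y • (Q.a (𝒜.x i) (s + t, y, rd n (𝒜.x i) u0 y + z.1) k l -
        a0 i k l)| ≤ 1 / (4 * ((n : ℝ) ^ 2 + 1)) := by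
      intro k l
      by_cases hy : y ∈ 𝒜.B i
      · have h2 := (hP _ y hy z.1 ((norm_fst_le z).trans (hz'.trans (hρδ i)))).2 (s + t)
          ⟨by linarith [ht.1], by linarith [ht.2]⟩ (by
            have := abs_le.1 (hs.trans (min_le_right _ _))
            rw [abs_le]; constructor <;> linarith [ht.1, ht.2, hρδ i]) k l
        rw [smul_eq_mul, abs_mul]
        have h3 := mul_le_mul (𝒜.η_le i y) h2 (abs_nonneg _) zero_le_one
        calc _ ≤ C (𝒜.x i) * (1 * (1 / (4 * ((n : ℝ) ^ 2 + 1) * C (𝒜.x i)))) := by gcongr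
          _ = _ := by field_simp
      · simp only [𝒜.η_zero i y hy, zero_smul, abs_zero, mul_zero]; positivity
    refine (Finset.sum_le_sum fun k _ => Finset.sum_le_sum fun l _ => h1 k l).trans ?_
    simp only [Finset.sum_const, Finset.card_univ, Fintype.card_fin, nsmul_eq_mul]
    rw [← mul_assoc, mul_one_div, div_le_div_iff₀ (by positivity) (by norm_num)]
    nlinarith

end Crest.Agent.N207.P
end
end

-- ▼ part N207/P/LReg1
section

/-!
# Row 207, parabolic solver (helper18): one more derivative, compactly supported case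
-/

set_option autoImplicit false
set_option linter.unusedSectionVars false

open Set Filter Topology Metric
open scoped ContDiff

noncomputable section

namespace Crest.Agent.N207.P

variable {n : ℕ} {V : Type*} [NormedAddCommGroup V] [NormedSpace ℝ V] {τ : ℝ}

theorem yb_unif {ι : Type*} [Fintype ι] {f : ι → ℝ → En n → V}
    (h : ∀ i, ∃ L : ℝ, 0 ≤ L ∧ Yb dist τ L L (f i)) : ∃ L : ℝ, 0 ≤ L ∧ ∀ i, Yb dist τ L L (f i) := by
  choose L hL0 hL using h
  have : ∀ i, L i ≤ ∑ j, L j := fun i =>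
    Finset.single_le_sum (fun j _ => hL0 j) (Finset.mem_univ i)
  exact ⟨∑ j, L j, Finset.sum_nonneg fun j _ => hL0 j, fun i => yb_mono (hL i) (this i) (this i)⟩

theorem pd_zero_off {f : En n → V} {K : Set (En n)} (hK : IsClosed K) (h : ∀ y, y ∉ K → f y = 0)
    (k : Fin n) (y : En n) (hy : y ∉ K) : pd k f y = 0 := by
  have : f =ᶠ[𝓝 y] fun _ => 0 := by
    filter_upwards [hK.isOpen_compl.mem_nhds hy] with z hz using h z hz
  rw [pd_congr this, pd_const']

theorem pd_dv {f : ℝ → En n → V} {t : ℝ} (h : Differentiable ℝ (f t)) (v : En n) (k : Fin n) :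
    pd k (dv v f t) = dv v (fun t => pd k (f t)) t := by
  funext y
  have h1 : HasFDerivAt (fun z => f t (z + v)) (fderiv ℝ (f t) (y + v)) y :=
    (hasFDerivAt_comp_add_right v).2 (h (y + v)).hasFDerivAt
  have h2 : HasFDerivAt (dv v f t) _ y := h1.sub (h y).hasFDerivAt
  simp only [pd, h2.fderiv, dv]
  rfl

theorem lreg_core [CompleteSpace V] (hA : AprStmt n V) {a0 : Matrix (Fin n) (Fin n) ℝ}
    (ha : a0.PosDef) : ∃ ε : ℝ, 0 < ε ∧ ∀ Lc : ℝ, 0 ≤ Lc → ∃ τ0 : ℝ, 0 < τ0 ∧ ∀ τ ∈ Ioc 0 τ0,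
      ∀ (c : Fin n → Fin n → ℝ → En n → ℝ) (F w : ℝ → En n → V) (K : Set (En n)), IsCompact K →
      (∀ k l, Yl (Icc 0 τ) univ 1 (c k l)) → (∀ k l, ∀ t ∈ Icc 0 τ, ∀ y, y ∉ K → c k l t y = 0) →
      (∀ k l, Yb dist τ ε Lc (c k l)) →
      Yl (Icc 0 τ) univ 1 F → (∀ t ∈ Icc 0 τ, ∀ y, y ∉ K → F t y = 0) →
      Yl (Icc 0 τ) univ 2 w → (∀ t ∈ Icc 0 τ, ∀ y, y ∉ K → w t y = 0) → (∀ y, w 0 y = 0) →
      (∀ t ∈ Icc 0 τ, ∀ y, HasDerivWithinAt (fun s => w s y) (Lop a0 (w t) y +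
        (∑ k, ∑ l, c k l t y • pd k (pd l (w t)) y + F t y)) (Icc 0 τ) t) →
      Yl (Icc 0 τ) univ 3 w := by
  obtain ⟨C, hC1, hC⟩ := hA a0 ha
  have hC0 : 0 < C := by linarith
  set N : ℝ := (n : ℝ) * n with hN
  have hN0 : 0 ≤ N := by positivity
  refine ⟨1 / (4 * C * (N + 1)), by positivity, fun Lc hLc => ?_⟩
  set ε : ℝ := 1 / (4 * C * (N + 1)) with hε
  have hε0 : 0 < ε := by positivity
  have hε1 : C * (N * ε) ≤ 1 / 4 := by
    rw [hε, mul_one_div, ← mul_div_assoc, div_le_iff₀ (by positivity)]; nlinarith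
  set μ : ℝ := 1 / (4 * (C * N * Lc + 1)) with hμ
  have hμ0 : 0 < μ := by positivity
  have hμ1 : C * N * Lc * μ ≤ 1 / 4 := by
    rw [hμ, mul_one_div, div_le_iff₀ (by positivity)]; nlinarith
  have hμ2 : μ ≤ 1 := by
    rw [hμ, div_le_iff₀ (by positivity)]
    have : 0 ≤ C * N * Lc := by positivity
    linarith
  refine ⟨min 1 ((μ / 2) ^ 4), by positivity, ?_⟩
  intro τ hτ c F w K hK hc hc0 hcb hF hF0 hw hw0 hi he
  have hτ1 : τ ∈ Ioc (0 : ℝ) 1 := ⟨hτ.1, hτ.2.trans (min_le_left _ _)⟩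
  have hlam : τ ^ (1 / 4 : ℝ) ≤ μ / 2 := by
    calc τ ^ (1 / 4 : ℝ) ≤ ((μ / 2) ^ 4) ^ (1 / 4 : ℝ) :=
          Real.rpow_le_rpow hτ.1.le (hτ.2.trans (min_le_right _ _)) (by norm_num)
      _ = μ / 2 := by
          rw [← Real.rpow_natCast, ← Real.rpow_mul (by positivity)]; norm_num
  have hlam0 : 0 ≤ τ ^ (1 / 4 : ℝ) := Real.rpow_nonneg hτ.1.le _
  have hI : IsCompact (Icc (0 : ℝ) τ) := isCompact_Icc
  have hz : ∀ {g : ℝ → En n → V}, (∀ t ∈ Icc 0 τ, ∀ y, y ∉ K → g t y = 0) → ∀ k,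
      ∀ t ∈ Icc 0 τ, ∀ y, y ∉ K → pd k (g t) y = 0 := fun h k t ht =>
    pd_zero_off hK.isClosed (h t ht) k
  obtain ⟨M, hM0, hM⟩ := yb_unif (ι := Fin n × Fin n)
    (f := fun p t => pd p.1 (pd p.2 (w t))) fun p =>
      ((hw.pd p.2).pd p.1).yb hK (hz (g := fun t => pd p.2 (w t)) (hz hw0 p.2) p.1)
  obtain ⟨L, hL0, hL⟩ := yb_unif (ι := (Fin n × Fin n) × Fin n)
    (f := fun p t => pd p.2 (c p.1.1 p.1.2 t)) fun p => ((hc _ _).pd p.2).yb hK
      fun t ht => pd_zero_off hK.isClosed (hc0 _ _ t ht) _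
  obtain ⟨L', hL0', hL'⟩ := yb_unif (ι := Fin n) (f := fun k t => pd k (F t)) fun k =>
    (hF.pd k).yb hK (hz hF0 k)
  obtain ⟨Bw, -, hBw⟩ := (hw.of_le hI isOpen_univ (Nat.zero_le 2)).yb hK hw0
  set Q : ℝ := N * (2 * n * L * M) + n * L' with hQ
  have hQ0 : 0 ≤ Q := by positivity
  have hw2 : ∀ t ∈ Icc 0 τ, ContDiff ℝ 2 (w t) := fun t ht =>
    contDiffOn_univ.1 (hw.contDiffOn isOpen_univ t ht)
  have hdd : ∀ v, ∀ t ∈ Icc 0 τ, ∀ k l, pd k (pd l (dv v w t)) =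
      dv v (fun t => pd k (pd l (w t))) t := fun v t ht k l => by
    rw [pd_dv (fun y => hw.diff ht (mem_univ y)),
      pd_dv (f := fun t => pd l (w t)) (fun y => (hw.pd l).diff ht (mem_univ y))]
  have key : ∀ k l v, ∀ t ∈ Icc 0 τ, ∀ y y',
      ‖dv v (fun t => pd k (pd l (w t))) t y - dv v (fun t => pd k (pd l (w t))) t y'‖ ≤
        2 * (C * Q) * ‖v‖ * √(dist y y') := by
    intro k l v
    set G : ℝ → En n → V := fun t y => ∑ k, ∑ l, c k l t y • pd k (pd l (w t)) y + F t y with hG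
    have hS : Solves a0 τ (dv v G) (dv v w) := by
      refine ⟨fun x => by simp [dv, hi], fun t ht => ?_, fun t ht x => ?_⟩
      · exact ((hw2 t ht).comp (contDiff_id.add contDiff_const)).sub (hw2 t ht)
      · refine ((he t ht (x + v)).sub (he t ht x)).congr_deriv ?_
        simp only [Lop, hdd v t ht, dv, smul_sub, Finset.sum_sub_distrib, hG]
        abel
    have step : ∀ X : ℝ, 0 ≤ X →
        (∀ k l, Yb dist τ (μ * X) X (dv v fun t => pd k (pd l (w t)))) →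
        ∀ k l, Yb dist τ (μ * (X / 2 + C * Q * ‖v‖)) (X / 2 + C * Q * ‖v‖)
          (dv v fun t => pd k (pd l (w t))) := by
      intro X hX hP k l
      have hv := norm_nonneg v
      have g1 : ∀ k l, Yb dist τ (ε * (μ * X) + 2 * n * L * M * ‖v‖)
          (ε * X + Lc * (μ * X) + 2 * n * L * M * ‖v‖) (fun t y =>
            c k l t (y + v) • dv v (fun t => pd k (pd l (w t))) t y +
              dv v (c k l) t y • pd k (pd l (w t)) y) := fun k l => by
        refine yb_add (yb_smul (yb_shift (hcb k l) v) (hP k l) hLc) (yb_mono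
          (yb_smul (yb_dv (hc k l) (fun m => hL ((k, l), m)) v) (hM (k, l)) (by positivity)) ?_ ?_)
        · have : 0 ≤ n * L * ‖v‖ * M := by positivity
          nlinarith
        · exact le_of_eq (by ring)
      have g2 := yb_add (yb_sum Finset.univ fun k _ => yb_sum Finset.univ fun l _ => g1 k l)
        (yb_dv hF hL' v)
      simp only [Finset.sum_const, Finset.card_univ, Fintype.card_fin, nsmul_eq_mul] at g2
      have g3 : Yb dist τ (N * ε * (μ * X) + Q * ‖v‖) (N * ε * X + N * Lc * (μ * X) + Q * ‖v‖)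
          (dv v G) := by
        refine yb_congr (yb_mono g2 (le_of_eq ?_) (le_of_eq ?_)) fun t _ y => ?_
        · rw [hQ, hN]; ring
        · rw [hQ, hN]; ring
        · simp only [dv, hG, smul_sub, sub_smul, Finset.sum_add_distrib, Finset.sum_sub_distrib]
          abel
      have g4 := (hC τ hτ1 _ _ (Bw + Bw) _ _ (by positivity) g3 hS (yb_dv0 hBw v).cont
        (yb_dv0 hBw v).sup).y2 k l
      have a1 : C * (N * ε * X + N * Lc * (μ * X) + Q * ‖v‖) ≤ X / 2 + C * Q * ‖v‖ := by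
        nlinarith [mul_le_mul_of_nonneg_right hε1 hX, mul_le_mul_of_nonneg_right hμ1 hX]
      have a2 : C * (N * ε * (μ * X) + Q * ‖v‖) ≤ X / 2 + C * Q * ‖v‖ := by
        have : μ * X ≤ X := by nlinarith
        nlinarith [mul_le_mul hε1 this (by positivity) (by norm_num)]
      refine yb_congr (yb_mono g4 ?_ a1) fun t ht y => by rw [hdd v t ht]
      have : 0 ≤ X / 2 + C * Q * ‖v‖ := by positivity
      calc _ = τ ^ (1 / 4 : ℝ) * (C * (N * ε * (μ * X) + Q * ‖v‖) +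
            C * (N * ε * X + N * Lc * (μ * X) + Q * ‖v‖)) := by ring
        _ ≤ μ / 2 * ((X / 2 + C * Q * ‖v‖) + (X / 2 + C * Q * ‖v‖)) :=
            mul_le_mul hlam (add_le_add a2 a1) (by positivity) (by positivity)
        _ = _ := by ring
    have iter : ∀ m : ℕ, ∀ k l, Yb dist τ (μ * ((M + M) / μ * (1 / 2) ^ m + 2 * (C * Q) * ‖v‖))
        ((M + M) / μ * (1 / 2) ^ m + 2 * (C * Q) * ‖v‖) (dv v fun t => pd k (pd l (w t))) := by
      intro m
      induction m with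
      | zero =>
        intro k l
        have h1 : 0 ≤ 2 * (C * Q) * ‖v‖ := by positivity
        have h2 : μ * ((M + M) / μ) = M + M := mul_div_cancel₀ _ hμ0.ne'
        have h3 : 0 ≤ (M + M) / μ := by positivity
        refine yb_mono (yb_dv0 (hM (k, l)) v) ?_ ?_ <;> simp only [pow_zero, mul_one] <;> nlinarith
      | succ m ih =>
        intro k l
        have e : (M + M) / μ * (1 / 2) ^ (m + 1) + 2 * (C * Q) * ‖v‖ =
            ((M + M) / μ * (1 / 2) ^ m + 2 * (C * Q) * ‖v‖) / 2 + C * Q * ‖v‖ := by ring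
        rw [e]
        exact step _ (by positivity) ih k l
    intro t ht y y'
    have hl : Tendsto (fun m : ℕ => ((M + M) / μ * (1 / 2) ^ m + 2 * (C * Q) * ‖v‖) *
        √(dist y y')) atTop (𝓝 (((M + M) / μ * 0 + 2 * (C * Q) * ‖v‖) * √(dist y y'))) :=
      (((tendsto_pow_atTop_nhds_zero_of_lt_one (by norm_num) (by norm_num)).const_mul _).add_const
        _).mul_const _
    simpa using ge_of_tendsto' hl fun m => (iter m k l).hol t ht y y'
  refine ⟨hw.1, hw.2.1, fun l => ⟨(hw.pd l).1, (hw.pd l).2.1, fun k => ?_⟩⟩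
  exact dq (K := 2 * (C * Q)) (by positivity) ((hw.pd l).pd k).1 (key k l)

end Crest.Agent.N207.P
end
end

-- ▼ part N207/P/LReg2
section

/-!
# Row 207, parabolic solver (helper18): `AprStmt → LRegStmt`
-/

set_option autoImplicit false
set_option linter.unusedSectionVars false

open Set Filter Topology Metric
open scoped ContDiff

noncomputable section

namespace Crest.Agent.N207.P

variable {n : ℕ} {V : Type*} [NormedAddCommGroup V] [NormedSpace ℝ V]
  {I : Set ℝ} {U : Set (En n)}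

theorem pd_smul' {χ : En n → ℝ} {p : En n → V} {y : En n} (hχ : DifferentiableAt ℝ χ y)
    (hp : DifferentiableAt ℝ p y) (k : Fin n) :
    pd k (fun z => χ z • p z) y = χ y • pd k p y + pd k χ y • p y := by
  unfold pd; rw [fderiv_fun_smul hχ hp]; rfl

theorem pd_pd_smul (hU : IsOpen U) {χ : En n → ℝ} (hχ : ContDiff ℝ ∞ χ) {p : ℝ → En n → V}
    (hp : Yl I U 2 p) {t : ℝ} (ht : t ∈ I) {y : En n} (hy : y ∈ U) (k l : Fin n) :
    pd k (pd l fun z => χ z • p t z) y = χ y • pd k (pd l (p t)) y + (pd k χ y • pd l (p t) y +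
      pd l χ y • pd k (p t) y + pd k (pd l χ) y • p t y) := by
  have d0 : ∀ z, DifferentiableAt ℝ χ z := hχ.differentiable (by simp)
  have d1 : DifferentiableAt ℝ (pd l χ) y := (contDiff_pd_top hχ l).differentiable (by simp) y
  have d2 : DifferentiableAt ℝ (pd l (p t)) y := (hp.pd l).diff ht hy
  have e : (pd l fun z => χ z • p t z) =ᶠ[𝓝 y]
      fun z => χ z • pd l (p t) z + pd l χ z • p t z := by
    filter_upwards [hU.mem_nhds hy] with z hz using pd_smul' (d0 z) (hp.diff ht hz) l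
  rw [pd_congr e, pd_add' ((d0 y).fun_smul d2) (d1.fun_smul (hp.diff ht hy)),
    pd_smul' (d0 y) d2, pd_smul' d1 (hp.diff ht hy)]
  abel

theorem pd_pd_sub (hU : IsOpen U) {p q : ℝ → En n → V} (hp : Yl I U 2 p) (hq : Yl I U 2 q)
    {t : ℝ} (ht : t ∈ I) {y : En n} (hy : y ∈ U) (k l : Fin n) :
    pd k (pd l fun z => p t z - q t z) y = pd k (pd l (p t)) y - pd k (pd l (q t)) y := by
  have e : (pd l fun z => p t z - q t z) =ᶠ[𝓝 y] fun z => pd l (p t) z - pd l (q t) z := by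
    filter_upwards [hU.mem_nhds hy] with z hz using pd_sub' (hp.diff ht hz) (hq.diff ht hz) l
  rw [pd_congr e, pd_sub' ((hp.pd l).diff ht hy) ((hq.pd l).diff ht hy)]

/-- (R1) -/
theorem lreg_of_apr [CompleteSpace V] (hApr : AprStmt n V) : LRegStmt n V := by
  intro a b U A f u hab hU hA hpos hf hu hu0 he
  have hI : IsCompact (Icc a b) := isCompact_Icc
  refine Yl.of_loc hI fun t0 ht0 y0 hy0 => ?_
  obtain ⟨ε, hε, hcore⟩ := lreg_core hApr (hpos t0 ht0 y0 hy0)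
  -- the freezing radius
  obtain ⟨r, hr, hrU, hsm⟩ : ∃ r : ℝ, 0 < r ∧ closedBall y0 r ⊆ U ∧ ∀ t ∈ Icc a b,
      |t - t0| ≤ r → ∀ y ∈ closedBall y0 r, ∀ k l, |A t y k l - A t0 y0 k l| ≤ ε := by
    have h1 : ∀ᶠ q in 𝓝[Icc a b ×ˢ U] (t0, y0), ∀ k l, |A q.1 q.2 k l - A t0 y0 k l| ≤ ε :=
      eventually_all.2 fun k => eventually_all.2 fun l =>
        ((hA k l).cont (t0, y0) ⟨ht0, hy0⟩).eventually (closedBall_mem_nhds _ hε)
    obtain ⟨ρ, hρ, h2⟩ := Metric.mem_nhdsWithin_iff.1 h1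
    obtain ⟨r, h3, h4⟩ := ((ev_ball hU hy0).and (Ioo_mem_nhdsGT hρ)).exists
    refine ⟨r, h4.1, h3, fun t ht h5 y hy => h2 (a := (t, y)) ⟨?_, ht, h3 hy⟩⟩
    rw [mem_ball, Prod.dist_eq, max_lt_iff]
    exact ⟨lt_of_le_of_lt h5 h4.2, lt_of_le_of_lt hy h4.2⟩
  let η : ContDiffBump y0 := ⟨r / 2, r, by positivity, by linarith⟩
  let χ : ContDiffBump y0 := ⟨r / 4, r / 2, by positivity, by linarith⟩
  have hη0 : ∀ y, y ∉ closedBall y0 r → η y = 0 := fun y hy =>
    η.zero_of_le_dist (le_of_lt (by simpa using hy))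
  have hχ0 : ∀ y, y ∉ closedBall y0 (r / 2) → χ y = 0 := fun y hy =>
    χ.zero_of_le_dist (le_of_lt (by simpa using hy))
  have hsub : closedBall y0 (r / 2) ⊆ closedBall y0 r := closedBall_subset_closedBall (by linarith)
  have hχs : ContDiff ℝ ∞ χ := χ.contDiff
  have st : ∀ {m : ℕ} {g : En n → ℝ}, ContDiff ℝ ∞ g → Yl (Icc a b) U m (fun _ => g) :=
    fun h => yl_static hI hU h.contDiffOn
  set c : Fin n → Fin n → ℝ → En n → ℝ := fun k l t y => η y * (A t y k l - A t0 y0 k l) with hcd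
  have hc0 : ∀ k l t y, y ∉ closedBall y0 r → c k l t y = 0 := fun k l t y hy => by
    simp [hcd, hη0 y hy]
  have hc : ∀ k l, Yl (Icc a b) univ 1 (c k l) := fun k l =>
    ((st η.contDiff).mul hI hU ((hA k l).sub hU (yl_time continuousOn_const))).ext_zero hU
      isClosed_closedBall hrU fun t _ => hc0 k l t
  obtain ⟨Lc, hLc, hcb⟩ := yb_unif (τ := b - a) (ι := Fin n × Fin n)
    (f := fun p t => c p.1 p.2 (a + t)) fun p =>
      (((hc p.1 p.2).pred hI isOpen_univ).comp_time (σ := fun t => a + t) (by fun_prop)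
        fun t ht => mem_Icc.2 ⟨by linarith [ht.1], by linarith [ht.2]⟩).yb
        (isCompact_closedBall y0 r)
        fun t _ => hc0 _ _ _
  obtain ⟨τ0, hτ0, hcore⟩ := hcore Lc hLc
  set δ : ℝ := min r (τ0 / 2) with hδ
  have hδ0 : 0 < δ := by positivity
  have hδ1 : δ ≤ r := min_le_left _ _
  have hδ2 : δ ≤ τ0 / 2 := min_le_right _ _
  set s : ℝ := max a (t0 - δ) with hs
  set s' : ℝ := min b (t0 + δ) with hs'
  have s1 : a ≤ s := le_max_left _ _
  have s2 : t0 - δ ≤ s := le_max_right _ _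
  have s3 : s' ≤ b := min_le_left _ _
  have s4 : s' ≤ t0 + δ := min_le_right _ _
  have s5 : s < s' := by
    rw [hs, hs', max_lt_iff, lt_min_iff, lt_min_iff]
    exact ⟨⟨hab, by linarith [ht0.1]⟩, by linarith [ht0.2], by linarith⟩
  have hm : MapsTo (fun σ => s + σ) (Icc 0 (s' - s)) (Icc a b) := fun σ hσ =>
    ⟨by linarith [hσ.1], by linarith [hσ.2]⟩
  have sh : ∀ {m : ℕ} {g : ℝ → En n → ℝ},
      Yl (Icc a b) univ m g → Yl (Icc 0 (s' - s)) univ m (fun σ => g (s + σ)) := fun h =>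
    h.comp_time (by fun_prop) hm
  have sh' : ∀ {m : ℕ} {g : ℝ → En n → V},
      Yl (Icc a b) univ m g → Yl (Icc 0 (s' - s)) univ m (fun σ => g (s + σ)) := fun h =>
    h.comp_time (by fun_prop) hm
  have hτ : s' - s ∈ Ioc 0 τ0 := ⟨by linarith, by linarith⟩
  -- the normalised solution
  have hθ : ∀ {m : ℕ}, Yl (Icc a b) U m (fun t _ => t - (t0 - δ)) := yl_time (by fun_prop)
  have hua : ∀ {m : ℕ}, Yl (Icc a b) U m (fun _ => u a) := yl_static hI hU hu0
  set q : ℝ → En n → V := fun t y => (t - (t0 - δ)) • (u t y - u a y) with hq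
  have hq2 : Yl (Icc a b) U 2 q := hθ.smul hI hU (hu.sub hU hua)
  set g : ℝ → En n → V := fun t y => (u t y - u a y) +
    (t - (t0 - δ)) • (f t y + ∑ k, ∑ l, A t y k l • pd k (pd l (u a)) y) with hg
  have hg1 : Yl (Icc a b) U 1 g := ((hu.pred hI hU).sub hU hua).add hU (hθ.smul hI hU
    (hf.add hU (Yl.sum hU _ fun k _ => Yl.sum hU _ fun l _ => (hA k l).smul hI hU
      ((hua.pd l).pd k))))
  have hqe : ∀ t ∈ Icc a b, ∀ y ∈ U, HasDerivWithinAt (fun s => q s y)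
      (Lop (A t y) (q t) y + g t y) (Icc a b) t := fun t ht y hy => by
    refine (((hasDerivWithinAt_id t _).sub_const (t0 - δ)).smul
      ((he t ht y hy).sub_const (u a y))).congr_deriv ?_
    have e : ∀ k l, pd k (pd l (q t)) y =
        (t - (t0 - δ)) • (pd k (pd l (u t)) y - pd k (pd l (u a)) y) := fun k l => by
      have h0 : ∀ j, pd j (fun _ : En n => t - (t0 - δ)) = fun _ => 0 := fun j =>
        funext fun z => pd_const' _ _ _
      rw [hq, pd_pd_smul hU contDiff_const (hu.sub hU hua) ht hy, pd_pd_sub hU hu hua ht hy]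
      simp [h0, pd_const']
    simp only [Lop, e, hg, id, one_smul, smul_add, smul_sub, Finset.smul_sum,
      Finset.sum_sub_distrib, smul_comm (t - (t0 - δ)) (A t y _ _)]
    abel
  set w : ℝ → En n → V := fun t y => χ y • q t y with hw
  set F : ℝ → En n → V := fun t y => χ y • g t y - ∑ k, ∑ l, A t y k l •
    (pd k χ y • pd l (q t) y + pd l χ y • pd k (q t) y + pd k (pd l χ) y • q t y) with hF
  have hw0 : ∀ t y, y ∉ closedBall y0 (r / 2) → w t y = 0 := fun t y hy => by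
    simp [hw, hχ0 y hy]
  have hF0 : ∀ t y, y ∉ closedBall y0 (r / 2) → F t y = 0 := fun t y hy => by
    have h1 := fun k => pd_zero_off isClosed_closedBall hχ0 k
    simp [hF, hχ0 y hy, h1 _ y hy, pd_zero_off isClosed_closedBall (h1 _) _ y hy]
  have hw2 : Yl (Icc a b) univ 2 w := ((st hχs).smul hI hU hq2).ext_zero hU isClosed_closedBall
    (hsub.trans hrU) fun t _ => hw0 t
  have hF1 : Yl (Icc a b) univ 1 F := by
    refine Yl.ext_zero hU isClosed_closedBall (hsub.trans hrU) ?_ fun t _ => hF0 t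
    refine ((st hχs).smul hI hU hg1).sub hU (Yl.sum hU _ fun k _ => Yl.sum hU _ fun l _ =>
      (hA k l).smul hI hU ?_)
    exact (((st (contDiff_pd_top hχs k)).smul hI hU (hq2.pd l)).add hU
      ((st (contDiff_pd_top hχs l)).smul hI hU (hq2.pd k))).add hU
      ((st (contDiff_pd_top (contDiff_pd_top hχs l) k)).smul hI hU (hq2.pred hI hU))
  have h3 : Yl (Icc 0 (s' - s)) univ 3 (fun σ => w (s + σ)) := by
    refine hcore (s' - s) hτ (fun k l σ => c k l (s + σ))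
      (fun σ => F (s + σ)) _ (closedBall y0 r) (isCompact_closedBall _ _) (fun k l => sh (hc k l))
      (fun k l t _ => hc0 k l _) (fun k l => ⟨(sh (hc k l)).cont, fun σ hσ y => ?_,
        fun σ hσ y y' => ?_⟩) (sh' hF1) (fun t _ y hy => hF0 _ y fun h => hy (hsub h)) (sh' hw2)
      (fun t _ y hy => hw0 _ y fun h => hy (hsub h)) (fun y => ?_) fun σ hσ y => ?_
    · by_cases hy : y ∈ closedBall y0 r
      · have := hsm _ (hm hσ) (abs_le.2 ⟨by linarith [hσ.1], by linarith [hσ.2]⟩) y hy k l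
        simp only [hcd, norm_mul, Real.norm_eq_abs]
        calc _ ≤ 1 * ε := mul_le_mul (by rw [abs_of_nonneg η.nonneg]; exact η.le_one) this
              (abs_nonneg _) zero_le_one
          _ = ε := one_mul _
      · simp [hc0 k l _ y hy, hε.le]
    · have := (hcb (k, l)).hol (s + σ - a) ⟨by linarith [hσ.1], by linarith [hσ.2]⟩ y y'
      simpa using this
    · rcases le_total a (t0 - δ) with h | h
      · simp [hw, hq, hs, max_eq_right h]
      · simp [hw, hq, hs, max_eq_left h]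
    · by_cases hy : y ∈ closedBall y0 (r / 2)
      · have hyU := hrU (hsub hy)
        have h1 := ((hqe _ (hm hσ) y hyU).const_smul (χ y)).scomp σ
          (h := fun σ => s + σ) ((hasDerivWithinAt_id σ _).const_add s) hm
        refine h1.congr_deriv ?_
        have e1 : η y = 1 := η.one_of_mem_closedBall hy
        simp only [Lop, hw, pd_pd_smul hU hχs hq2 (hm hσ) hyU, hcd, e1, hF, one_smul, one_mul,
          sub_smul, smul_add, Finset.smul_sum, Finset.sum_sub_distrib, Finset.sum_add_distrib,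
          smul_comm (χ y) (A (s + σ) y _ _)]
        abel
      · have h1 := fun k => pd_zero_off isClosed_closedBall (hw0 (s + σ)) k
        have h2 := fun k l => pd_zero_off isClosed_closedBall (h1 l) k y hy
        simp only [Lop, h2, hF0 _ y hy, hw0 _ y hy, smul_zero, Finset.sum_const_zero, add_zero]
        exact hasDerivWithinAt_const _ _ _
  refine ⟨Icc a b ∩ Icc (t0 - δ / 2) (t0 + δ),
    inter_mem_nhdsWithin _ (Icc_mem_nhds (by linarith) (by linarith)),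
    ball y0 (r / 4), ball_mem_nhds _ (by positivity), ?_⟩
  have hJ : IsCompact (Icc a b ∩ Icc (t0 - δ / 2) (t0 + δ)) := hI.inter_right isClosed_Icc
  have hB : ball y0 (r / 4) ⊆ U :=
    (ball_subset_closedBall.trans (closedBall_subset_closedBall (by linarith))).trans hrU
  have h4 : Yl (Icc a b ∩ Icc (t0 - δ / 2) (t0 + δ)) (ball y0 (r / 4)) 3
      (fun t => w (s + (t - s))) := by
    refine (h3.comp_time (σ := fun t => t - s) (by fun_prop) fun t ht => mem_Icc.2 ⟨?_, ?_⟩).mono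
      Subset.rfl (subset_univ _)
    · have : s ≤ t := max_le ht.1.1 (by linarith [ht.2.1])
      linarith
    · have : t ≤ s' := le_min ht.1.2 ht.2.2
      linarith
  refine ((hua.mono inter_subset_left hB).add isOpen_ball ((yl_time
    (θ := fun t => (t - (t0 - δ))⁻¹) (ContinuousOn.inv₀ (by fun_prop) fun t ht => ?_)).smul hJ
      isOpen_ball h4)).congr isOpen_ball fun t ht y hy => ?_
  · linarith [ht.2.1]
  · have e1 : χ y = 1 := χ.one_of_mem_closedBall (ball_subset_closedBall hy)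
    have e2 : t - (t0 - δ) ≠ 0 := by linarith [ht.2.1]
    simp only [hw, hq, add_sub_cancel, e1, one_smul, smul_smul, one_mul, inv_mul_cancel₀ e2]

end Crest.Agent.N207.P
end
end

-- ▼ part N207/P/Reg
section

/-!
# Row 207, parabolic solver (helper18): composition in `Yl`, `LRegStmt → RegStmt`
-/

set_option autoImplicit false
set_option linter.unusedSectionVars false

open Set Filter Topology Metric MeasureTheory
open scoped ContDiff Interval

noncomputable section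

namespace Crest.Agent.N207.P

universe u

variable {n : ℕ} {V : Type*} [NormedAddCommGroup V] [NormedSpace ℝ V]
  {I : Set ℝ} {U : Set (En n)} {a b : ℝ}

theorem Yl.prod (hU : IsOpen U) {W : Type*} [NormedAddCommGroup W] [NormedSpace ℝ W] {m : ℕ}
    {f : ℝ → En n → V} {g : ℝ → En n → W} (h : Yl I U m f) (h' : Yl I U m g) :
    Yl I U m (fun t y => (f t y, g t y)) :=
  ((h.clm hU (ContinuousLinearMap.inl ℝ V W)).add hU
    (h'.clm hU (ContinuousLinearMap.inr ℝ V W))).congr hU fun _ _ _ _ => by simp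

theorem Yl.pi (hU : IsOpen U) {ι : Type*} [Fintype ι] {m : ℕ} {f : ι → ℝ → En n → V}
    (h : ∀ i, Yl I U m (f i)) : Yl I U m (fun t y i => f i t y) := by
  classical
  refine (Yl.sum hU Finset.univ fun i _ =>
    (h i).clm hU (ContinuousLinearMap.single ℝ (fun _ : ι => V) i)).congr hU fun t _ y _ => ?_
  ext j
  simp [Finset.sum_apply, Pi.single_apply]

theorem yl_id (hI : IsCompact I) (hU : IsOpen U) {m : ℕ} : Yl I U m (fun _ y => y) :=
  yl_static hI hU contDiffOn_id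

/-- composition with a smooth time dependent map -/
theorem Yl.comp (hI : IsCompact I) (hI' : UniqueDiffOn ℝ I) (hU : IsOpen U) : ∀ {m : ℕ}
    {W : Type u} [NormedAddCommGroup W] [NormedSpace ℝ W] {O : Set W} {Φ : ℝ × W → V}
    {w : ℝ → En n → W}, IsOpen O → ContDiffOn ℝ ∞ Φ (I ×ˢ O) → Yl I U m w →
    (∀ t ∈ I, ∀ y ∈ U, w t y ∈ O) → Yl I U m (fun t y => Φ (t, w t y)) := by
  intro m
  induction m with
  | zero =>
    intro W _ _ O Φ w hO hΦ h hw
    have hc : ContinuousOn (fun q : ℝ × En n => Φ (q.1, w q.1 q.2)) (I ×ˢ U) :=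
      hΦ.continuousOn.comp (continuousOn_fst.prodMk h.cont) fun p hp => ⟨hp.1, hw _ hp.1 _ hp.2⟩
    obtain ⟨hd, hD⟩ := d2_spec hI' hO hΦ
    refine Yl.of_loc hI fun t0 ht0 y0 hy0 => ?_
    have h1 : ∀ᶠ q in 𝓝[I ×ˢ O] (t0, w t0 y0), dist (D2 Φ q) (D2 Φ (t0, w t0 y0)) < 1 :=
      (hD.continuousOn _ ⟨ht0, hw t0 ht0 y0 hy0⟩).eventually (ball_mem_nhds _ one_pos)
    obtain ⟨ρ, hρ, h2⟩ := Metric.mem_nhdsWithin_iff.1 h1
    obtain ⟨ρ', hρ', h3⟩ := Metric.isOpen_iff.1 hO _ (hw t0 ht0 y0 hy0)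
    have h4 : ∀ᶠ q in 𝓝[I ×ˢ U] (t0, y0), w q.1 q.2 ∈ ball (w t0 y0) (min ρ ρ') :=
      (h.cont _ ⟨ht0, hy0⟩).eventually (ball_mem_nhds _ (lt_min hρ hρ'))
    rw [nhdsWithin_prod_eq, hU.nhdsWithin_eq hy0] at h4
    obtain ⟨J, hJ, W', hW', h5⟩ := Filter.mem_prod_iff.1 h4
    refine ⟨J ∩ I ∩ ball t0 ρ, inter_mem (inter_mem hJ self_mem_nhdsWithin)
      (mem_nhdsWithin_of_mem_nhds (ball_mem_nhds _ hρ)), interior W' ∩ U,
      inter_mem (interior_mem_nhds.2 hW') (hU.mem_nhds hy0), ?_⟩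
    refine yl_zero (hc.mono (prod_mono (fun t ht => ht.1.2) inter_subset_right)) fun y1 hy1 => ?_
    obtain ⟨K, hK0, hK⟩ := h.hol hy1.2
    refine ⟨(‖D2 Φ (t0, w t0 y0)‖ + 1) * K, ?_⟩
    filter_upwards [hK, ev_ball isOpen_interior hy1.1] with r h6 h7 t ht y hy y' hy'
    have m1 : ∀ z ∈ ball y1 r, w t z ∈ ball (w t0 y0) (min ρ ρ') := fun z hz =>
      h5 (a := (t, z)) ⟨ht.1.1, interior_subset (h7 (ball_subset_closedBall hz))⟩
    have m2 : ∀ x ∈ ball (w t0 y0) (min ρ ρ'), x ∈ O := fun x hx =>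
      h3 (ball_subset_ball (min_le_right _ _) hx)
    have := (convex_ball (w t0 y0) (min ρ ρ')).norm_image_sub_le_of_norm_hasFDerivWithin_le
      (𝕜 := ℝ) (f := fun x => Φ (t, x)) (f' := fun x => D2 Φ (t, x))
      (C := ‖D2 Φ (t0, w t0 y0)‖ + 1) (fun x hx => (hd t ht.1.2 x (m2 x hx)).hasFDerivWithinAt)
      (fun x hx => by
        have := h2 (a := (t, x)) ⟨by
          rw [mem_ball, Prod.dist_eq, max_lt_iff]
          exact ⟨ht.2, ball_subset_ball (min_le_left _ _) hx⟩, ht.1.2, m2 x hx⟩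
        simp only [mem_ofPred_eq, dist_eq_norm] at this
        linarith [norm_le_insert' (D2 Φ (t, x)) (D2 Φ (t0, w t0 y0))])
      (m1 y' hy') (m1 y hy)
    rw [mul_assoc]
    exact this.trans (mul_le_mul_of_nonneg_left (h6 t ht.1.2 y hy y' hy') (by positivity))
  | succ m ih =>
    intro W _ _ O Φ w hO hΦ h hw
    obtain ⟨hd, hD⟩ := d2_spec hI' hO hΦ
    have hf : ∀ t ∈ I, ∀ y ∈ U, HasFDerivAt (fun y => Φ (t, w t y))
        ((D2 Φ (t, w t y)).comp (fderiv ℝ (w t) y)) y := fun t ht y hy =>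
      (hd t ht _ (hw t ht y hy)).comp y (h.diff ht hy).hasFDerivAt
    refine ⟨hΦ.continuousOn.comp (continuousOn_fst.prodMk h.cont)
      fun p hp => ⟨hp.1, hw _ hp.1 _ hp.2⟩, fun t ht y hy => (hf t ht y hy).differentiableAt,
      fun k => ?_⟩
    refine (ih (W := W × W) (O := O ×ˢ univ) (Φ := fun q => D2 Φ (q.1, q.2.1) q.2.2)
      (hO.prod isOpen_univ) ?_ ((h.pred hI hU).prod hU (h.pd k))
      fun t ht y hy => ⟨hw t ht y hy, mem_univ _⟩).congr hU fun t ht y hy => ?_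
    · exact (hD.comp (contDiffOn_fst.prodMk contDiffOn_snd.fst)
        fun q hq => ⟨hq.1, hq.2.1⟩).clm_apply contDiffOn_snd.snd
    · simp only [P.pd]
      rw [(hf t ht y hy).fderiv]
      rfl

theorem yl_of_contDiffOn (hI : IsCompact I) (hI' : UniqueDiffOn ℝ I) (hU : IsOpen U) {m : ℕ}
    {f : ℝ → En n → V} (h : ContDiffOn ℝ ∞ (fun q : ℝ × En n => f q.1 q.2) (I ×ˢ U)) :
    Yl I U m f :=
  Yl.comp hI hI' hU hU h (yl_id hI hU) fun _ _ _ hy => hy

theorem Yl.cont_fderiv {m : ℕ} {f : ℝ → En n → V} (h : Yl I U (m + 1) f) :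
    ContinuousOn (fun q : ℝ × En n => fderiv ℝ (f q.1) q.2) (I ×ˢ U) := by
  have e : (fun q : ℝ × En n => fderiv ℝ (f q.1) q.2) = fun q => ∑ k,
      ContinuousLinearMap.smulRightL ℝ (En n) V (EuclideanSpace.proj k) (P.pd k (f q.1) q.2) := by
    funext y; ext v; simp [fderiv_eq_sum_pd]
  rw [e]
  exact continuousOn_finsetSum _ fun k _ =>
    (ContinuousLinearMap.continuous _).comp_continuousOn (h.pd k).cont

variable [CompleteSpace V]

/-- `∂ₜ` commutes with `∂ₖ` -/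
theorem ev_pd (hU : IsOpen U) {u Φ : ℝ → En n → V} (h : X.Ev (Icc a b) U u Φ)
    (hu : ∀ t ∈ Icc a b, ∀ y ∈ U, DifferentiableAt ℝ (u t) y) (hΦ : Yl (Icc a b) U 1 Φ)
    (k : Fin n) : X.Ev (Icc a b) U (fun t => pd k (u t)) (fun t => pd k (Φ t)) := by
  intro t ht y hy
  refine X.hasDerivWithinAt_of_int (f := fun r => pd k (u r) y) (g := fun r => pd k (Φ r) y)
    (X.cont_slice (w := fun t => pd k (Φ t)) (hΦ.pd k).cont hy) (fun r hr => ?_) ht
  have hD := hΦ.cont_fderiv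
  obtain ⟨ε, hε, hb⟩ := Metric.nhds_basis_closedBall.mem_iff.1 (hU.mem_nhds hy)
  obtain ⟨C, hC⟩ := (isCompact_Icc.prod (isCompact_closedBall y ε)).exists_bound_of_continuousOn
    (hD.mono (prod_mono (Subset.refl (Icc a b)) hb))
  have hsub : Ι a r ⊆ Icc a b := by
    rw [uIoc_of_le hr.1]
    exact fun s hs => ⟨hs.1.le, hs.2.trans hr.2⟩
  have hsub' : Icc a r ⊆ Icc a b := Icc_subset_Icc_right hr.2
  have hD' := X.cont_slice (w := fun t y => fderiv ℝ (Φ t) y) hD hy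
  have h1 := intervalIntegral.hasFDerivAt_integral_of_dominated_of_fderiv_le (𝕜 := ℝ)
    (μ := volume) (a := a) (b := r) (F := fun z s => Φ s z)
    (F' := fun z s => fderiv ℝ (Φ s) z) (bound := fun _ => C)
    (Metric.closedBall_mem_nhds y hε)
    (by
      filter_upwards [hU.mem_nhds hy] with z hz
      exact ((X.cont_slice hΦ.cont hz).mono hsub).aestronglyMeasurable measurableSet_uIoc)
    (((X.cont_slice hΦ.cont hy).mono hsub').intervalIntegrable_of_Icc hr.1)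
    ((hD'.mono hsub).aestronglyMeasurable measurableSet_uIoc)
    (Eventually.of_forall fun s hs z hz => hC (s, z) ⟨hsub hs, hz⟩)
    intervalIntegrable_const
    (Eventually.of_forall fun s hs z hz => (hΦ.diff (hsub hs) (hb hz)).hasFDerivAt)
  have h2 := (hu a ⟨le_rfl, hr.1.trans hr.2⟩ y hy).hasFDerivAt.add h1
  have h3 : u r =ᶠ[𝓝 y] fun z => u a z + ∫ s in a..r, Φ s z := by
    filter_upwards [hU.mem_nhds hy] with z hz
    exact h.int hΦ.cont hr hz
  have h4 := (h2.congr_of_eventuallyEq h3).fderiv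
  simp only [pd]
  rw [h4, add_apply, ContinuousLinearMap.intervalIntegral_apply
    ((hD'.mono hsub').intervalIntegrable_of_Icc hr.1)]

theorem pd3_comm (hU : IsOpen U) {u : ℝ → En n → V} (hu : Yl I U 3 u) {t : ℝ} (ht : t ∈ I)
    {y : En n} (hy : y ∈ U) (hu2 : Yl I U 2 u) (i k l : Fin n) :
    pd i (pd k (pd l (u t))) y = pd k (pd l (pd i (u t))) y := by
  rw [pd_symm (((hu.pd l).contDiffOn hU t ht).contDiffAt (hU.mem_nhds hy))]
  refine pd_congr ?_ k
  filter_upwards [hU.mem_nhds hy] with z hz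
  exact pd_symm ((hu2.contDiffOn hU t ht).contDiffAt (hU.mem_nhds hz)) _ _

/-- (LREG) of every order -/
theorem lreg_all (hL : LRegStmt n V) (hab : a < b) (hU : IsOpen U)
    {A : ℝ → En n → Matrix (Fin n) (Fin n) ℝ} (hpos : ∀ t ∈ Icc a b, ∀ y ∈ U, (A t y).PosDef) :
    ∀ (m : ℕ) {f u : ℝ → En n → V}, (∀ k l, Yl (Icc a b) U (m + 1) (fun t y => A t y k l)) →
      Yl (Icc a b) U (m + 1) f → Yl (Icc a b) U 2 u → ContDiffOn ℝ ∞ (u a) U →
      X.Ev (Icc a b) U u (fun t y => Lop (A t y) (u t) y + f t y) →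
      Yl (Icc a b) U (m + 3) u := by
  have hI : IsCompact (Icc a b) := isCompact_Icc
  intro m
  induction m with
  | zero => exact fun hA hf hu h0 he => hL a b U A _ _ hab hU hA hpos hf hu h0 he
  | succ m ih =>
    intro f u hA hf hu h0 he
    have hA' := fun k l => (hA k l).pred hI hU
    have h3 := ih hA' (hf.pred hI hU) hu h0 he
    have h3' : Yl (Icc a b) U 3 u := h3.of_le hI hU (by omega)
    refine ⟨h3.1, h3.2.1, fun i => ?_⟩
    refine ih (f := fun t y => ∑ k, ∑ l, pd i (fun z => A t z k l) y • pd k (pd l (u t)) y +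
      pd i (f t) y) hA' ((Yl.sum hU _ fun k _ => Yl.sum hU _ fun l _ => ((hA k l).pd i).smul hI hU
        ((h3.pd l).pd k)).add hU (hf.pd i)) (h3'.pd i) (contDiffOn_pd_top hU h0 i) ?_
    have t1 : ∀ k l, Yl (Icc a b) U 1 (fun t y => A t y k l • pd k (pd l (u t)) y) := fun k l =>
      ((hA k l).of_le hI hU (by omega)).smul hI hU ((h3'.pd l).pd k)
    have t2 : ∀ k, Yl (Icc a b) U 1 (fun t y => ∑ l, A t y k l • pd k (pd l (u t)) y) := fun k =>
      Yl.sum hU _ fun l _ => t1 k l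
    have t3 : Yl (Icc a b) U 1 (fun t y => Lop (A t y) (u t) y) := Yl.sum hU _ fun k _ => t2 k
    have := ev_pd hU he h3.2.1 (t3.add hU (hf.of_le hI hU (by omega))) i
    intro t ht y hy
    refine (this t ht y hy).congr_deriv ?_
    beta_reduce
    rw [pd_add' (t3.diff ht hy) (hf.diff ht hy), ← add_assoc]
    congr 1
    simp only [Lop]
    rw [pd_sum' _ fun k _ => (t2 k).diff ht hy, ← Finset.sum_add_distrib]
    refine Finset.sum_congr rfl fun k _ => ?_
    rw [pd_sum' _ fun l _ => (t1 k l).diff ht hy, ← Finset.sum_add_distrib]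
    refine Finset.sum_congr rfl fun l _ => ?_
    rw [pd_smul' ((hA k l).diff ht hy) (((h3'.pd l).pd k).diff ht hy), pd3_comm hU h3' ht hy hu]

/-- all the classes `Yl` give jointly continuous jets -/
theorem sj_of_yl (hI : IsCompact I) (hU : IsOpen U) {u : ℝ → En n → V} (h : ∀ m, Yl I U m u) :
    X.SJ 0 I U u := by
  refine X.SJ.of_coind (fun w => ∀ m, Yl I U m w) (fun w hw =>
    ⟨⟨contDiffOn_zero.2 (hw 0).cont, (hw 1).2.1⟩, fun v m => ?_⟩) h
  exact (Yl.sum hU Finset.univ fun k _ => (yl_time (θ := fun _ => v k) continuousOn_const).smul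
    hI hU ((hw (m + 1)).pd k)).congr hU fun t _ y _ => fderiv_eq_sum_pd _ _ _

/-- (R2) -/
theorem reg_of_lreg (hL : LRegStmt n V) : RegStmt n V := by
  intro a b U O A B u hab hU hO hA hB hm hpos hu h0 he
  have hI : IsCompact (Icc a b) := isCompact_Icc
  have hI' := uniqueDiffOn_Icc hab
  have all : ∀ m, Yl (Icc a b) U (m + 2) u := by
    intro m
    induction m with
    | zero => exact hu
    | succ m ih =>
      have h1 := (yl_id hI hU).prod hU (ih.pred hI hU)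
      exact lreg_all hL hab hU hpos m (fun k l => Yl.comp hI hI' hU hO (hA k l) h1 hm)
        (Yl.comp hI hI' hU (hO.prod isOpen_univ) hB (h1.prod hU (Yl.pi hU fun k => ih.pd k))
          fun t ht y hy => ⟨hm t ht y hy, mem_univ _⟩) hu h0 he
  refine (X.js_of_closure hab hU (Φ := fun t y => Lop (A (t, y, u t y)) (u t) y +
    B (t, (y, u t y), d1 (u t) y)) (sj_of_yl hI hU fun m => (all m).of_le hI hU (by omega))
    (fun j hj => ?_) countable_empty fun t ht y hy =>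
      (he t (Ioo_subset_Icc_self ht.1) y hy).hasDerivAt (Icc_mem_nhds ht.1.1 ht.1.2)).1
  have h1 := X.SJ.id.prod hU hj
  refine X.SJ.add hI' hU (X.SJ.sum hI' hU _ fun k _ => X.SJ.sum hI' hU _ fun l _ =>
    (X.SJ.comp hI' hU hO (hA k l) h1 hm).smul hI' hU ((hj.dv _).dv _)) ?_
  exact X.SJ.comp hI' hU (hO.prod isOpen_univ) hB (h1.prod hU (X.SJ.pi hI' hU fun k => hj.dv _))
    fun t ht y hy => ⟨hm t ht y hy, mem_univ _⟩

theorem reg_of_apr (h : AprStmt n V) : RegStmt n V := reg_of_lreg (lreg_of_apr h)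

end Crest.Agent.N207.P
end
end

-- ▼ part N207/P/Lin
section

/-!
# Row 207, parabolic solver (helper11): (QL), gluing in time and (LIN) from (CORE)
-/

set_option autoImplicit false
set_option linter.unusedSectionVars false

open Set Filter Metric
open scoped ContDiff Topology Manifold

noncomputable section

namespace Crest.Agent.N207.P

variable {n : ℕ} {V : Type*} [NormedAddCommGroup V] [NormedSpace ℝ V]
  {M : Type*} [TopologicalSpace M] [ChartedSpace (En n) M] [IsManifold 𝓘(ℝ, En n) ∞ M]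
  {O : Set (M × V)} {Op : ℝ → (M → V) → M → V}

theorem smV_zero (I : Set ℝ) : SmV n (fun (_ : ℝ) (_ : M) => (0 : V)) I :=
  fun _ => contDiffOn_const

theorem smV_static {u : M → V} (hu : ContMDiff 𝓘(ℝ, En n) 𝓘(ℝ, V) ∞ u) (I : Set ℝ) :
    SmV n (fun _ => u) I := fun x =>
  (contDiffOn_rd hu x).comp contDiffOn_snd fun _ hq => hq.2

theorem SmV.mono {u : ℝ → M → V} {I J : Set ℝ} (h : SmV n u I) (hJ : J ⊆ I) : SmV n u J :=
  fun x => (h x).mono (prod_mono hJ le_rfl)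

theorem SmV.rd {u : ℝ → M → V} {I : Set ℝ} (h : SmV n u I) {t : ℝ} (ht : t ∈ I) (x : M) :
    ContDiffOn ℝ ∞ (rd n x (u t)) (chartAt (En n) x).target :=
  (h x).comp (f := fun y : En n => (t, y)) (by fun_prop) fun _ hy => ⟨ht, hy⟩

theorem SmV.slice {u : ℝ → M → V} {I : Set ℝ} (h : SmV n u I) {t : ℝ} (ht : t ∈ I) :
    ContMDiff 𝓘(ℝ, En n) 𝓘(ℝ, V) ∞ (u t) := contMDiff_of_rd fun x =>
  (h.rd ht x).contDiffAt ((chartAt (En n) x).open_target.mem_nhds (mem_chart_target _ x))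

theorem QLOp.rep' {I : Set ℝ} (Q : QLOp n I O Op) (x : M) {t : ℝ} (ht : t ∈ I) {y : En n}
    (hy : y ∈ (chartAt (En n) x).target) {u : M → V} (hu : ContMDiff 𝓘(ℝ, En n) 𝓘(ℝ, V) ∞ u)
    (hm : ∀ p, (p, u p) ∈ O) : rd n x (Op t u) y = Q.N x t (rd n x u) y :=
  Q.rep x t ht y hy u univ isOpen_univ (mem_univ _) hu.contMDiffOn fun p _ => hm p

theorem ql_of_core (hC : CoreStmt n M V) : QLStmt n M V := by
  intro a b O Op Q u0 hab hO hu0 h0
  obtain ⟨τ, hτ, h⟩ := hC a b O Op Q u0 a hab hO hu0 h0 (left_mem_Icc.2 hab.le)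
  obtain ⟨c, -, u, h1, h2⟩ := h a (min b (a + τ)) le_rfl (lt_min hab (by linarith))
    (min_le_left _ _) (by simpa using hτ.le) (min_le_right _ _) _ (smV_zero _)
  refine ⟨min b (a + τ), lt_min hab (by linarith), min_le_left _ _, u, h1, ?_⟩
  simpa only [smul_zero] using h2

/-! ### gluing in time -/

theorem Yl.glue {a c e : ℝ} {U : Set (En n)} : ∀ {m : ℕ} {g : ℝ → En n → V},
    Yl (Icc a c) U m g → Yl (Icc c e) U m g → Yl (Icc a e) U m g := by
  have hc : ∀ {g : ℝ → En n → V}, ContinuousOn (fun q : ℝ × En n => g q.1 q.2) (Icc a c ×ˢ U) →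
      ContinuousOn (fun q : ℝ × En n => g q.1 q.2) (Icc c e ×ˢ U) →
      ContinuousOn (fun q : ℝ × En n => g q.1 q.2) (Icc a e ×ˢ U) := by
    intro g h1 h2 p hp
    have e0 : Icc a e ×ˢ U ⊆ (Icc a c ×ˢ U) ∪ (Icc c e ×ˢ U) := fun q hq =>
      (le_total q.1 c).imp (fun h => ⟨⟨hq.1.1, h⟩, hq.2⟩) fun h => ⟨⟨h, hq.1.2⟩, hq.2⟩
    refine ContinuousWithinAt.mono (ContinuousWithinAt.union ?_ ?_) e0
    · by_cases hc : p.1 ≤ c
      · exact h1 p ⟨⟨hp.1.1, hc⟩, hp.2⟩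
      · refine continuousWithinAt_of_notMem_closure fun hcl => hc ?_
        rw [closure_prod_eq, isClosed_Icc.closure_eq] at hcl
        exact hcl.1.2
    · by_cases hc : c ≤ p.1
      · exact h2 p ⟨⟨hc, hp.1.2⟩, hp.2⟩
      · refine continuousWithinAt_of_notMem_closure fun hcl => hc ?_
        rw [closure_prod_eq, isClosed_Icc.closure_eq] at hcl
        exact hcl.1.1
  intro m
  induction m with
  | zero =>
    intro g h1 h2
    refine ⟨hc h1.1 h2.1, fun y0 hy => ?_⟩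
    obtain ⟨r, hr, K, hK⟩ := h1.2 y0 hy
    obtain ⟨r', hr', K', hK'⟩ := h2.2 y0 hy
    refine ⟨min r r', lt_min hr hr', max K K', fun t ht y hy y' hy' => ?_⟩
    rcases le_total t c with h | h
    · exact (hK t ⟨ht.1, h⟩ y (ball_subset_ball (min_le_left _ _) hy) y'
        (ball_subset_ball (min_le_left _ _) hy')).trans
        (mul_le_mul_of_nonneg_right (le_max_left _ _) (Real.sqrt_nonneg _))
    · exact (hK' t ⟨h, ht.2⟩ y (ball_subset_ball (min_le_right _ _) hy) y'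
        (ball_subset_ball (min_le_right _ _) hy')).trans
        (mul_le_mul_of_nonneg_right (le_max_right _ _) (Real.sqrt_nonneg _))
  | succ m ih =>
    intro g h1 h2
    refine ⟨hc h1.1 h2.1, fun t ht y hy => ?_, fun k => ih (h1.pd k) (h2.pd k)⟩
    rcases le_total t c with h | h
    · exact h1.diff ⟨ht.1, h⟩ hy
    · exact h2.diff ⟨h, ht.2⟩ hy

theorem IsSol.congr {H : ℝ → M → V} {s s' : ℝ} {u v : ℝ → M → V} (h : IsSol n O Op H s s' u)
    (e : ∀ t ∈ Icc s s', v t = u t) : IsSol n O Op H s s' v :=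
  ⟨fun x => (h.sm x).congr fun q hq => by rw [e _ hq.1], fun t ht p => by
    rw [e t ht]; exact h.mem t ht p, fun t ht p => by
    rw [e t ht]
    exact (h.eqn t ht p).congr (fun r hr => by rw [e r hr]) (by rw [e t ht])⟩

theorem IsSol.union {a b : ℝ} (Q : QLOp n (Icc a b) O Op) (hR : RegStmt n V) (hO : IsOpen O)
    {H : ℝ → M → V} (hH : SmV n H (Icc a b)) {s c e : ℝ} (has : a ≤ s) (hsc : s < c) (hce : c < e)
    (heb : e ≤ b) {u : ℝ → M → V} (h1 : IsSol n O Op H s c u) (h2 : IsSol n O Op H c e u) :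
    IsSol n O Op H s e u := by
  have hI : Icc s e ⊆ Icc a b := Icc_subset_Icc has heb
  have hmem : ∀ t ∈ Icc s e, ∀ p, (p, u t p) ∈ O := fun t ht p =>
    (le_total t c).elim (fun h => h1.mem t ⟨ht.1, h⟩ p) fun h => h2.mem t ⟨h, ht.2⟩ p
  have hsl : ∀ t ∈ Icc s e, ContMDiff 𝓘(ℝ, En n) 𝓘(ℝ, V) ∞ (u t) := fun t ht =>
    (le_total t c).elim (fun h => h1.sm.slice ⟨ht.1, h⟩) fun h => h2.sm.slice ⟨h, ht.2⟩
  have heq : ∀ t ∈ Icc s e, ∀ p,
      HasDerivWithinAt (fun r => u r p) (Op t (u t) p + H t p) (Icc s e) t := by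
    intro t ht p
    rw [← Icc_union_Icc_eq_Icc hsc.le hce.le]
    refine HasDerivWithinAt.union ?_ ?_
    · by_cases h : t ≤ c
      · exact h1.eqn t ⟨ht.1, h⟩ p
      · exact HasFDerivWithinAt.of_notMem_closure (by
          rw [isClosed_Icc.closure_eq]; exact fun h' => h h'.2)
    · by_cases h : c ≤ t
      · exact h2.eqn t ⟨h, ht.2⟩ p
      · exact HasFDerivWithinAt.of_notMem_closure (by
          rw [isClosed_Icc.closure_eq]; exact fun h' => h h'.1)
  refine ⟨fun x => ?_, hmem, heq⟩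
  have ho := (chartAt (En n) x).open_target
  refine hR s e _ (domO n O x) (Q.a x) (fun q => Q.b x q + rd n x (H q.1) q.2.1.1)
    (fun t => rd n x (u t)) (hsc.trans hce) ho (isOpen_domO hO _)
    (fun k l => (Q.sa _ k l).mono (prod_mono hI le_rfl)) ?_
    (fun t ht y hy => ⟨hy, hmem t ht _⟩) (fun t ht y hy => Q.pos _ t (hI ht) _ ⟨hy, hmem t ht _⟩)
    ?_ (h1.sm.rd (left_mem_Icc.2 hsc.le) x) fun t ht y hy => ?_
  · refine ((Q.sb _).mono (prod_mono hI le_rfl)).add ?_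
    exact (hH x).comp (f := fun q : ℝ × (En n × V) × (Fin n → V) => (q.1, q.2.1.1))
      (by fun_prop) fun q hq => ⟨hI hq.1, hq.2.1.1⟩
  · exact Yl.glue (c := c)
      (yl_of_contDiffOn isCompact_Icc (uniqueDiffOn_Icc hsc) ho (h1.sm x))
      (yl_of_contDiffOn isCompact_Icc (uniqueDiffOn_Icc hce) ho (h2.sm x))
  · have h3 := heq t ht ((chartAt (En n) x).symm y)
    have h4 := Q.rep' x (hI ht) hy (hsl t ht) (hmem t ht)
    simp only [QLOp.N] at h4
    rw [← add_assoc, ← h4]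
    exact h3

theorem IsSol.glue {a b : ℝ} (Q : QLOp n (Icc a b) O Op) (hR : RegStmt n V) (hO : IsOpen O)
    {H : ℝ → M → V} (hH : SmV n H (Icc a b)) {s c e : ℝ} (has : a ≤ s) (hsc : s < c) (hce : c < e)
    (heb : e ≤ b) {u v : ℝ → M → V} (h1 : IsSol n O Op H s c u) (h2 : IsSol n O Op H c e v)
    (huv : v c = u c) : ∃ w : ℝ → M → V, w s = u s ∧ IsSol n O Op H s e w := by
  refine ⟨fun t => if t ≤ c then u t else v t, if_pos hsc.le, IsSol.union Q hR hO hH has hsc hce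
    heb (h1.congr fun t ht => if_pos ht.2) (h2.congr fun t ht => ?_)⟩
  by_cases h : t ≤ c
  · rw [if_pos h, le_antisymm h ht.1, huv]
  · exact if_neg h

/-! ### linear operators -/

theorem pd_smul_c (c : ℝ) {f : En n → V} {y : En n} (hf : DifferentiableAt ℝ f y) (k : Fin n) :
    pd k (fun z => c • f z) y = c • pd k f y := by
  unfold pd; rw [fderiv_fun_const_smul hf]; rfl

theorem pd_pd_smul_c (c : ℝ) {f : En n → V} {y : En n} (hf : ContDiffAt ℝ 2 f y) (k l : Fin n) :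
    pd k (pd l fun z => c • f z) y = c • pd k (pd l f) y := by
  have hev : pd l (fun z => c • f z) =ᶠ[𝓝 y] fun z => c • pd l f z := by
    filter_upwards [hf.eventually (by simp)] with z h1
    exact pd_smul_c c (h1.differentiableAt (by simp)) l
  rw [pd_congr hev, pd_smul_c c
    ((contDiffAt_pd (m := 1) hf (by norm_num) l).differentiableAt (by simp))]

theorem QLOp.Lin.map {I : Set ℝ} {Q : QLOp n I univ Op} (hL : Q.Lin) {t : ℝ} (ht : t ∈ I)
    {u v : M → V} (hu : ContMDiff 𝓘(ℝ, En n) 𝓘(ℝ, V) ∞ u) (hv : ContMDiff 𝓘(ℝ, En n) 𝓘(ℝ, V) ∞ v)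
    (c : ℝ) (p : M) : Op t (fun q => c • v q + u q) p = c • Op t v p + Op t u p := by
  have hy := mem_chart_target (En n) p
  have hp : (chartAt (En n) p).symm (cen n p) = p :=
    (chartAt (En n) p).left_inv (mem_chart_source _ p)
  have h1 := Q.rep' p ht hy hu fun _ => mem_univ _
  have h2 := Q.rep' p ht hy hv fun _ => mem_univ _
  have h3 := Q.rep' p ht hy (u := fun q => c • v q + u q)
    (((contMDiff_const (I' := 𝓘(ℝ, ℝ))).smul hv).add hu) fun _ => mem_univ _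
  have cu : ContDiffAt ℝ 2 (rd n p u) (cen n p) := ((contDiffOn_rd hu p).contDiffAt
    ((chartAt (En n) p).open_target.mem_nhds hy)).of_le two_le_inf
  have cv : ContDiffAt ℝ 2 (rd n p v) (cen n p) := ((contDiffOn_rd hv p).contDiffAt
    ((chartAt (En n) p).open_target.mem_nhds hy)).of_le two_le_inf
  have e : rd n p (fun q => c • v q + u q) = fun z => c • rd n p v z + rd n p u z := rfl
  have e1 : d1 (fun z => c • rd n p v z + rd n p u z) (cen n p) =
      c • d1 (rd n p v) (cen n p) + d1 (rd n p u) (cen n p) := by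
    funext k
    rw [d1, pd_add' ((cv.differentiableAt (by simp)).fun_const_smul c)
      (cu.differentiableAt (by simp)), pd_smul_c c (cv.differentiableAt (by simp))]
    rfl
  rw [e] at h3
  simp only [QLOp.N, e1, hL.hb, Lop, lop_add (cv.const_smul c) cu, pd_pd_smul_c c cv] at h1 h2 h3
  rw [hL.ha] at h1 h2 h3
  rw [rd, hp] at h1 h2 h3
  rw [h1, h2, h3]
  simp only [smul_add, Finset.sum_add_distrib, Finset.smul_sum, smul_comm c]
  abel

theorem smV_op {a b : ℝ} (Q : QLOp n (Icc a b) O Op) {u : M → V}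
    (hu : ContMDiff 𝓘(ℝ, En n) 𝓘(ℝ, V) ∞ u) (hm : ∀ p, (p, u p) ∈ O) :
    SmV n (fun t => Op t u) (Icc a b) := by
  intro x
  have ho := (chartAt (En n) x).open_target
  have h0 := contDiffOn_rd hu x
  have cs : ∀ {g : En n → V}, ContDiffOn ℝ ∞ g (chartAt (En n) x).target →
      ContDiffOn ℝ ∞ (fun q : ℝ × En n => g q.2) (Icc a b ×ˢ (chartAt (En n) x).target) :=
    fun hg => hg.comp contDiffOn_snd fun _ hq => hq.2
  refine ContDiffOn.congr (f := fun q : ℝ × En n => Q.N x q.1 (rd n x u) q.2) ?_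
    fun q hq => Q.rep' x hq.1 hq.2 hu hm
  refine (ContDiffOn.sum fun k _ => ContDiffOn.sum fun l _ => ContDiffOn.smul ?_
    (cs (contDiffOn_pd_top ho (contDiffOn_pd_top ho h0 l) k))).add ?_
  · exact (Q.sa x k l).comp (f := fun q : ℝ × En n => (q.1, q.2, rd n x u q.2))
      (contDiffOn_fst.prodMk (contDiffOn_snd.prodMk (cs h0))) fun q hq => ⟨hq.1, hq.2, hm _⟩
  · exact (Q.sb x).comp
      (f := fun q : ℝ × En n => (q.1, (q.2, rd n x u q.2), d1 (rd n x u) q.2))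
      (contDiffOn_fst.prodMk ((contDiffOn_snd.prodMk (cs h0)).prodMk
        (contDiffOn_pi.2 fun k => cs (contDiffOn_pd_top ho h0 k))))
      fun q hq => ⟨hq.1, ⟨hq.2, hm _⟩, mem_univ _⟩

theorem lin_loc (hC : CoreStmt n M V) {a b : ℝ} (Q : QLOp n (Icc a b) univ Op) (hL : Q.Lin)
    (hab : a < b) {H : ℝ → M → V} (hH : SmV n H (Icc a b)) {s0 : ℝ} (hs0 : s0 ∈ Icc a b) :
    ∃ τ : ℝ, 0 < τ ∧ ∀ s s' : ℝ, a ≤ s → s < s' → s' ≤ b → |s - s0| ≤ τ → s' ≤ s + τ →
      ∀ u1 : M → V, ContMDiff 𝓘(ℝ, En n) 𝓘(ℝ, V) ∞ u1 →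
        ∃ u : ℝ → M → V, u s = u1 ∧ IsSol n univ Op H s s' u := by
  obtain ⟨τ, hτ, h⟩ := hC a b univ Op Q (fun _ => 0) s0 hab isOpen_univ contMDiff_const
    (fun _ => mem_univ _) hs0
  refine ⟨τ, hτ, fun s s' h1 h2 h3 h4 h5 u1 hu1 => ?_⟩
  obtain ⟨c, hc, v, hv0, hv⟩ := h s s' h1 h2 h3 h4 h5 (fun t p => Op t u1 p + H t p)
    fun x => (smV_op Q hu1 (fun _ => mem_univ _) x).add (hH x)
  refine ⟨fun t p => c⁻¹ • v t p + u1 p, by funext p; simp [hv0],
    fun x => ((hv.sm x).const_smul c⁻¹).add (smV_static hu1 _ x), fun _ _ _ => mem_univ _,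
    fun t ht p => ?_⟩
  rw [hL.map (Icc_subset_Icc h1 h3 ht) hu1 (hv.sm.slice ht)]
  have h6 := ((hv.eqn t ht p).const_smul c⁻¹).add_const (u1 p)
  rw [smul_add, smul_smul, inv_mul_cancel₀ hc.ne', one_smul, ← add_assoc] at h6
  exact h6

theorem lin_of_core (hC : CoreStmt n M V) (hR : RegStmt n V) : LinStmt n M V := by
  intro a b Op Q u0 H hab hL hu0 hH
  choose! τ hτ h using fun s0 (hs0 : s0 ∈ Icc a b) => lin_loc hC Q hL hab hH hs0
  obtain ⟨T, hT, hcov⟩ := isCompact_Icc.elim_nhds_subcover (fun s0 => ball s0 (τ s0))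
    fun s0 hs0 => ball_mem_nhds s0 (hτ s0 hs0)
  obtain ⟨δ, hδ, hδ'⟩ := exists_ge_all (ι := T) (δ := fun i => τ i) fun i => hτ i (hT i i.2)
  have step : ∀ s s', a ≤ s → s < s' → s' ≤ b → s' ≤ s + δ → ∀ u1 : M → V,
      ContMDiff 𝓘(ℝ, En n) 𝓘(ℝ, V) ∞ u1 →
        ∃ u : ℝ → M → V, u s = u1 ∧ IsSol n univ Op H s s' u := by
    intro s s' h1 h2 h3 h4
    obtain ⟨s0, hs0, hs⟩ := mem_iUnion₂.1 (hcov ⟨h1, h2.le.trans h3⟩)
    exact h s0 (hT s0 hs0) s s' h1 h2 h3 (le_of_lt hs) (by linarith [hδ' ⟨s0, hs0⟩])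
  have ind : ∀ k : ℕ, ∃ u : ℝ → M → V, u a = u0 ∧
      IsSol n univ Op H a (min b (a + (k + 1) * δ)) u := by
    intro k
    induction k with
    | zero =>
      exact step a _ le_rfl (lt_min hab (by simpa using hδ)) (min_le_left _ _)
        ((min_le_right _ _).trans (by simp)) u0 hu0
    | succ k ih =>
      obtain ⟨u, hu, hs⟩ := ih
      have hk : (0 : ℝ) < (k + 1) * δ := by positivity
      by_cases hb : b ≤ a + (k + 1) * δ
      · refine ⟨u, hu, ?_⟩
        rw [min_eq_left hb] at hs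
        rwa [min_eq_left (by push_cast; linarith)]
      · rw [not_le] at hb
        rw [min_eq_right hb.le] at hs
        have h1 : a + (k + 1) * δ < min b (a + ((k + 1 : ℕ) + 1) * δ) :=
          lt_min hb (by push_cast; linarith)
        obtain ⟨v, hv, hv'⟩ := step _ _ (by linarith) h1 (min_le_left _ _)
          ((min_le_right _ _).trans (by push_cast; linarith)) _
          (hs.sm.slice (right_mem_Icc.2 (by linarith)))
        obtain ⟨w, hw, hw'⟩ := IsSol.glue Q hR isOpen_univ hH le_rfl (by linarith) h1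
          (min_le_left _ _) hs hv' hv
        exact ⟨w, hw.trans hu, hw'⟩
  obtain ⟨k, hk⟩ := exists_nat_ge ((b - a) / δ)
  obtain ⟨u, hu, hs⟩ := ind k
  rw [div_le_iff₀ hδ] at hk
  rw [min_eq_left (by nlinarith)] at hs
  exact ⟨u, hu, hs⟩

end Crest.Agent.N207.P
end
end

-- ▼ part N207/P/Abs
section

/-!
# Row 207, parabolic solver (helper17): the abstract fixed point theorem `abs_fix : AbsStmt ..`
-/

set_option autoImplicit false
set_option linter.unusedSectionVars false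
set_option linter.unusedVariables false

open Set Filter Topology

noncomputable section

namespace Crest.Agent.N207.P

variable {X : Type*} [TopologicalSpace X] {F Z : Type*} [NormedAddCommGroup F] [NormedSpace ℝ F]
  [NormedAddCommGroup Z] [NormedSpace ℝ Z] {d : X → X → ℝ} {τ ρ K : ℝ}

theorem Nem.contY {H : ℝ → X → Z → F} (h : Nem d τ ρ K H) {η η' : ℝ} {z : ℝ → X → Z}
    (hz : Yb d τ η η' z) (hη : η ≤ ρ) :
    ContinuousOn (fun p : ℝ × X => H p.1 p.2 (z p.1 p.2)) (Icc 0 τ ×ˢ univ) :=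
  h.cont.comp (f := fun p : ℝ × X => (p.1, p.2, z p.1 p.2))
    (continuousOn_fst.prodMk (continuousOn_snd.prodMk hz.cont))
    fun p hp => ⟨hp.1, mem_univ _, mem_closedBall_zero_iff.2 ((hz.sup _ hp.1 _).trans hη)⟩

theorem Nem.yb {H : ℝ → X → Z → F} (h : Nem d τ ρ K H) (hK : 0 ≤ K) {η : ℝ} {z : ℝ → X → Z}
    (hz : Yb d τ η η z) (hη : η ≤ ρ) (hη1 : η ≤ 1) :
    Yb d τ K (2 * K) (fun t x => H t x (z t x)) := by
  refine ⟨h.contY hz hη, fun t ht x => h.sup t ht x _ ((hz.sup t ht x).trans hη),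
    fun t ht x y => ?_⟩
  refine (h.lip t ht x y _ _ ((hz.sup t ht x).trans hη) ((hz.sup t ht y).trans hη)).trans ?_
  have h1 := hz.hol t ht x y
  have h2 := mul_le_mul_of_nonneg_right hη1 (Real.sqrt_nonneg (d x y))
  nlinarith

theorem Nem.yb_sub {H : ℝ → X → Z → F} (h : Nem d τ ρ K H) (hK : 0 ≤ K) {η0 η : ℝ}
    {z z' : ℝ → X → Z} (hz : Yb d τ η0 η0 z) (hz' : Yb d τ η0 η0 z') (hη : η0 ≤ ρ) (hη1 : η0 ≤ 1)
    (hd : Yb d τ η η (fun t x => z t x - z' t x)) :
    Yb d τ (K * η) (4 * K * η) (fun t x => H t x (z t x) - H t x (z' t x)) := by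
  refine ⟨(h.contY hz hη).sub (h.contY hz' hη), fun t ht x => ?_, fun t ht x y => ?_⟩
  · have h1 := h.sec t ht x x _ _ _ _ ((hz.sup t ht x).trans hη) ((hz'.sup t ht x).trans hη)
      ((hz.sup t ht x).trans hη) ((hz.sup t ht x).trans hη)
    simp only [sub_self, sub_zero, norm_zero, mul_zero, add_zero] at h1
    exact h1.trans (mul_le_mul_of_nonneg_left (hd.sup t ht x) hK)
  · refine (h.sec t ht x y _ _ _ _ ((hz.sup t ht x).trans hη) ((hz'.sup t ht x).trans hη)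
      ((hz.sup t ht y).trans hη) ((hz'.sup t ht y).trans hη)).trans ?_
    have hs := Real.sqrt_nonneg (d x y)
    have h1 := hz.hol t ht x y
    have h2 := hz'.hol t ht x y
    have h3 := hd.hol t ht x y
    have h4 := hd.sup t ht y
    have h5 := mul_le_mul_of_nonneg_right hη1 hs
    have h6 : (√(d x y) + ‖z t x - z t y‖ + ‖z' t x - z' t y‖) * ‖z t y - z' t y‖ ≤
        (3 * √(d x y)) * η := mul_le_mul (by linarith) h4 (norm_nonneg _) (by positivity)
    rw [show 4 * K * η * √(d x y) = K * (η * √(d x y) + 3 * √(d x y) * η) by ring]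
    exact mul_le_mul_of_nonneg_left (add_le_add h3 h6) hK

theorem smul_sub_le (a a' : ℝ) (v v' : F) : ‖a • v - a' • v'‖ ≤ |a| * ‖v - v'‖ + ‖a - a'‖ * ‖v'‖ := by
  rw [show a • v - a' • v' = a • (v - v') + (a - a') • v' by rw [smul_sub, sub_smul]; abel]
  refine (norm_add_le _ _).trans (le_of_eq ?_)
  rw [norm_smul, norm_smul, Real.norm_eq_abs]

theorem ybA_smul {a a' b b' : ℝ} {α : ℝ → X → ℝ} {ξ : ℝ → X → F} (hα : Yb d τ a a' α)
    (hξ : Yb d τ b b' ξ) (ha' : 0 ≤ a') (hb' : 0 ≤ b') :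
    Yb d τ (a * b) (a * b' + a' * b) (fun t x => α t x • ξ t x) := by
  refine ⟨hα.cont.smul hξ.cont, fun t ht x => ?_, fun t ht x y => (smul_sub_le _ _ _ _).trans ?_⟩
  · rw [norm_smul]
    exact mul_le_mul (hα.sup t ht x) (hξ.sup t ht x) (norm_nonneg _)
      ((norm_nonneg _).trans (hα.sup t ht x))
  · have hs := Real.sqrt_nonneg (d x y)
    have h1 : |α t x| * ‖ξ t x - ξ t y‖ ≤ a * (b' * √(d x y)) :=
      mul_le_mul (hα.sup t ht x) (hξ.hol t ht x y) (norm_nonneg _)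
        ((norm_nonneg _).trans (hα.sup t ht x))
    have h2 : ‖α t x - α t y‖ * ‖ξ t y‖ ≤ (a' * √(d x y)) * b :=
      mul_le_mul (hα.hol t ht x y) (hξ.sup t ht y) (norm_nonneg _) (by positivity)
    nlinarith

theorem yb_sum_smul {ι : Type*} [Fintype ι] {Ci : ι → ℝ} {a a' η b e : ℝ} {α : ι → ℝ → X → ℝ}
    {ξ : ι → ℝ → X → F} (hα : ∀ i, Yb d τ a a' (α i)) (hξ : ∀ i, Yb d τ η (Ci i * b + e) (ξ i))
    (ha' : 0 ≤ a') (hb : 0 ≤ b) (he : 0 ≤ e)
    (hs : ∀ t ∈ Icc 0 τ, ∀ x, ∑ i, Ci i * |α i t x| ≤ 1 / 4) :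
    Yb d τ (Fintype.card ι * (a * η)) (b / 4 + Fintype.card ι * (a * e + a' * η))
      (fun t x => ∑ i, α i t x • ξ i t x) := by
  refine ⟨continuousOn_finsetSum _ fun i _ => (hα i).cont.smul (hξ i).cont, fun t ht x => ?_,
    fun t ht x y => ?_⟩
  · refine (norm_sum_le_of_le (n := fun _ => a * η) _ fun i _ => ?_).trans (by simp)
    rw [norm_smul]
    exact mul_le_mul ((hα i).sup t ht x) ((hξ i).sup t ht x) (norm_nonneg _)
      ((norm_nonneg _).trans ((hα i).sup t ht x))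
  · have hq := Real.sqrt_nonneg (d x y)
    rw [← Finset.sum_sub_distrib]
    refine (norm_sum_le_of_le (n := fun i => Ci i * |α i t x| * (b * √(d x y)) +
      (a * e + a' * η) * √(d x y)) _ fun i _ => (smul_sub_le _ _ _ _).trans ?_).trans ?_
    · have h1 : |α i t x| * ‖ξ i t x - ξ i t y‖ ≤ |α i t x| * ((Ci i * b + e) * √(d x y)) :=
        mul_le_mul_of_nonneg_left ((hξ i).hol t ht x y) (abs_nonneg _)
      have h2 : ‖α i t x - α i t y‖ * ‖ξ i t y‖ ≤ (a' * √(d x y)) * η :=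
        mul_le_mul ((hα i).hol t ht x y) ((hξ i).sup t ht y) (norm_nonneg _) (by positivity)
      have h3 : |α i t x| * (e * √(d x y)) ≤ a * (e * √(d x y)) :=
        mul_le_mul_of_nonneg_right ((hα i).sup t ht x) (by positivity)
      nlinarith
    · rw [Finset.sum_add_distrib, ← Finset.sum_mul, Finset.sum_const, Finset.card_univ, nsmul_eq_mul]
      have := mul_le_mul_of_nonneg_right (hs t ht x) (show 0 ≤ b * √(d x y) by positivity)
      nlinarith

theorem ybA_sub {A c A' c' : ℝ} {f g : ℝ → X → F} (h : Yb d τ A c f) (h' : Yb d τ A' c' g) :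
    Yb d τ (A + A') (c + c') (f - g) := by
  refine ⟨h.cont.sub h'.cont, fun t ht x => (norm_sub_le _ _).trans
    (add_le_add (h.sup t ht x) (h'.sup t ht x)), fun t ht x y => ?_⟩
  simp only [Pi.sub_apply]
  rw [sub_sub_sub_comm, add_mul]
  exact (norm_sub_le _ _).trans (add_le_add (h.hol t ht x y) (h'.hol t ht x y))

/-- Banach's fixed point theorem for the predicate norms -/
theorem yb_fix [CompleteSpace F] {A c Λ : ℝ} (hA : 0 ≤ A) (hc : 0 ≤ c) (hΛ : 1 ≤ Λ)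
    {Ψ : (ℝ → X → F) → ℝ → X → F} (h1 : ∀ f, Yb d τ A c f → Yb d τ A c (Ψ f))
    (h2 : ∀ f g s, 0 ≤ s → Yb d τ A c f → Yb d τ A c g → Yb d τ (s / Λ) s (f - g) →
      Yb d τ (s / 2 / Λ) (s / 2) (Ψ f - Ψ g)) :
    ∃ f, Yb d τ A c f ∧ ∀ t ∈ Icc 0 τ, ∀ x, f t x = Ψ f t x := by
  have hΛ0 : 0 < Λ := by linarith
  let u : ℕ → ℝ → X → F := fun m => Ψ^[m] fun _ _ => 0
  have hu : ∀ m, u (m + 1) = Ψ (u m) := fun m => Function.iterate_succ_apply' _ _ _
  have hY : ∀ m, Yb d τ A c (u m) := fun m => by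
    induction m with
    | zero => exact yb_mono yb_zero hA hc
    | succ m ih => rw [hu]; exact h1 _ ih
  set s := 2 * (Λ * A + c) with hs
  have hs0 : 0 ≤ s := by positivity
  have hD : ∀ m, Yb d τ (s / 2 ^ m / Λ) (s / 2 ^ m) (u m - u (m + 1)) := fun m => by
    induction m with
    | zero =>
      refine yb_mono (ybA_sub (hY 0) (hY 1)) ?_ ?_
      · rw [pow_zero, div_one, le_div_iff₀ hΛ0]; nlinarith
      · rw [pow_zero, div_one]; nlinarith [mul_nonneg hΛ0.le hA]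
    | succ m ih =>
      have := h2 _ _ _ (by positivity) (hY m) (hY (m + 1)) ih
      rw [← hu, ← hu, div_div s, ← pow_succ] at this
      exact this
  have hd1 : ∀ t ∈ Icc 0 τ, ∀ x m, dist (u m t x) (u (m + 1) t x) ≤ 2 * s / 2 / 2 ^ m :=
    fun t ht x m => by
      rw [dist_eq_norm]
      refine ((hD m).sup t ht x).trans ?_
      rw [mul_div_cancel_left₀ _ two_ne_zero]
      exact div_le_self (by positivity) hΛ
  let f : ℝ → X → F := fun t x => limUnder atTop fun m => u m t x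
  have hf : ∀ t ∈ Icc 0 τ, ∀ x, Tendsto (fun m => u m t x) atTop (𝓝 (f t x)) := fun t ht x =>
    (cauchySeq_of_le_geometric_two (hd1 t ht x)).tendsto_limUnder
  have hr : ∀ t ∈ Icc 0 τ, ∀ x m, dist (u m t x) (f t x) ≤ 2 * s / 2 ^ m := fun t ht x m =>
    dist_le_of_le_geometric_two_of_tendsto (hd1 t ht x) (hf t ht x) m
  have hz : Tendsto (fun m : ℕ => 2 * s / 2 ^ m) atTop (𝓝 0) :=
    tendsto_const_nhds.div_atTop (tendsto_pow_atTop_atTop_of_one_lt one_lt_two)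
  have hfc : ContinuousOn (fun p : ℝ × X => f p.1 p.2) (Icc 0 τ ×ˢ univ) := by
    refine TendstoUniformlyOn.continuousOn (F := fun m (p : ℝ × X) => u m p.1 p.2) (p := atTop) ?_
      (Frequently.of_forall fun m => (hY m).cont)
    rw [Metric.tendstoUniformlyOn_iff]
    intro ε hε
    filter_upwards [hz.eventually (gt_mem_nhds hε)] with m hm p hp
    rw [dist_comm]
    exact (hr _ hp.1 _ m).trans_lt hm
  have hfY : Yb d τ A c f := ⟨hfc,
    fun t ht x => le_of_tendsto' (hf t ht x).norm fun m => (hY m).sup t ht x,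
    fun t ht x y => le_of_tendsto' ((hf t ht x).sub (hf t ht y)).norm fun m => (hY m).hol t ht x y⟩
  have hE : ∀ m, Yb d τ (Λ * (2 * s / 2 ^ m) / Λ) (Λ * (2 * s / 2 ^ m)) (u m - f) := fun m => by
    refine ⟨(hY m).cont.sub hfc, fun t ht x => ?_, fun t ht x y => ?_⟩
    · rw [mul_div_cancel_left₀ _ hΛ0.ne', Pi.sub_apply, Pi.sub_apply, ← dist_eq_norm]
      exact hr t ht x m
    · have h3 : ∀ k, dist (u k t x - u k t y) (u (k + 1) t x - u (k + 1) t y) ≤
          2 * s * √(d x y) / 2 / 2 ^ k := fun k => by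
        have := (hD k).hol t ht x y
        simp only [Pi.sub_apply] at this
        rw [dist_eq_norm, sub_sub_sub_comm]
        exact this.trans (le_of_eq (by ring))
      have h4 := dist_le_of_le_geometric_two_of_tendsto h3 ((hf t ht x).sub (hf t ht y)) m
      simp only [Pi.sub_apply]
      rw [dist_eq_norm, sub_sub_sub_comm] at h4
      refine h4.trans ?_
      have h5 : 0 ≤ 2 * s / 2 ^ m * √(d x y) := by positivity
      calc 2 * s * √(d x y) / 2 ^ m = 1 * (2 * s / 2 ^ m * √(d x y)) := by ring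
        _ ≤ Λ * (2 * s / 2 ^ m * √(d x y)) := mul_le_mul_of_nonneg_right hΛ h5
        _ = _ := by ring
  refine ⟨f, hfY, fun t ht x => ?_⟩
  refine tendsto_nhds_unique ((hf t ht x).comp (tendsto_add_atTop_nat 1)) ?_
  rw [tendsto_iff_norm_sub_tendsto_zero]
  refine squeeze_zero (fun _ => norm_nonneg _) (fun m => ?_) hz
  have := (h2 _ _ _ (by positivity) (hY m) hfY (hE m)).sup t ht x
  rw [← hu] at this
  refine this.trans ?_
  have h5 : 0 ≤ 2 * s / 2 ^ m := by positivity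
  rw [div_right_comm, mul_div_cancel_left₀ _ hΛ0.ne']
  linarith

set_option maxHeartbeats 800000 in
theorem abs_fix (X : Type*) [TopologicalSpace X] (F Z : Type*) [NormedAddCommGroup F]
    [NormedSpace ℝ F] [CompleteSpace F] [NormedAddCommGroup Z] [NormedSpace ℝ Z] (ι : Type*)
    [Fintype ι] : AbsStmt X F Z ι := by
  intro C K ρ hC hK hρ
  set N : ℝ := (Fintype.card ι : ℝ) with hN
  have hN0 : 0 ≤ N := Nat.cast_nonneg _
  set A0 := N * K + K + 1 with hA0
  set c0 := 2 * (N * (K * (C * A0 + 3)) + 2 * K + 1) with hc0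
  set Λ := 8 * (N * K * C) + 1 with hΛ
  have pA : 0 < A0 := by positivity
  have pc : 0 < c0 := by positivity
  have pΛ : 1 ≤ Λ := by have : 0 ≤ N * K * C := by positivity
                        linarith
  set X1 := C * (A0 + c0) with hX1
  set X2 := 4 * Λ * ((2 * N + 1) * K * C) with hX2
  set X3 := 16 * C * (K * (N * (C * c0 + C * A0 + 8) + 4)) with hX3
  have p1 : 0 < X1 := by positivity
  have p2 : 0 < X2 := by positivity
  have p3 : 0 < X3 := by positivity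
  set θ0 := min (min (ρ / X1) (1 / X1)) (min (1 / X2) (1 / X3)) with hθ0
  have pθ : 0 < θ0 := by positivity
  refine ⟨min 1 (θ0 ^ 4), by positivity, min_le_left _ _, ?_⟩
  intro τ hτ d Ci ζ ξ α B h hCi hCi' hY hadd hα hB hh hsm
  set θ := τ ^ (1 / 4 : ℝ) with hθ
  have hθp : 0 ≤ θ := Real.rpow_nonneg hτ.1.le _
  have hθle : θ ≤ θ0 := by
    have := Real.rpow_le_rpow hτ.1.le (hτ.2.trans (min_le_right _ _)) (by norm_num : (0 : ℝ) ≤ 1 / 4)
    rwa [← Real.rpow_natCast, ← Real.rpow_mul pθ.le, show ((4 : ℕ) : ℝ) * (1 / 4) = 1 by norm_num,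
      Real.rpow_one] at this
  simp only [hθ0, le_min_iff] at hθle
  obtain ⟨⟨q1, q2⟩, q3, q4⟩ := hθle
  rw [le_div_iff₀ (by assumption)] at q1 q2 q3 q4
  have e1 : C * θ * (A0 + c0) = θ * X1 := by rw [hX1]; ring
  set η0 := C * θ * (A0 + c0) with hη0
  have pη0 : 0 ≤ η0 := by positivity
  have r1 : η0 ≤ ρ := e1 ▸ q1
  have r2 : η0 ≤ 1 := e1 ▸ q2
  obtain ⟨f, hf, hfix⟩ := yb_fix (d := d) (τ := τ) pA.le pc.le pΛ
    (Ψ := fun f t x => ∑ i, α i t x (ζ f t x) • ξ i f t x + B t x (ζ f t x) + h t x)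
    (fun f hf => by
      obtain ⟨hz, hx⟩ := hY _ _ f pA.le pc.le hf
      have y1 := yb_sum_smul (Ci := Ci) (b := c0) (e := C * A0 + η0)
        (fun i => (hα i).yb hK.le hz r1 r2) (fun i => by simpa only [add_assoc] using hx i)
        (by positivity) pc.le (by positivity) fun t ht x => hsm t ht x _ ((hz.sup t ht x).trans r1)
      refine yb_mono (yb_add (yb_add y1 (hB.yb hK.le hz r1 r2)) hh) ?_ ?_
      · have := mul_le_mul_of_nonneg_left r2 (show 0 ≤ N * K by positivity)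
        rw [← hN, hA0]; nlinarith
      · have := mul_le_mul_of_nonneg_left r2 (show 0 ≤ N * K by positivity)
        rw [← hN]; nlinarith)
    (fun f g s hs hf hg hfg => by
      have hΛ0 : 0 < Λ := by linarith
      obtain ⟨hz, hx⟩ := hY _ _ f pA.le pc.le hf
      obtain ⟨hz', hx'⟩ := hY _ _ g pA.le pc.le hg
      obtain ⟨hzd, hxd⟩ := hY _ _ _ (by positivity) hs hfg
      set η := C * θ * (s / Λ + s) with hη
      have pη : 0 ≤ η := by positivity
      have r3 : η ≤ 2 * C * θ * s := by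
        have := mul_le_mul_of_nonneg_left (div_le_self hs pΛ) (show 0 ≤ C * θ by positivity)
        rw [hη]; nlinarith
      have hzd' : Yb d τ η η (fun t x => ζ f t x - ζ g t x) :=
        yb_congr hzd fun t ht x => by rw [(hadd _ _ _ _ f g hf hg t ht).1]; rfl
      have hxd' : ∀ i, Yb d τ η (Ci i * s + (C * (s / Λ) + η)) (fun t x => ξ i f t x - ξ i g t x) :=
        fun i => yb_congr (by simpa only [add_assoc] using hxd i) fun t ht x => by
          rw [(hadd _ _ _ _ f g hf hg t ht).2 i]; rfl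
      have y1 := yb_sum_smul (fun i => (hα i).yb hK.le hz r1 r2) hxd'
        (by positivity) hs (by positivity) fun t ht x => hsm t ht x _ ((hz.sup t ht x).trans r1)
      have y2 := yb_sum (s := Finset.univ) fun i _ => ybA_smul ((hα i).yb_sub hK.le hz hz' r1 r2 hzd')
        (yb_mono (hx' i) r2 (show _ ≤ C * c0 + C * A0 + 1 from by
          have := mul_le_mul_of_nonneg_right (hCi' i) pc.le
          linarith)) (by positivity) (by positivity)
      have y3 := hB.yb_sub hK.le hz hz' r1 r2 hzd'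
      simp only [Finset.sum_const, Finset.card_univ, nsmul_eq_mul, ← hN] at y1 y2
      refine yb_congr (yb_mono (yb_add (yb_add y1 y2) y3) ?_ ?_) fun t ht x => ?_
      · rw [le_div_iff₀ hΛ0]
        have h1 := mul_le_mul_of_nonneg_left r3 (show 0 ≤ (2 * N + 1) * K * Λ by positivity)
        have h2 := mul_le_mul_of_nonneg_right q3 hs
        rw [hX2] at h2
        have h3 : (N * (K * η) + N * (K * η * 1) + K * η) * Λ = (2 * N + 1) * K * Λ * η := by ring
        have h4 : (2 * N + 1) * K * Λ * (2 * C * θ * s) =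
            θ * (4 * Λ * ((2 * N + 1) * K * C)) * s / 2 := by ring
        rw [h3]
        linarith
      · have h1 := mul_le_mul_of_nonneg_left r3
          (show 0 ≤ K * (N * (C * c0 + C * A0 + 8) + 4) by positivity)
        have h2 := mul_le_mul_of_nonneg_right q4 hs
        rw [hX3] at h2
        have h3 : N * (K * (C * (s / Λ))) ≤ s / 8 := by
          rw [show N * (K * (C * (s / Λ))) = N * K * C * s / Λ by ring, div_le_iff₀ hΛ0, hΛ]
          nlinarith
        have h4 : s / 4 + N * (K * (C * (s / Λ) + η) + 2 * K * η) +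
            N * (K * η * (C * c0 + C * A0 + 1) + 4 * K * η * 1) + 4 * K * η =
            s / 4 + N * (K * (C * (s / Λ))) + K * (N * (C * c0 + C * A0 + 8) + 4) * η := by ring
        have h5 : K * (N * (C * c0 + C * A0 + 8) + 4) * (2 * C * θ * s) =
            θ * (16 * C * (K * (N * (C * c0 + C * A0 + 8) + 4))) * s / 8 := by ring
        rw [h4]
        linarith
      · simp only [Pi.sub_apply, smul_sub, sub_smul, Finset.sum_sub_distrib]
        abel)
  exact ⟨f, A0, c0, pA.le, pc.le, hf, r1, hfix⟩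

end Crest.Agent.N207.P
end
end

-- ▼ part N207/P/All

/-!
# Row 207, parabolic solver (helper11): the unconditional theorems
-/

set_option autoImplicit false

open scoped ContDiff Manifold

namespace Crest.Agent.N207.P

theorem regS (n : ℕ) (V : Type*) [NormedAddCommGroup V] [NormedSpace ℝ V] [CompleteSpace V] :
    RegStmt n V := reg_of_apr (apr n V)

variable (n : ℕ) (M : Type*) [TopologicalSpace M] [ChartedSpace (En n) M]
  [IsManifold 𝓘(ℝ, En n) ∞ M] [T2Space M] [CompactSpace M]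
  (V : Type*) [NormedAddCommGroup V] [NormedSpace ℝ V] [FiniteDimensional ℝ V]

theorem coreS : CoreStmt n M V :=
  haveI := FiniteDimensional.complete ℝ V
  core (schauder n V) (fun _ => abs_fix _ _ _ _) (regS n V)

/-- short time existence for quasilinear parabolic systems on a closed manifold -/
theorem qlS : QLStmt n M V := ql_of_core (coreS n M V)

/-- existence for linear parabolic systems on a closed manifold -/
theorem linS : LinStmt n M V :=
  haveI := FiniteDimensional.complete ℝ V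
  lin_of_core (coreS n M V) (regS n V)

end Crest.Agent.N207.P
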