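import Mathlib
import Crest.Agent.N207.Sk.Dyn2
import Crest.Agent.N207.V.Dt
import Crest.Agent.N207.AI.HcDef
import Crest.Agent.N207.P.All
import Crest.Agent.N207.AI.Glob2
import Crest.Agent.N207.C.Stmt

-- ▼ part N207/R/Disc
section

/-! Row 207, block R: the discrete ODE lemma (helper87). -/

set_option autoImplicit false
open Finset Filter

namespace Crest.Agent.N207.R

/-- The hypothesis of the discrete ODE lemma. -/
structure Hyp (c C th kap : ℝ) (n0 : ℕ) (d z be : ℕ → ℝ) : Prop where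
  c_pos : 0 < c
  C_nn : 0 ≤ C
  th_nn : 0 ≤ th
  th_le : th ≤ 1 / 8
  kap_pos : 0 < kap
  kap_lt : kap < 1
  n0_pos : 1 ≤ n0
  d_pos : ∀ n, 0 < d n
  d_sum : Summable d
  z_ge : ∀ n, c / d n ≤ z n
  be_nn : ∀ n, 0 ≤ be n
  step : ∀ n, n0 ≤ n → z (n + 1) ≤ th * (z (n - 1) + z n) +
    C * (be n + ∑' m, kap ^ m * be (n + m) ^ 2 * d (n + m))

theorem summable_sq_geo {k : ℝ} (h0 : 0 < k) (h1 : k < 1) :
    Summable fun m : ℕ => k ^ m * ((m : ℝ) + 1) ^ 2 := by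
  have h : ‖k‖ < 1 := by rwa [Real.norm_eq_abs, abs_of_pos h0]
  have h2 := summable_pow_mul_geometric_of_norm_lt_one 2 h
  have h3 := summable_pow_mul_geometric_of_norm_lt_one 1 h
  have h4 := summable_geometric_of_norm_lt_one h
  refine ((h2.add (h3.mul_left 2)).add h4).congr fun m => ?_
  ring

theorem sum_rec {w e : ℕ → ℝ} (hw : ∀ n, 0 ≤ w n) (he : ∀ n, 0 ≤ e n) {n0 : ℕ} (h0 : 1 ≤ n0)
    (h : ∀ k, n0 ≤ k + 1 → w (k + 2) ≤ 1 / 8 * (w k + w (k + 1)) + e (k + 1)) (N : ℕ) :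
    ∑ n ∈ range N, w n ≤ 2 * ∑ n ∈ range (n0 + 1), w n + 2 * ∑ n ∈ range N, e n := by
  obtain ⟨m, rfl⟩ : ∃ m, n0 = m + 1 := ⟨n0 - 1, by omega⟩
  have mono : ∀ {f : ℕ → ℝ}, (∀ n, 0 ≤ f n) → ∀ {a b : ℕ}, a ≤ b →
      ∑ n ∈ range a, f n ≤ ∑ n ∈ range b, f n := fun hf _ _ hab =>
    sum_le_sum_of_subset_of_nonneg (range_mono hab) fun n _ _ => hf n
  have key : ∀ j : ℕ, ∑ n ∈ range (m + j + 2), w n -
      1 / 8 * (∑ n ∈ range (m + j), w n + ∑ n ∈ range (m + j + 1), w n) ≤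
      ∑ n ∈ range (m + 2), w n + ∑ n ∈ range (m + j + 1), e n := by
    intro j
    induction j with
    | zero =>
      have h1 : 0 ≤ ∑ n ∈ range m, w n := sum_nonneg fun n _ => hw n
      have h2 : 0 ≤ ∑ n ∈ range (m + 1), w n := sum_nonneg fun n _ => hw n
      have h3 : 0 ≤ ∑ n ∈ range (m + 1), e n := sum_nonneg fun n _ => he n
      simp only [Nat.add_zero]; linarith
    | succ j ih =>
      have h1 := h (m + j) (by omega)
      rw [← Nat.add_assoc]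
      rw [sum_range_succ w (m + j + 2), sum_range_succ e (m + j + 1)]
      rw [sum_range_succ w (m + j + 1), sum_range_succ w (m + j)] at ih ⊢
      linarith
  have hE : 0 ≤ ∑ n ∈ range N, e n := sum_nonneg fun n _ => he n
  have hW : 0 ≤ ∑ n ∈ range (m + 2), w n := sum_nonneg fun n _ => hw n
  by_cases hN : N ≤ m + 2
  · have := mono hw hN; linarith
  · obtain ⟨j, rfl⟩ : ∃ j, N = m + j + 2 := ⟨N - m - 2, by omega⟩
    have h1 := key j
    have h2 := mono hw (show m + j ≤ m + j + 2 by omega)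
    have h3 := mono hw (show m + j + 1 ≤ m + j + 2 by omega)
    have h4 := mono he (show m + j + 1 ≤ m + j + 2 by omega)
    linarith

namespace Hyp

variable {c C th kap : ℝ} {n0 : ℕ} {d z be : ℕ → ℝ}

theorem z_pos (H : Hyp c C th kap n0 d z be) (n : ℕ) : 0 < z n :=
  lt_of_lt_of_le (div_pos H.c_pos (H.d_pos n)) (H.z_ge n)

theorem d_le (H : Hyp c C th kap n0 d z be) (n : ℕ) : d n ≤ ∑' m, d m :=
  H.d_sum.le_tsum n fun m _ => (H.d_pos m).le

theorem sum_d_le (H : Hyp c C th kap n0 d z be) (m N : ℕ) :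
    ∑ n ∈ range N, d (n + m) ≤ ∑' k, d k := by
  have h1 : ∑ n ∈ range N, d (n + m) = ∑ k ∈ (range N).map (addRightEmbedding m), d k := by
    rw [sum_map]; rfl
  rw [h1]
  exact H.d_sum.sum_le_tsum _ fun k _ => (H.d_pos k).le

/-- First pass. -/
theorem r1 (H : Hyp c C th kap n0 d z be) {B x : ℝ} (hx : 1 ≤ x) (hk : x ^ 2 * kap < 1)
    (hb : ∀ n : ℕ, be n ≤ B * ((n : ℝ) + 1) * x ^ n) :
    ∃ C' : ℝ, 0 < C' ∧ ∀ n : ℕ, z n ≤ C' * ((n : ℝ) + 1) ^ 2 * x ^ (2 * n) := by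
  have hx0 : 0 < x := by linarith
  have hB : 0 ≤ B := by have := (H.be_nn 0).trans (hb 0); simpa using this
  set D := ∑' m, d m with hD
  have hD0 : 0 ≤ D := (H.d_pos 0).le.trans (H.d_le 0)
  have hk0 : 0 < x ^ 2 * kap := mul_pos (by positivity) H.kap_pos
  have hs := summable_sq_geo hk0 hk
  set S := ∑' m : ℕ, (x ^ 2 * kap) ^ m * ((m : ℝ) + 1) ^ 2 with hS
  have hS0 : 0 ≤ S := tsum_nonneg fun m => by positivity
  set W : ℕ → ℝ := fun n => ((n : ℝ) + 1) ^ 2 * x ^ (2 * n) with hW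
  have hW1 : ∀ n, 1 ≤ W n := fun n => by
    have h1 : (1 : ℝ) ≤ ((n : ℝ) + 1) ^ 2 := one_le_pow₀ (by simp)
    have h2 : (1 : ℝ) ≤ x ^ (2 * n) := one_le_pow₀ hx
    exact one_le_mul_of_one_le_of_one_le h1 h2
  have hWm : ∀ n, W n ≤ W (n + 1) := fun n => by
    simp only [hW]
    have h1 : ((n : ℝ) + 1) ^ 2 ≤ (((n + 1 : ℕ) : ℝ) + 1) ^ 2 := by
      push_cast; gcongr; linarith
    have h2 : x ^ (2 * n) ≤ x ^ (2 * (n + 1)) := pow_le_pow_right₀ hx (by omega)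
    exact mul_le_mul h1 h2 (by positivity) (by positivity)
  have hL : ∀ n : ℕ, be n + ∑' m, kap ^ m * be (n + m) ^ 2 * d (n + m) ≤ (B + B ^ 2 * D * S) * W n := by
    intro n
    have h1 : be n ≤ B * W n := by
      refine (hb n).trans ?_
      simp only [hW]
      have h1 : ((n : ℝ) + 1) ≤ ((n : ℝ) + 1) ^ 2 := by nlinarith [Nat.cast_nonneg (α := ℝ) n]
      have h2 : x ^ n ≤ x ^ (2 * n) := pow_le_pow_right₀ hx (by omega)
      rw [mul_assoc]
      exact mul_le_mul_of_nonneg_left (mul_le_mul h1 h2 (by positivity) (by positivity)) hB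
    have h2 : ∀ m : ℕ, kap ^ m * be (n + m) ^ 2 * d (n + m) ≤
        B ^ 2 * D * W n * ((x ^ 2 * kap) ^ m * ((m : ℝ) + 1) ^ 2) := by
      intro m
      have h3 : be (n + m) ≤ B * (((n : ℝ) + 1) * ((m : ℝ) + 1)) * (x ^ n * x ^ m) := by
        refine (hb _).trans ?_
        rw [pow_add]
        have : ((n + m : ℕ) : ℝ) + 1 ≤ ((n : ℝ) + 1) * ((m : ℝ) + 1) := by
          push_cast; nlinarith [Nat.cast_nonneg (α := ℝ) n, Nat.cast_nonneg (α := ℝ) m,
            mul_nonneg (Nat.cast_nonneg (α := ℝ) n) (Nat.cast_nonneg (α := ℝ) m)]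
        gcongr
      have h4 : be (n + m) ^ 2 ≤ (B * (((n : ℝ) + 1) * ((m : ℝ) + 1)) * (x ^ n * x ^ m)) ^ 2 :=
        pow_le_pow_left₀ (H.be_nn _) h3 2
      have hk1 := H.kap_pos
      calc kap ^ m * be (n + m) ^ 2 * d (n + m)
          ≤ kap ^ m * (B * (((n : ℝ) + 1) * ((m : ℝ) + 1)) * (x ^ n * x ^ m)) ^ 2 * D :=
            mul_le_mul (mul_le_mul_of_nonneg_left h4 (by positivity)) (H.d_le _) (H.d_pos _).le
              (by positivity)
        _ = _ := by simp only [hW]; rw [mul_pow (x ^ 2) kap, ← pow_mul, pow_mul' x 2 n, pow_mul' x 2 m]; ring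
    have hsm : Summable fun m : ℕ => kap ^ m * be (n + m) ^ 2 * d (n + m) :=
      Summable.of_nonneg_of_le (fun m => by
        have := H.kap_pos; have := H.d_pos (n + m); positivity) h2 (hs.mul_left _)
    have h5 := hsm.tsum_le_tsum h2 (hs.mul_left _)
    rw [tsum_mul_left] at h5
    nlinarith
  set C1 := C * (B + B ^ 2 * D * S) with hC1
  have hC10 : 0 ≤ C1 := mul_nonneg H.C_nn (by positivity)
  set M := 2 * C1 + ∑ k ∈ range (n0 + 1), z k with hM
  have hz0 : 0 < ∑ k ∈ range (n0 + 1), z k := sum_pos (fun k _ => H.z_pos k) (by simp)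
  have hM0 : 0 < M := by linarith
  have key : ∀ n, z n ≤ M * W n := by
    intro n
    induction n using Nat.strong_induction_on with
    | _ n ih =>
      by_cases hn : n ≤ n0
      · have h1 : z n ≤ ∑ k ∈ range (n0 + 1), z k :=
          single_le_sum (f := z) (fun k _ => (H.z_pos k).le) (by simp; omega)
        nlinarith [hW1 n]
      · obtain ⟨k, rfl⟩ : ∃ k, n = k + 2 := ⟨n - 2, by have := H.n0_pos; omega⟩
        have h1 := H.step (k + 1) (by omega)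
        have h2 := ih k (by omega)
        have h3 := ih (k + 1) (by omega)
        have h4 := mul_le_mul_of_nonneg_left (hL (k + 1)) H.C_nn
        simp only [Nat.add_sub_cancel] at h1
        have h5 := hWm k
        have h6 := hWm (k + 1)
        have h7 := hW1 k
        have h8 : z k + z (k + 1) ≤ 2 * (M * W (k + 2)) := by nlinarith
        have h9 : th * (z k + z (k + 1)) ≤ 1 / 8 * (2 * (M * W (k + 2))) :=
          mul_le_mul H.th_le h8 (add_pos (H.z_pos _) (H.z_pos _)).le (by norm_num)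
        have h10 : C1 * W (k + 1) ≤ C1 * W (k + 2) := mul_le_mul_of_nonneg_left h6 hC10
        have h11 : 2 * C1 * W (k + 2) ≤ M * W (k + 2) :=
          mul_le_mul_of_nonneg_right (by linarith) (by linarith)
        have h12 : 0 ≤ M * W (k + 2) := mul_nonneg hM0.le (by linarith)
        rw [← mul_assoc] at h4
        show z (k + 1 + 1) ≤ M * W (k + 2)
        nlinarith
  exact ⟨M, hM0, fun n => by simpa [hW, mul_assoc] using key n⟩

/-- Second pass. -/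
theorem r2 (H : Hyp c C th kap n0 d z be) {B : ℝ} (hb : ∀ n : ℕ, be n ≤ B * ((n : ℝ) + 1)) :
    False := by
  have hB : 0 ≤ B := by have := (H.be_nn 0).trans (hb 0); simpa using this
  set D := ∑' m, d m with hD
  have hD0 : 0 ≤ D := (H.d_pos 0).le.trans (H.d_le 0)
  have hk := H.kap_pos
  have hs := summable_sq_geo H.kap_pos H.kap_lt
  set S := ∑' m : ℕ, kap ^ m * ((m : ℝ) + 1) ^ 2 with hS
  have hS0 : 0 ≤ S := tsum_nonneg fun m => by positivity
  set G : ℕ → ℝ := fun n => ∑' m : ℕ, kap ^ m * ((m : ℝ) + 1) ^ 2 * d (n + m) with hG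
  have hGs : ∀ n, Summable fun m : ℕ => kap ^ m * ((m : ℝ) + 1) ^ 2 * d (n + m) := fun n =>
    Summable.of_nonneg_of_le (fun m => by have := H.d_pos (n + m); positivity)
      (fun m => mul_le_mul_of_nonneg_left (H.d_le _) (by positivity)) (hs.mul_right D)
  have hGsum : ∀ N, ∑ n ∈ range N, G n ≤ S * D := by
    intro N
    simp only [hG]
    rw [← Summable.tsum_finsetSum fun n _ => hGs n, hS, ← tsum_mul_right]
    refine Summable.tsum_le_tsum (fun m => ?_) (summable_sum fun n _ => hGs n) (hs.mul_right D)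
    rw [← mul_sum]
    exact mul_le_mul_of_nonneg_left (H.sum_d_le m N) (by positivity)
  have hG0 : ∀ n, 0 ≤ G n := fun n => tsum_nonneg fun m => by have := H.d_pos (n + m); positivity
  set w : ℕ → ℝ := fun n => z n / ((n : ℝ) + 1) ^ 2 with hw
  have hw0 : ∀ n, 0 ≤ w n := fun n => div_nonneg (H.z_pos n).le (by positivity)
  set h : ℕ → ℝ := fun n => 1 / ((n : ℝ) + 1) with hh
  have hh0 : ∀ n, 0 < h n := fun n => by positivity
  have hstep : ∀ k : ℕ, n0 ≤ k + 1 →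
      w (k + 2) ≤ 1 / 8 * (w k + w (k + 1)) + C * (B * h (k + 1) + B ^ 2 * G (k + 1)) := by
    intro k hk1
    have h1 := H.step (k + 1) hk1
    simp only [Nat.add_sub_cancel] at h1
    set n := k + 1 with hn
    have hp : (0 : ℝ) < (n : ℝ) + 1 := by positivity
    have h2 : ∀ m : ℕ, kap ^ m * be (n + m) ^ 2 * d (n + m) ≤
        B ^ 2 * ((n : ℝ) + 1) ^ 2 * (kap ^ m * ((m : ℝ) + 1) ^ 2 * d (n + m)) := by
      intro m
      have h3 : be (n + m) ≤ B * (((n : ℝ) + 1) * ((m : ℝ) + 1)) := by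
        refine (hb _).trans ?_
        have : ((n + m : ℕ) : ℝ) + 1 ≤ ((n : ℝ) + 1) * ((m : ℝ) + 1) := by
          push_cast; nlinarith [Nat.cast_nonneg (α := ℝ) n, Nat.cast_nonneg (α := ℝ) m,
            mul_nonneg (Nat.cast_nonneg (α := ℝ) n) (Nat.cast_nonneg (α := ℝ) m)]
        gcongr
      have h4 : be (n + m) ^ 2 ≤ (B * (((n : ℝ) + 1) * ((m : ℝ) + 1))) ^ 2 :=
        pow_le_pow_left₀ (H.be_nn _) h3 2
      have := H.d_pos (n + m)
      calc kap ^ m * be (n + m) ^ 2 * d (n + m)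
          ≤ kap ^ m * (B * (((n : ℝ) + 1) * ((m : ℝ) + 1))) ^ 2 * d (n + m) := by gcongr
        _ = _ := by ring
    have hsm : Summable fun m : ℕ => kap ^ m * be (n + m) ^ 2 * d (n + m) :=
      Summable.of_nonneg_of_le (fun m => by have := H.d_pos (n + m); positivity) h2
        ((hGs n).mul_left _)
    have h5 := hsm.tsum_le_tsum h2 ((hGs n).mul_left _)
    rw [tsum_mul_left] at h5
    have h6 : be n ≤ B * h n * ((n : ℝ) + 1) ^ 2 := by
      refine (hb n).trans (le_of_eq ?_)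
      simp only [hh]; field_simp
    have h7 : z (n + 1) ≤ 1 / 8 * (z k + z n) + C * (B * h n + B ^ 2 * G n) * ((n : ℝ) + 1) ^ 2 := by
      have h8 : th * (z k + z n) ≤ 1 / 8 * (z k + z n) :=
        mul_le_mul_of_nonneg_right H.th_le (add_pos (H.z_pos _) (H.z_pos _)).le
      have h9 : C * (be n + ∑' m, kap ^ m * be (n + m) ^ 2 * d (n + m)) ≤
          C * (B * h n * ((n : ℝ) + 1) ^ 2 + B ^ 2 * ((n : ℝ) + 1) ^ 2 * G n) :=
        mul_le_mul_of_nonneg_left (add_le_add h6 h5) H.C_nn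
      nlinarith
    have e1 : z k = w k * ((k : ℝ) + 1) ^ 2 := by simp only [hw]; field_simp
    have e2 : z n = w n * ((n : ℝ) + 1) ^ 2 := by simp only [hw]; field_simp
    have hnk : (n : ℝ) = k + 1 := by simp [hn]
    have hK : (0 : ℝ) ≤ k := Nat.cast_nonneg k
    have hA : 0 ≤ C * (B * h n + B ^ 2 * G n) :=
      mul_nonneg H.C_nn (add_nonneg (mul_nonneg hB (hh0 n).le) (mul_nonneg (by positivity) (hG0 n)))
    show z (n + 1) / (((n + 1 : ℕ) : ℝ) + 1) ^ 2 ≤ _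
    rw [div_le_iff₀ (by positivity)]
    have q1 : ((k : ℝ) + 1) ^ 2 ≤ (((n + 1 : ℕ) : ℝ) + 1) ^ 2 := by push_cast; rw [hnk]; nlinarith
    have q2 : ((n : ℝ) + 1) ^ 2 ≤ (((n + 1 : ℕ) : ℝ) + 1) ^ 2 := by push_cast; nlinarith
    have r1 := mul_le_mul_of_nonneg_left q1 (hw0 k)
    have r2 := mul_le_mul_of_nonneg_left q2 (hw0 n)
    have r3 := mul_le_mul_of_nonneg_left q2 hA
    nlinarith
  set A0 := ∑ k ∈ range (n0 + 1), w k with hA0
  have hsumw : ∀ N, ∑ n ∈ range N, w n ≤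
      2 * A0 + 2 * (C * (B * ∑ n ∈ range N, h n + B ^ 2 * (S * D))) := by
    intro N
    have h1 := sum_rec (e := fun n => C * (B * h n + B ^ 2 * G n)) hw0
      (fun n => mul_nonneg H.C_nn (add_nonneg (mul_nonneg hB (hh0 n).le)
        (mul_nonneg (by positivity) (hG0 n)))) H.n0_pos hstep N
    have h2 : ∑ n ∈ range N, C * (B * h n + B ^ 2 * G n) =
        C * (B * ∑ n ∈ range N, h n + B ^ 2 * ∑ n ∈ range N, G n) := by
      rw [← mul_sum, sum_add_distrib, ← mul_sum, ← mul_sum]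
    have h3 : C * (B * ∑ n ∈ range N, h n + B ^ 2 * ∑ n ∈ range N, G n) ≤
        C * (B * ∑ n ∈ range N, h n + B ^ 2 * (S * D)) := by
      have := H.C_nn
      have := hGsum N
      gcongr
    linarith
  -- AM-GM
  have hc := H.c_pos
  set K := 2 * C * B + 1 with hK
  have hK0 : 0 < K := by have := mul_nonneg H.C_nn hB; nlinarith
  have hag : ∀ n, 2 * K * h n ≤ w n + K ^ 2 / c * d n := by
    intro n
    have hd := H.d_pos n
    have h1 : c / d n * h n ^ 2 ≤ w n := by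
      have : w n = z n * h n ^ 2 := by simp only [hw, hh]; field_simp
      rw [this]; exact mul_le_mul_of_nonneg_right (H.z_ge n) (by positivity)
    have h2 : c / d n * h n ^ 2 + K ^ 2 / c * d n - 2 * K * h n =
        (c * h n - K * d n) ^ 2 / (c * d n) := by field_simp; ring
    have h3 : 0 ≤ (c * h n - K * d n) ^ 2 / (c * d n) := by positivity
    linarith
  have hbd : ∀ N, ∑ n ∈ range N, h n ≤ 2 * A0 + 2 * (C * (B ^ 2 * (S * D))) + K ^ 2 / c * D := by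
    intro N
    have h1 : ∑ n ∈ range N, 2 * K * h n ≤ ∑ n ∈ range N, (w n + K ^ 2 / c * d n) :=
      sum_le_sum fun n _ => hag n
    rw [← mul_sum, sum_add_distrib, ← mul_sum] at h1
    have h2 := hsumw N
    have h3 : ∑ n ∈ range N, d n ≤ D := by simpa using H.sum_d_le 0 N
    have h4 : K ^ 2 / c * ∑ n ∈ range N, d n ≤ K ^ 2 / c * D := by gcongr
    have h5 : 0 ≤ ∑ n ∈ range N, h n := sum_nonneg fun n _ => (hh0 n).le
    have h6 := mul_nonneg (mul_nonneg H.C_nn hB) h5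
    nlinarith
  have hsum : Summable h := summable_of_sum_range_le (fun n => (hh0 n).le) hbd
  apply Real.not_summable_one_div_natCast
  rw [← summable_nat_add_iff 1]
  simpa [hh] using hsum

end Hyp

end Crest.Agent.N207.R
end

-- ▼ part N207/R/Two
section

/-! Row 207, block R: the two passes (helper87). -/

set_option autoImplicit false
open Finset Filter

namespace Crest.Agent.N207.R

theorem geo_sum_le {x : ℝ} (hx : 1 < x) (n : ℕ) : ∑ m ∈ range n, x ^ m ≤ x ^ n / (x - 1) := by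
  rw [geom_sum_eq hx.ne']
  have : 0 < x - 1 := by linarith
  gcongr; linarith

/-- Both passes: the memory term is `∑ aₘ^(1/2) d_(m+1)^(-3/4)`, `aₘ = a0 / K^m`. -/
theorem two_core {c kap : ℝ} {d z be : ℕ → ℝ} (hc : 0 < c) (kap_pos : 0 < kap)
    (d_pos : ∀ n, 0 < d n) (z_ge : ∀ n, c / d n ≤ z n) (be_nn : ∀ n, 0 ≤ be n)
    (r1 : ∀ {B x : ℝ}, 1 ≤ x → x ^ 2 * kap < 1 → (∀ n : ℕ, be n ≤ B * ((n : ℝ) + 1) * x ^ n) →
      ∃ C' : ℝ, 0 < C' ∧ ∀ n : ℕ, z n ≤ C' * ((n : ℝ) + 1) ^ 2 * x ^ (2 * n))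
    (r2 : ∀ {B : ℝ}, (∀ n : ℕ, be n ≤ B * ((n : ℝ) + 1)) → False)
    {K a0 c0 B : ℝ} (hK : 1 < K) (ha0 : 0 < a0) (hc0 : 0 < c0) (hkap : kap * K ≤ 1)
    (hd : ∀ n, c0 * (a0 / K ^ n) ≤ d n)
    (hbe : ∀ n : ℕ, be n ≤ B * ((n : ℝ) + 1) *
      (1 + ∑ m ∈ range (n - 1), (a0 / K ^ m) ^ (1 / 2 : ℝ) * d (m + 1) ^ (-(3 / 4) : ℝ))) :
    False := by
  have hK0 : 0 < K := by linarith
  have hB : 0 ≤ B := by have := (be_nn 0).trans (hbe 0); simpa using this
  set y := K ^ (1 / 8 : ℝ) with hy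
  have hy1 : 1 < y := Real.one_lt_rpow hK (by norm_num)
  have hy0 : 0 < y := by linarith
  have hy8 : y ^ 8 = K := by
    rw [hy, ← Real.rpow_natCast, ← Real.rpow_mul hK0.le]; norm_num
  have r8 : ∀ (u : ℝ), 0 < u → ∀ (k : ℕ) (e : ℝ), (k : ℝ) = 8 * e → (u ^ 8) ^ e = u ^ k := by
    intro u hu k e he
    rw [← Real.rpow_natCast u 8, ← Real.rpow_mul hu.le, ← Real.rpow_natCast u k, he]; norm_num
  have ha : ∀ m : ℕ, (a0 / K ^ m) ^ (1 / 2 : ℝ) = a0 ^ (1 / 2 : ℝ) / y ^ (4 * m) := by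
    intro m
    rw [Real.div_rpow ha0.le (by positivity), ← hy8, ← pow_mul, mul_comm 8 m, pow_mul,
      r8 _ (by positivity) 4 _ (by norm_num), ← pow_mul, mul_comm m 4]
  have anti : ∀ {u v : ℝ}, 0 < u → u ≤ v → v ^ (-(3 / 4) : ℝ) ≤ u ^ (-(3 / 4) : ℝ) :=
    fun hu huv => Real.rpow_le_rpow_of_nonpos hu huv (by norm_num)
  have hinv : ∀ (A : ℝ), 0 < A → ∀ u : ℝ, 0 < u →
      (A / u ^ 8) ^ (-(3 / 4) : ℝ) = A ^ (-(3 / 4) : ℝ) * u ^ 6 := by
    intro A hA u hu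
    rw [Real.div_rpow hA.le (by positivity), Real.rpow_neg (x := u ^ 8) (by positivity),
      r8 u hu 6 _ (by norm_num), div_inv_eq_mul]
  -- pass 1
  set A1 := a0 ^ (1 / 2 : ℝ) * (c0 * a0) ^ (-(3 / 4) : ℝ) * y ^ 6 with hA1
  have hA10 : 0 ≤ A1 := by positivity
  have hx1 : 1 < y ^ 2 := one_lt_pow₀ hy1 (by norm_num)
  have p1 : ∀ m : ℕ, (a0 / K ^ m) ^ (1 / 2 : ℝ) * d (m + 1) ^ (-(3 / 4) : ℝ) ≤ A1 * (y ^ 2) ^ m := by
    intro m
    have h1 : c0 * (a0 / K ^ (m + 1)) = c0 * a0 / (y ^ (m + 1)) ^ 8 := by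
      rw [← hy8, ← pow_mul, ← pow_mul, mul_comm 8]; ring
    have h2 := anti (by positivity) (hd (m + 1))
    rw [h1, hinv _ (by positivity) _ (by positivity)] at h2
    rw [ha]
    refine (mul_le_mul_of_nonneg_left h2 (by positivity)).trans (le_of_eq ?_)
    simp only [hA1]; field_simp; ring
  have b1 : ∀ n : ℕ, be n ≤ B * (1 + A1 / (y ^ 2 - 1)) * ((n : ℝ) + 1) * (y ^ 2) ^ n := by
    intro n
    refine (hbe n).trans ?_
    have h1 : ∑ m ∈ range (n - 1), (a0 / K ^ m) ^ (1 / 2 : ℝ) * d (m + 1) ^ (-(3 / 4) : ℝ) ≤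
        A1 / (y ^ 2 - 1) * (y ^ 2) ^ n := by
      refine (sum_le_sum fun m _ => p1 m).trans ?_
      rw [← mul_sum]
      have h2 := geo_sum_le hx1 (n - 1)
      have h3 : (y ^ 2) ^ (n - 1) ≤ (y ^ 2) ^ n := pow_le_pow_right₀ hx1.le (by omega)
      have h4 : 0 < y ^ 2 - 1 := by linarith
      calc A1 * ∑ m ∈ range (n - 1), (y ^ 2) ^ m ≤ A1 * ((y ^ 2) ^ n / (y ^ 2 - 1)) := by
            refine mul_le_mul_of_nonneg_left (h2.trans ?_) hA10; gcongr
        _ = _ := by ring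
    have h2 : (1 : ℝ) ≤ (y ^ 2) ^ n := one_le_pow₀ hx1.le
    have h3 : 1 + ∑ m ∈ range (n - 1), (a0 / K ^ m) ^ (1 / 2 : ℝ) * d (m + 1) ^ (-(3 / 4) : ℝ) ≤
        (1 + A1 / (y ^ 2 - 1)) * (y ^ 2) ^ n := by linarith
    calc _ ≤ B * ((n : ℝ) + 1) * ((1 + A1 / (y ^ 2 - 1)) * (y ^ 2) ^ n) :=
          mul_le_mul_of_nonneg_left h3 (by positivity)
      _ = _ := by ring
  have hk : (y ^ 2) ^ 2 * kap < 1 := by
    have h1 : (y ^ 2) ^ 2 < K := by
      rw [← hy8, ← pow_mul]; exact pow_lt_pow_right₀ hy1 (by norm_num)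
    nlinarith
  obtain ⟨C', hC', hz⟩ := r1 hx1.le hk b1
  -- pass 2
  have d2 : ∀ n : ℕ, c / C' / (((n : ℝ) + 1) ^ 2 * (y ^ 2) ^ (2 * n)) ≤ d n := by
    intro n
    have h1 := (z_ge n).trans (hz n)
    rw [div_le_iff₀ (d_pos n)] at h1
    rw [div_div, div_le_iff₀ (by positivity)]
    nlinarith
  set A2 := a0 ^ (1 / 2 : ℝ) * (c / C') ^ (-(3 / 4) : ℝ) * y ^ 3 * 4 with hA2
  have hA20 : 0 ≤ A2 := by positivity
  have p2 : ∀ m : ℕ, (a0 / K ^ m) ^ (1 / 2 : ℝ) * d (m + 1) ^ (-(3 / 4) : ℝ) ≤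
      A2 * (y⁻¹ ^ m * ((m : ℝ) + 1) ^ 2) := by
    intro m
    set p : ℝ := ((m + 1 : ℕ) : ℝ) + 1 with hp
    have hp1 : 1 ≤ p := by rw [hp]; exact le_add_of_nonneg_left (Nat.cast_nonneg _)
    have h2 := anti (by positivity) (d2 (m + 1))
    rw [← hp] at h2
    have h3 : (c / C' / (p ^ 2 * (y ^ 2) ^ (2 * (m + 1)))) ^ (-(3 / 4) : ℝ) ≤
        (c / C') ^ (-(3 / 4) : ℝ) * (p ^ 2 * y ^ (3 * (m + 1))) := by
      rw [Real.div_rpow (by positivity) (by positivity),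
        Real.rpow_neg (x := p ^ 2 * (y ^ 2) ^ (2 * (m + 1))) (by positivity), div_inv_eq_mul,
        Real.mul_rpow (by positivity) (by positivity)]
      refine mul_le_mul_of_nonneg_left (mul_le_mul ?_ (le_of_eq ?_) (by positivity) (by positivity))
        (by positivity)
      · calc (p ^ 2) ^ (3 / 4 : ℝ) ≤ (p ^ 2) ^ (1 : ℝ) :=
              Real.rpow_le_rpow_of_exponent_le (one_le_pow₀ hp1) (by norm_num)
          _ = _ := Real.rpow_one _
      · rw [← pow_mul, ← Real.rpow_natCast y, ← Real.rpow_mul hy0.le, ← Real.rpow_natCast y]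
        congr 1; push_cast; ring
    have h4 : p ^ 2 ≤ 4 * ((m : ℝ) + 1) ^ 2 := by
      rw [hp]; push_cast; nlinarith [Nat.cast_nonneg (α := ℝ) m]
    rw [ha]
    calc _ ≤ a0 ^ (1 / 2 : ℝ) / y ^ (4 * m) *
          ((c / C') ^ (-(3 / 4) : ℝ) * (4 * ((m : ℝ) + 1) ^ 2 * y ^ (3 * (m + 1)))) := by
          refine mul_le_mul_of_nonneg_left ((h2.trans h3).trans ?_) (by positivity)
          gcongr
      _ = _ := by simp only [hA2, inv_pow]; field_simp; ring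
  have hs := summable_sq_geo (inv_pos.2 hy0) (inv_lt_one_of_one_lt₀ hy1)
  set S := ∑' m : ℕ, y⁻¹ ^ m * ((m : ℝ) + 1) ^ 2 with hS
  refine r2 (B := B * (1 + A2 * S)) fun n => (hbe n).trans ?_
  have h1 : ∑ m ∈ range (n - 1), (a0 / K ^ m) ^ (1 / 2 : ℝ) * d (m + 1) ^ (-(3 / 4) : ℝ) ≤ A2 * S := by
    refine (sum_le_sum fun m _ => p2 m).trans ?_
    rw [← mul_sum]
    exact mul_le_mul_of_nonneg_left (hs.sum_le_tsum _ fun m _ => by positivity) hA20
  calc _ ≤ B * ((n : ℝ) + 1) * (1 + A2 * S) := by gcongr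
    _ = _ := by ring

/-- Both passes: the memory term is `∑ aₘ^(1/2) d_(m+1)^(-3/4)`, `aₘ = a0 / K^m`. -/
theorem Hyp.two {c C th kap : ℝ} {n0 : ℕ} {d z be : ℕ → ℝ} (H : Hyp c C th kap n0 d z be)
    {K a0 c0 B : ℝ} (hK : 1 < K) (ha0 : 0 < a0) (hc0 : 0 < c0) (hkap : kap * K ≤ 1)
    (hd : ∀ n, c0 * (a0 / K ^ n) ≤ d n)
    (hbe : ∀ n : ℕ, be n ≤ B * ((n : ℝ) + 1) *
      (1 + ∑ m ∈ range (n - 1), (a0 / K ^ m) ^ (1 / 2 : ℝ) * d (m + 1) ^ (-(3 / 4) : ℝ))) :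
    False :=
  two_core H.c_pos H.kap_pos H.d_pos H.z_ge H.be_nn H.r1 H.r2 hK ha0 hc0 hkap hd hbe

/-- The same with times: `d n = t (n+1) - t n`, memory term `(t n - t (m+1))^(-3/4)`. -/
theorem Hyp.two_times {c C th kap : ℝ} {n0 : ℕ} {t z be : ℕ → ℝ}
    (H : Hyp c C th kap n0 (fun n => t (n + 1) - t n) z be)
    {K a0 c0 B : ℝ} (hK : 1 < K) (ha0 : 0 < a0) (hc0 : 0 < c0) (hkap : kap * K ≤ 1)
    (hd : ∀ n, c0 * (a0 / K ^ n) ≤ t (n + 1) - t n)
    (hbe : ∀ n : ℕ, be n ≤ B * ((n : ℝ) + 1) *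
      (1 + ∑ m ∈ range (n - 1), (a0 / K ^ m) ^ (1 / 2 : ℝ) * (t n - t (m + 1)) ^ (-(3 / 4) : ℝ))) :
    False := by
  have hB : 0 ≤ B := by have := (H.be_nn 0).trans (hbe 0); simpa using this
  have hm : StrictMono t := strictMono_nat_of_lt_succ fun n => by have := H.d_pos n; linarith
  refine H.two (B := B) hK ha0 hc0 hkap hd fun n => (hbe n).trans ?_
  have hK0 : 0 < K := by linarith
  refine mul_le_mul_of_nonneg_left (add_le_add le_rfl (sum_le_sum fun m hm' => ?_)) (by positivity)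
  refine mul_le_mul_of_nonneg_left ?_ (by positivity)
  refine Real.rpow_le_rpow_of_nonpos (H.d_pos (m + 1)) ?_ (by norm_num)
  have : t (m + 1 + 1) ≤ t n := hm.monotone (by have := mem_range.1 hm'; omega)
  linarith

end Crest.Agent.N207.R
end

-- ▼ part N207/R/Asm
section

/-! Row 207, block R: from the monotone quantity at good times to the contradiction (helper87). -/

set_option autoImplicit false
open Finset Filter Topology

namespace Crest.Agent.N207.R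

/-- the memory term -/
noncomputable def mem (K a0 : ℝ) (t : ℕ → ℝ) (n : ℕ) : ℝ :=
  1 + ∑ m ∈ range (n - 1), (a0 / K ^ m) ^ (1 / 2 : ℝ) * (t n - t (m + 1)) ^ (-(3 / 4) : ℝ)

/-- `aₙ = a0 / Kⁿ`, `Iₙ = [tₙ, tₙ₊₁]`, `Z n = Zm n + Zp n` is the dissipation on `Iₙ` (before and
after the good time), `P n` the monotone quantity at the good time of `Iₙ`. -/
structure Pre (K a0 c c0 C C2 B e1 e2 T : ℝ) (n0 : ℕ) (t Zm Zp be P : ℕ → ℝ) : Prop where
  K_ge : 2 ≤ K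
  a0_pos : 0 < a0
  c_pos : 0 < c
  c0_pos : 0 < c0
  C_nn : 0 ≤ C
  C2_nn : 0 ≤ C2
  e1_nn : 0 ≤ e1
  e2_nn : 0 ≤ e2
  e1_le : e1 * K ^ 8 ≤ 1 / 64
  e2_le : e2 * √(C2 / c) * K ^ 8 ≤ 1 / 32
  n0_pos : 1 ≤ n0
  t_le : ∀ n, t n ≤ T
  d_ge : ∀ n, c0 * (a0 / K ^ n) ≤ t (n + 1) - t n
  Zm_nn : ∀ n, 0 ≤ Zm n
  Zp_nn : ∀ n, 0 ≤ Zp n
  Z_bdd : ∃ Z0, ∀ n, Zm n + Zp n ≤ Z0
  be_nn : ∀ n, 0 ≤ be n
  be_le : ∀ n : ℕ, be n ≤ B * ((n : ℝ) + 1) * mem K a0 t n
  drop : ∀ n, c * (a0 / K ^ n) ^ 4 ≤ (t (n + 1) - t n) * (Zm n + Zp n)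
  wl : ∀ n, n0 ≤ n → |P n| ≤ e2 * (a0 / K ^ n) ^ 2 *
    (√(C2 * (Zm (n - 1) + Zp (n - 1) + (Zm n + Zp n)) / (t (n + 1) - t n)) + (a0 / K ^ n) ^ 2 * be n)
  mono : ∀ n, n0 ≤ n → Zp n + Zm (n + 1)
    - e1 * (Zm (n - 1) + Zp (n - 1) + (Zm n + Zp n) + (Zm (n + 1) + Zp (n + 1)))
    - C * ((a0 / K ^ n) ^ 4 * be n ^ 2 * (t (n + 1) - t n)
      + (a0 / K ^ (n + 1)) ^ 4 * be (n + 1) ^ 2 * (t (n + 2) - t (n + 1))
      + (a0 / K ^ n) ^ 4 * ((n : ℝ) + 1)) ≤ P (n + 1) - P n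

theorem mem_le {K a0 c0 : ℝ} {t : ℕ → ℝ} (hK : 1 < K) (ha0 : 0 < a0) (hc0 : 0 < c0)
    (hd : ∀ n, c0 * (a0 / K ^ n) ≤ t (n + 1) - t n) :
    ∃ A, 0 ≤ A ∧ ∀ n, mem K a0 t n ≤ A * K ^ n := by
  have hK0 : 0 < K := by linarith
  have hdp : ∀ n, 0 < c0 * (a0 / K ^ n) := fun n => by positivity
  have hm : StrictMono t := strictMono_nat_of_lt_succ fun n => by linarith [hd n, hdp n]
  set A1 := a0 ^ (1 / 2 : ℝ) * ((c0 * a0) ^ (-(3 / 4) : ℝ) * K) with hA1
  have hA10 : 0 ≤ A1 := by positivity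
  have p1 : ∀ n, ∀ m ∈ range (n - 1),
      (a0 / K ^ m) ^ (1 / 2 : ℝ) * (t n - t (m + 1)) ^ (-(3 / 4) : ℝ) ≤ A1 * K ^ m := by
    intro n m hm'
    have h0 : t (m + 1 + 1) ≤ t n := hm.monotone (by have := mem_range.1 hm'; omega)
    have h1 : (t n - t (m + 1)) ^ (-(3 / 4) : ℝ) ≤ (c0 * (a0 / K ^ (m + 1))) ^ (-(3 / 4) : ℝ) :=
      Real.rpow_le_rpow_of_nonpos (hdp _) (by linarith [hd (m + 1)]) (by norm_num)
    have hp : (1 : ℝ) ≤ K ^ (m + 1) := one_le_pow₀ hK.le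
    have h2 : (c0 * (a0 / K ^ (m + 1))) ^ (-(3 / 4) : ℝ) ≤ (c0 * a0) ^ (-(3 / 4) : ℝ) * K ^ (m + 1) := by
      rw [← mul_div_assoc, Real.div_rpow (by positivity) (by positivity),
        Real.rpow_neg (x := K ^ (m + 1)) (by positivity), div_inv_eq_mul]
      refine mul_le_mul_of_nonneg_left ?_ (by positivity)
      calc (K ^ (m + 1)) ^ (3 / 4 : ℝ) ≤ (K ^ (m + 1)) ^ (1 : ℝ) :=
            Real.rpow_le_rpow_of_exponent_le hp (by norm_num)
        _ = _ := Real.rpow_one _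
    have h3 : (a0 / K ^ m) ^ (1 / 2 : ℝ) ≤ a0 ^ (1 / 2 : ℝ) :=
      Real.rpow_le_rpow (by positivity) (div_le_self ha0.le (one_le_pow₀ hK.le)) (by norm_num)
    have h4 : 0 ≤ (t n - t (m + 1)) ^ (-(3 / 4) : ℝ) :=
      Real.rpow_nonneg (by linarith [hd (m + 1), hdp (m + 1)]) _
    refine (mul_le_mul h3 (h1.trans h2) h4 (by positivity)).trans (le_of_eq ?_)
    simp only [hA1]; ring
  have h4 : 0 < K - 1 := by linarith
  refine ⟨1 + A1 / (K - 1), by positivity, fun n => ?_⟩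
  have h1 := sum_le_sum (p1 n)
  rw [← mul_sum] at h1
  have h2 := geo_sum_le hK (n - 1)
  have h3 : K ^ (n - 1) ≤ K ^ n := pow_le_pow_right₀ hK.le (by omega)
  have h5 : A1 * ∑ m ∈ range (n - 1), K ^ m ≤ A1 * (K ^ n / (K - 1)) := by
    refine mul_le_mul_of_nonneg_left (h2.trans ?_) hA10; gcongr
  have h6 : (1 : ℝ) ≤ K ^ n := one_le_pow₀ hK.le
  have h7 : (1 + A1 / (K - 1)) * K ^ n = K ^ n + A1 * (K ^ n / (K - 1)) := by ring
  unfold mem
  linarith

theorem one_le_mem {K a0 c0 : ℝ} {t : ℕ → ℝ} (hK : 1 < K) (ha0 : 0 < a0) (hc0 : 0 < c0)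
    (hd : ∀ n, c0 * (a0 / K ^ n) ≤ t (n + 1) - t n) (n : ℕ) : 1 ≤ mem K a0 t n := by
  have hK0 : 0 < K := by linarith
  have hdp : ∀ n, 0 < c0 * (a0 / K ^ n) := fun n => by positivity
  have hm : StrictMono t := strictMono_nat_of_lt_succ fun n => by linarith [hd n, hdp n]
  refine le_add_of_nonneg_right (sum_nonneg fun m hm' => mul_nonneg (by positivity) ?_)
  have h0 : t (m + 1) ≤ t n := hm.monotone (by have := mem_range.1 hm'; omega)
  exact Real.rpow_nonneg (by linarith) _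

/-- telescoping -/
theorem tele {Zm Zp E P : ℕ → ℝ} {e : ℝ} (he : 0 ≤ e) (he6 : e ≤ 1 / 6) (hm : ∀ n, 0 ≤ Zm n)
    (hp : ∀ n, 0 ≤ Zp n) (k : ℕ)
    (h : ∀ n, k ≤ n → Zp (n + 1) + Zm (n + 2)
      - e * (Zm n + Zp n + (Zm (n + 1) + Zp (n + 1)) + (Zm (n + 2) + Zp (n + 2))) - E (n + 1)
        ≤ P (n + 2) - P (n + 1)) (N : ℕ) :
    1 / 2 * ∑ j ∈ range N, (Zm (k + 2 + j) + Zp (k + 2 + j)) ≤ P (k + 2 + N) - P (k + 1)
      + e * (Zm k + Zp k + 2 * (Zm (k + 1) + Zp (k + 1))) + e * (Zm (k + 2 + N) + Zp (k + 2 + N))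
      + ∑ j ∈ range (N + 1), E (k + 1 + j) := by
  have key : ∀ N : ℕ, (1 - 3 * e) * ∑ j ∈ range N, (Zm (k + 2 + j) + Zp (k + 2 + j)) + Zm (k + 2 + N)
      + e * (Zm (k + 1 + N) + Zp (k + 1 + N)) ≤ P (k + 2 + N) - P (k + 1)
      + e * (Zm k + Zp k + 2 * (Zm (k + 1) + Zp (k + 1))) + e * (Zm (k + 2 + N) + Zp (k + 2 + N))
      + ∑ j ∈ range (N + 1), E (k + 1 + j) := by
    intro N
    induction N with
    | zero =>
      have := h k le_rfl
      have := hp (k + 1)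
      simp only [range_zero, sum_empty, Nat.add_zero, zero_add, range_one, sum_singleton]
      nlinarith
    | succ N ih =>
      have h1 := h (k + 1 + N) (by omega)
      rw [sum_range_succ, sum_range_succ _ (N + 1)]
      have e1 : k + 1 + N + 1 = k + 2 + N := by omega
      have e2 : k + 1 + N + 2 = k + 2 + (N + 1) := by omega
      have e3 : k + 1 + (N + 1) = k + 2 + N := by omega
      rw [e1, e2] at h1
      rw [e3]
      nlinarith
  have h1 := key N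
  have h2 : 0 ≤ ∑ j ∈ range N, (Zm (k + 2 + j) + Zp (k + 2 + j)) :=
    sum_nonneg fun j _ => add_nonneg (hm _) (hp _)
  have h3 := hm (k + 2 + N)
  have h4 := mul_nonneg he (add_nonneg (hm (k + 1 + N)) (hp (k + 1 + N)))
  nlinarith

theorem step_alg {L q Z0 Z1 Z2 e1 e2 s C S G b p P : ℝ} (hL : 1 < L) (hq : 0 < q) (h0 : 0 ≤ Z0)
    (h1 : 0 ≤ Z1) (he1 : 0 ≤ e1) (he2 : 0 ≤ e2) (hs : 0 ≤ s) (hC : 0 ≤ C) (hS : 0 ≤ S) (hG : 0 ≤ G)
    (hb : 0 ≤ b) (hp : p ≤ b) (a1 : e1 * L ^ 2 ≤ 1 / 64) (a2 : e2 * s * L ^ 2 ≤ 1 / 32)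
    (k1 : 1 / 2 * Z2 ≤ P + e1 * (Z0 + 2 * Z1) + C * q * (2 * G + S * p))
    (k2 : P ≤ e2 * s * (Z0 + Z1) + e2 * (q * b)) :
    Z2 / (q / L) ≤ 1 / 8 * (Z0 / (q * L) + Z1 / q) + L * (2 * e2 + 4 * C + 2 * C * S) * (b + G) := by
  have hL0 : 0 < L := by linarith
  set u := Z0 / (q * L) with hu
  set v := Z1 / q with hv
  have hu0 : 0 ≤ u := by positivity
  have hv0 : 0 ≤ v := by positivity
  have eu : Z0 = q * (L * u) := by rw [hu]; field_simp
  have ev : Z1 ≤ q * (L * v) := by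
    have : Z1 = q * v := by rw [hv]; field_simp
    rw [this]; exact mul_le_mul_of_nonneg_left (le_mul_of_one_le_left hv0 hL.le) hq.le
  rw [div_div_eq_mul_div, div_le_iff₀ hq]
  have w1 : Z0 + Z1 ≤ q * (L * (u + v)) := by rw [mul_add, mul_add]; linarith
  have w2 : (2 * (e2 * s) + 4 * e1) * (Z0 + Z1) * L ≤ 1 / 8 * (u + v) * q := by
    have w3 : (2 * (e2 * s) + 4 * e1) * L ^ 2 ≤ 1 / 8 := by linarith
    calc _ ≤ (2 * (e2 * s) + 4 * e1) * (q * (L * (u + v))) * L := by gcongr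
      _ = (2 * (e2 * s) + 4 * e1) * L ^ 2 * ((u + v) * q) := by ring
      _ ≤ 1 / 8 * ((u + v) * q) := by gcongr
      _ = _ := by ring
  have w4 : 2 * e2 * b + 2 * C * (2 * G + S * p) ≤ (2 * e2 + 4 * C + 2 * C * S) * (b + G) := by
    have x1 := mul_le_mul_of_nonneg_left hp (show 0 ≤ 2 * C * S by positivity)
    nlinarith [mul_nonneg he2 hG, mul_nonneg hC hb, mul_nonneg (mul_nonneg hC hS) hG]
  have w5 : Z2 ≤ (2 * (e2 * s) + 4 * e1) * (Z0 + Z1) + q * ((2 * e2 + 4 * C + 2 * C * S) * (b + G)) := by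
    have x1 := mul_le_mul_of_nonneg_left w4 hq.le
    nlinarith [mul_nonneg he1 h0]
  have w6 := mul_le_mul_of_nonneg_right w5 hL0.le
  nlinarith

set_option maxHeartbeats 1000000 in
theorem Pre.false {K a0 c c0 C C2 B e1 e2 T : ℝ} {n0 : ℕ} {t Zm Zp be P : ℕ → ℝ}
    (H : Pre K a0 c c0 C C2 B e1 e2 T n0 t Zm Zp be P) : False := by
  have hK : 1 < K := by linarith [H.K_ge]
  have hK0 : 0 < K := by linarith
  have ha0 := H.a0_pos
  have hc := H.c_pos
  have hc0 := H.c0_pos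
  have hC := H.C_nn
  have he1 := H.e1_nn
  have he2 := H.e2_nn
  set d : ℕ → ℝ := fun n => t (n + 1) - t n with hd
  have hdp : ∀ n, 0 < d n := fun n => lt_of_lt_of_le (by positivity) (H.d_ge n)
  have hds : ∀ N, ∑ n ∈ range N, d n ≤ T - t 0 := fun N => by
    rw [sum_range_sub]; linarith [H.t_le N]
  have hsum : Summable d := summable_of_sum_range_le (fun n => (hdp n).le) hds
  set D := ∑' n, d n with hD
  have hdD : ∀ n, d n ≤ D := fun n => hsum.le_tsum n fun m _ => (hdp m).le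
  have hD0 : 0 ≤ D := (hdp 0).le.trans (hdD 0)
  set q : ℕ → ℝ := fun n => (a0 / K ^ n) ^ 4 with hq
  have hqp : ∀ n, 0 < q n := fun n => by positivity
  set kap := (K ^ 4)⁻¹ with hkap
  have hkp : 0 < kap := by positivity
  have hK4 : 1 < K ^ 4 := one_lt_pow₀ hK (by norm_num)
  have hk1 : kap < 1 := inv_lt_one_of_one_lt₀ hK4
  have hqa : ∀ n m, q (n + m) = q n * kap ^ m := fun n m => by
    simp only [hq, hkap, inv_pow]; field_simp; ring
  set Z : ℕ → ℝ := fun n => Zm n + Zp n with hZ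
  have hZ0 : ∀ n, 0 ≤ Z n := fun n => add_nonneg (H.Zm_nn n) (H.Zp_nn n)
  have hm1 := one_le_mem hK ha0 hc0 H.d_ge
  obtain ⟨A, hA, hmA⟩ := mem_le hK ha0 hc0 H.d_ge
  have hB : 0 ≤ B := by
    have h1 := (H.be_nn 0).trans (H.be_le 0)
    have h2 := hm1 0
    simp only [Nat.cast_zero, zero_add, mul_one] at h1
    by_contra h; nlinarith
  set b : ℕ → ℝ := fun n => be n + ((n : ℝ) + 1) with hb
  have hb0 : ∀ n, 0 ≤ b n := fun n => add_nonneg (H.be_nn n) (by positivity)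
  have hb1 : ∀ n, be n ≤ b n := fun n => le_add_of_nonneg_right (by positivity)
  have hb2 : ∀ n : ℕ, (n : ℝ) + 1 ≤ b n := fun n => le_add_of_nonneg_left (H.be_nn n)
  have hbm : ∀ n : ℕ, b n ≤ (B + 1) * ((n : ℝ) + 1) * mem K a0 t n := fun n => by
    have h1 := H.be_le n
    have h2 := mul_le_mul_of_nonneg_left (hm1 n) (show (0 : ℝ) ≤ (n : ℝ) + 1 by positivity)
    simp only [hb]; nlinarith
  have hbK : ∀ n : ℕ, b n ≤ (B + 1) * A * (((n : ℝ) + 1) * K ^ n) := fun n => by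
    have := mul_le_mul_of_nonneg_left (hmA n) (show 0 ≤ (B + 1) * ((n : ℝ) + 1) by positivity)
    linarith [hbm n]
  have hk2 : K ^ 2 * kap < 1 := by
    rw [hkap, ← div_eq_mul_inv, div_lt_one (by positivity)]
    exact pow_lt_pow_right₀ hK (by norm_num)
  have hs2 := summable_sq_geo (show 0 < K ^ 2 * kap by positivity) hk2
  have hG0 : Summable fun m : ℕ => kap ^ m * b m ^ 2 := by
    refine Summable.of_nonneg_of_le (fun m => by positivity) (fun m => ?_)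
      (hs2.mul_left (((B + 1) * A) ^ 2))
    calc kap ^ m * b m ^ 2 ≤ kap ^ m * ((B + 1) * A * (((m : ℝ) + 1) * K ^ m)) ^ 2 :=
          mul_le_mul_of_nonneg_left (pow_le_pow_left₀ (hb0 m) (hbK m) 2) (by positivity)
      _ = _ := by rw [mul_pow (K ^ 2), ← pow_mul, pow_mul' K 2 m]; ring
  have hG : ∀ n, Summable fun m : ℕ => kap ^ m * b (n + m) ^ 2 * d (n + m) := by
    intro n
    have h1 := ((summable_nat_add_iff n).2 hG0).mul_left ((kap ^ n)⁻¹ * D)
    refine Summable.of_nonneg_of_le (fun m => by have := hdp (n + m); positivity) (fun m => ?_) h1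
    rw [add_comm m n]
    calc kap ^ m * b (n + m) ^ 2 * d (n + m) ≤ kap ^ m * b (n + m) ^ 2 * D :=
          mul_le_mul_of_nonneg_left (hdD _) (by positivity)
      _ = _ := by rw [pow_add]; field_simp
  set G : ℕ → ℝ := fun n => ∑' m : ℕ, kap ^ m * b (n + m) ^ 2 * d (n + m) with hGd
  have hGn : ∀ n, 0 ≤ G n := fun n => tsum_nonneg fun m => by have := hdp (n + m); positivity
  have hs := summable_sq_geo hkp hk1
  set S := ∑' m : ℕ, kap ^ m * ((m : ℝ) + 1) ^ 2 with hS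
  have hS0 : 0 ≤ S := tsum_nonneg fun m => by positivity
  set E : ℕ → ℝ := fun n => C * (q n * be n ^ 2 * d n + q (n + 1) * be (n + 1) ^ 2 * d (n + 1)
    + q n * ((n : ℝ) + 1)) with hE
  have hEs : ∀ n N, ∑ j ∈ range N, E (n + j) ≤ C * q n * (2 * G n + S * ((n : ℝ) + 1)) := by
    intro n N
    set f : ℕ → ℝ := fun m => kap ^ m * b (n + m) ^ 2 * d (n + m) with hf
    have hf0 : ∀ m, 0 ≤ f m := fun m => by have := hdp (n + m); positivity
    have h0 : ∀ m, q (n + m) * be (n + m) ^ 2 * d (n + m) ≤ q n * f m := fun m => by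
      have h1 := pow_le_pow_left₀ (H.be_nn (n + m)) (hb1 (n + m)) 2
      have := hdp (n + m); have := hqp n
      rw [hqa]
      calc q n * kap ^ m * be (n + m) ^ 2 * d (n + m) ≤ q n * kap ^ m * b (n + m) ^ 2 * d (n + m) := by
            gcongr
        _ = _ := by simp only [hf]; ring
    have h1 : ∀ j, E (n + j) ≤ C * q n * (f j + f (j + 1) +
        kap ^ j * ((j : ℝ) + 1) ^ 2 * ((n : ℝ) + 1)) := by
      intro j
      have h2 := h0 j
      have h3 := h0 (j + 1)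
      have h4 : q (n + j) * (((n + j : ℕ) : ℝ) + 1) ≤
          q n * (kap ^ j * ((j : ℝ) + 1) ^ 2 * ((n : ℝ) + 1)) := by
        have h5 : ((n + j : ℕ) : ℝ) + 1 ≤ ((j : ℝ) + 1) ^ 2 * ((n : ℝ) + 1) := by
          have a1 := Nat.cast_nonneg (α := ℝ) n
          have a2 := Nat.cast_nonneg (α := ℝ) j
          push_cast; nlinarith [mul_nonneg a1 a2, mul_nonneg (mul_nonneg a1 a2) a2]
        have := hqp n
        rw [hqa]
        calc q n * kap ^ j * (((n + j : ℕ) : ℝ) + 1) ≤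
            q n * kap ^ j * (((j : ℝ) + 1) ^ 2 * ((n : ℝ) + 1)) := by gcongr
          _ = _ := by ring
      rw [← add_assoc] at h3
      rw [mul_assoc C]
      exact mul_le_mul_of_nonneg_left (by linarith) hC
    refine (sum_le_sum fun j _ => h1 j).trans ?_
    rw [← mul_sum, sum_add_distrib, sum_add_distrib, ← sum_mul]
    have h2 : ∑ j ∈ range N, f j ≤ G n := (hG n).sum_le_tsum _ fun m _ => hf0 m
    have h3 : ∑ j ∈ range N, f (j + 1) ≤ G n := by
      have h4 : ∑ j ∈ range (N + 1), f j ≤ G n := (hG n).sum_le_tsum _ fun m _ => hf0 m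
      rw [sum_range_succ'] at h4
      linarith [hf0 0]
    have h4 : ∑ j ∈ range N, kap ^ j * ((j : ℝ) + 1) ^ 2 ≤ S := hs.sum_le_tsum _ fun m _ => by positivity
    have h5 := mul_le_mul_of_nonneg_right h4 (show (0 : ℝ) ≤ (n : ℝ) + 1 by positivity)
    have := hqp n
    exact mul_le_mul_of_nonneg_left (by linarith) (by positivity)
  set s := √(C2 / c) with hs'
  have hs0 : 0 ≤ s := Real.sqrt_nonneg _
  have hP : ∀ n, n0 ≤ n → |P n| ≤ e2 * s * (Z (n - 1) + Z n) + e2 * (q n * b n) := by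
    intro n hn
    refine (H.wl n hn).trans ?_
    set a := a0 / K ^ n with ha
    have hap : 0 < a := by positivity
    have h1 : a ^ 2 * √(C2 * (Z (n - 1) + Z n) / d n) ≤ s * (Z (n - 1) + Z n) := by
      have hW : 0 ≤ Z (n - 1) + Z n := add_nonneg (hZ0 _) (hZ0 _)
      rw [← Real.sqrt_sq (show 0 ≤ a ^ 2 by positivity), ← Real.sqrt_mul (by positivity), hs',
        ← Real.sqrt_sq hW, ← Real.sqrt_mul (div_nonneg H.C2_nn hc.le), Real.sqrt_sq hW]
      refine Real.sqrt_le_sqrt ?_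
      have h2 : c * a ^ 4 ≤ d n * (Z (n - 1) + Z n) :=
        (H.drop n).trans (mul_le_mul_of_nonneg_left (le_add_of_nonneg_left (hZ0 _)) (hdp n).le)
      have h3 : a ^ 4 / d n ≤ (Z (n - 1) + Z n) / c := by
        rw [div_le_div_iff₀ (hdp n) hc]; linarith
      have h4 := mul_le_mul_of_nonneg_left h3 (mul_nonneg H.C2_nn hW)
      calc _ = C2 * (Z (n - 1) + Z n) * (a ^ 4 / d n) := by ring
        _ ≤ _ := h4
        _ = _ := by ring
    have h2 : a ^ 4 * be n ≤ q n * b n := mul_le_mul_of_nonneg_left (hb1 n) (by positivity)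
    calc _ = e2 * (a ^ 2 * √(C2 * (Z (n - 1) + Z n) / d n)) + e2 * (a ^ 4 * be n) := by
          simp only [hZ, hd]; ring
      _ ≤ e2 * (s * (Z (n - 1) + Z n)) + e2 * (q n * b n) := by gcongr
      _ = _ := by ring
  have hqb : Tendsto (fun n => q n * b n) atTop (𝓝 0) := by
    have h1 := (hG0.tendsto_atTop_zero).const_mul (q 0)
    rw [mul_zero] at h1
    refine squeeze_zero (fun n => mul_nonneg (hqp n).le (hb0 n)) (fun n => ?_) h1
    have h2 := hqa 0 n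
    rw [zero_add] at h2
    have h3 : b n ≤ b n ^ 2 := by nlinarith [hb2 n, Nat.cast_nonneg (α := ℝ) n]
    have := hqp 0
    rw [h2, mul_assoc]; gcongr
  have hK8 : 6 ≤ K ^ 8 := le_trans (by norm_num) (pow_le_pow_left₀ (by norm_num) H.K_ge 8)
  have he6 : e1 ≤ 1 / 6 := by nlinarith [H.e1_le]
  have tl : ∀ k, n0 ≤ k + 1 → ∀ N, 1 / 2 * ∑ j ∈ range N, Z (k + 2 + j) ≤ P (k + 2 + N) - P (k + 1)
      + e1 * (Z k + 2 * Z (k + 1)) + e1 * Z (k + 2 + N)
      + C * q (k + 1) * (2 * G (k + 1) + S * (((k + 1 : ℕ) : ℝ) + 1)) := by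
    intro k hk N
    have h1 := tele (E := E) (P := P) he1 he6 H.Zm_nn H.Zp_nn k
      (fun n hn => H.mono (n + 1) (by omega)) N
    have h2 := hEs (k + 1) (N + 1)
    simp only [hZ]; linarith
  obtain ⟨Z0, hZb⟩ := H.Z_bdd
  obtain ⟨Q0, hQ0⟩ := hqb.bddAbove_range
  have hZlim : Tendsto Z atTop (𝓝 0) := by
    have h1 : Summable fun j => Z (n0 + 2 + j) := by
      refine summable_of_sum_range_le (c := 2 * (e2 * s * (2 * Z0) + e2 * Q0 - P (n0 + 1)
        + e1 * (Z n0 + 2 * Z (n0 + 1)) + e1 * Z0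
        + C * q (n0 + 1) * (2 * G (n0 + 1) + S * (((n0 + 1 : ℕ) : ℝ) + 1)))) (fun j => hZ0 _) fun N => ?_
      have h2 := tl n0 (by omega) N
      have h3 := (le_abs_self _).trans (hP (n0 + 2 + N) (by omega))
      have h4 : e2 * s * (Z (n0 + 2 + N - 1) + Z (n0 + 2 + N)) ≤ e2 * s * (2 * Z0) :=
        mul_le_mul_of_nonneg_left (by linarith [hZb (n0 + 2 + N - 1), hZb (n0 + 2 + N)])
          (by positivity)
      have h5 : e2 * (q (n0 + 2 + N) * b (n0 + 2 + N)) ≤ e2 * Q0 :=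
        mul_le_mul_of_nonneg_left (hQ0 ⟨_, rfl⟩) he2
      have h6 : e1 * Z (n0 + 2 + N) ≤ e1 * Z0 := mul_le_mul_of_nonneg_left (hZb _) he1
      linarith
    rw [← tendsto_add_atTop_iff_nat (n0 + 2)]
    simpa [add_comm] using h1.tendsto_atTop_zero
  have hPlim : Tendsto P atTop (𝓝 0) := by
    have h1 : Tendsto (fun n => Z (n - 1)) atTop (𝓝 0) := hZlim.comp (tendsto_sub_atTop_nat 1)
    have h2 := ((h1.add hZlim).const_mul (e2 * s)).add (hqb.const_mul e2)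
    simp only [add_zero, mul_zero] at h2
    exact squeeze_zero_norm' ((eventually_ge_atTop n0).mono fun n hn => hP n hn) h2
  have hstep : ∀ k, n0 ≤ k + 1 → 1 / 2 * Z (k + 2) ≤ |P (k + 1)| + e1 * (Z k + 2 * Z (k + 1))
      + C * q (k + 1) * (2 * G (k + 1) + S * (((k + 1 : ℕ) : ℝ) + 1)) := by
    intro k hk
    have hsh : Tendsto (fun N => k + 2 + N) atTop atTop := tendsto_atTop_mono
      (fun N => Nat.le_add_left N (k + 2)) tendsto_id
    have h1 := ((((hPlim.comp hsh).sub_const (P (k + 1))).add_const (e1 * (Z k + 2 * Z (k + 1)))).add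
      ((hZlim.comp hsh).const_mul e1)).add_const
      (C * q (k + 1) * (2 * G (k + 1) + S * (((k + 1 : ℕ) : ℝ) + 1)))
    have h2 := ge_of_tendsto (b := 1 / 2 * Z (k + 2)) h1 ((eventually_ge_atTop 1).mono fun N hN => by
      refine le_trans ?_ (tl k hk N)
      have := single_le_sum (f := fun j => Z (k + 2 + j)) (s := range N) (a := 0)
        (fun j _ => hZ0 _) (mem_range.2 hN)
      simp only [Nat.add_zero] at this
      linarith)
    linarith [neg_le_abs (P (k + 1))]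
  have HH : Hyp c (K ^ 4 * (2 * e2 + 4 * C + 2 * C * S)) (1 / 8) kap n0 d (fun n => Z n / q n) b := by
    refine ⟨hc, by positivity, by norm_num, le_rfl, hkp, hk1, H.n0_pos, hdp, hsum, fun n => ?_, hb0,
      fun n hn => ?_⟩
    · rw [div_le_div_iff₀ (hdp n) (hqp n), mul_comm (Z n)]; exact H.drop n
    · obtain ⟨k, rfl⟩ : ∃ k, n = k + 1 := ⟨n - 1, by have := H.n0_pos; omega⟩
      have h1 := hstep k hn
      have h2 := hP (k + 1) hn
      simp only [Nat.add_sub_cancel] at h2 ⊢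
      have q1 : q k = q (k + 1) * K ^ 4 := by rw [hqa k 1, hkap]; field_simp
      have q2 : q (k + 1 + 1) = q (k + 1) / K ^ 4 := by rw [hqa (k + 1) 1, hkap]; field_simp
      change Z (k + 2) / q (k + 1 + 1) ≤ 1 / 8 * (Z k / q k + Z (k + 1) / q (k + 1)) +
        K ^ 4 * (2 * e2 + 4 * C + 2 * C * S) * (b (k + 1) + G (k + 1))
      rw [q1, q2]
      exact step_alg hK4 (hqp _) (hZ0 _) (hZ0 _) he1 he2 hs0 hC hS0 (hGn _) (hb0 _) (hb2 _)
        (by rw [← pow_mul]; exact H.e1_le) (by rw [← pow_mul]; exact H.e2_le) h1 h2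
  refine HH.two_times (B := B + 1) hK ha0 hc0 ?_ H.d_ge hbm
  rw [hkap, inv_mul_le_iff₀ (by positivity), mul_one]
  calc K = K ^ 1 := (pow_one K).symm
    _ ≤ K ^ 4 := pow_le_pow_right₀ hK.le (by norm_num)

/-- a good time -/
theorem exists_good {f : ℝ → ℝ} {a b M : ℝ} (hab : a < b)
    (hf : IntervalIntegrable f MeasureTheory.volume a b) (hM : ∫ s in a..b, f s ≤ M) :
    ∃ s ∈ Set.Ioo a b, f s ≤ M / (b - a) := by
  have h0 : MeasureTheory.volume (Set.Ioo a b) ≠ 0 := by simp [hab]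
  have h1 : MeasureTheory.volume (Set.Ioo a b) ≠ ⊤ := by simp
  have h2 : MeasureTheory.IntegrableOn f (Set.Ioo a b) :=
    (intervalIntegrable_iff_integrableOn_Ioo_of_le hab.le).1 hf
  obtain ⟨s, hs, h3⟩ := MeasureTheory.exists_le_setAverage h0 h1 h2
  refine ⟨s, hs, h3.trans ?_⟩
  rw [intervalIntegral.integral_of_le hab.le, MeasureTheory.integral_Ioc_eq_integral_Ioo] at hM
  rw [MeasureTheory.setAverage_eq, Real.volume_real_Ioo_of_le hab.le, smul_eq_mul, ← div_eq_inv_mul]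
  have : 0 < b - a := by linarith
  gcongr

end Crest.Agent.N207.R
end

-- ▼ part N207/Sk/As1
section

/-! Row 207, final assembly, part 1 (helper87): a chain of windows on one time interval. -/

set_option autoImplicit false
open Set MeasureTheory

namespace Crest.Agent.N207.As

theorem ii_mono {f : ℝ → ℝ} {a b x y : ℝ} (hf : IntervalIntegrable f volume a b) (h1 : a ≤ x)
    (h2 : x ≤ y) (h3 : y ≤ b) : IntervalIntegrable f volume x y :=
  hf.mono_set (by rw [uIcc_of_le h2, uIcc_of_le (h1.trans (h2.trans h3))]; exact Icc_subset_Icc h1 h3)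

/-- `W s u p`: `p` is a value at time `s` in the chart `u`; `k s` is the cost of a cut at `s`. -/
theorem chain {W : ℝ → ℝ → ℝ → Prop} {a b h0 A B B0 : ℝ} {lo up E k : ℝ → ℝ} (hab : a < b)
    (hh : 0 < h0) (hA : 0 ≤ A) (hB : 0 ≤ B) (hlo : IntervalIntegrable lo volume a b)
    (hup : IntervalIntegrable up volume a b) (hE : IntervalIntegrable E volume a b)
    (hE0 : ∀ s, 0 ≤ E s) (hk1 : ∀ s ∈ Icc a b, k s ≤ B0) (hk2 : ∀ s ∈ Ico a b, k s ≤ E s)
    (ex : ∀ u ∈ Ico a b, ∀ s, u ≤ s → s ≤ u + h0 → s ≤ b → ∃ p, W s u p)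
    (win : ∀ u ∈ Ico a b, ∀ x y p p', u ≤ x → x < y → y ≤ u + h0 → y ≤ b → W x u p → W y u p' →
      (∫ s in x..y, lo s) - A * (k x + k y) ≤ p' - p ∧ p' - p ≤ (∫ s in x..y, up s) + A * (k x + k y))
    (sw : ∀ u ∈ Ico a b, ∀ u' ∈ Ico a b, ∀ s p p', u ≤ u' → u' ≤ s → s ≤ u + h0 → s < b →
      W s u p → W s u' p' → |p - p'| ≤ A * k s + B) {p0 : ℝ} (hp0 : W a a p0) :
    ∃ p1 u1, u1 ∈ Ico a b ∧ b ≤ u1 + h0 ∧ W b u1 p1 ∧
      (∫ s in a..b, lo s) - (18 * A / h0 * (∫ s in a..b, E s) + 2 * (b - a) / h0 * B + 2 * A * B0)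
        ≤ p1 - p0 ∧
      p1 - p0 ≤ (∫ s in a..b, up s)
        + (18 * A / h0 * (∫ s in a..b, E s) + 2 * (b - a) / h0 * B + 2 * A * B0) := by
  obtain ⟨J, hJ⟩ : ∃ J : ℕ, J + 1 = ⌈2 * (b - a) / h0⌉₊ :=
    ⟨⌈2 * (b - a) / h0⌉₊ - 1, by
      have : 0 < ⌈2 * (b - a) / h0⌉₊ := Nat.ceil_pos.2 (div_pos (by linarith) hh)
      omega⟩
  have hJ1 : 2 * (b - a) / h0 ≤ (J : ℝ) + 1 := by
    have := Nat.le_ceil (2 * (b - a) / h0); rw [← hJ] at this; exact_mod_cast this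
  have hJ2 : (J : ℝ) ≤ 2 * (b - a) / h0 := by
    have := Nat.ceil_lt_add_one (show 0 ≤ 2 * (b - a) / h0 from (div_pos (by linarith) hh).le)
    rw [← hJ] at this; push_cast at this; linarith
  set h := (b - a) / ((J : ℝ) + 2) with hdef
  have hJ0 : (0 : ℝ) ≤ J := Nat.cast_nonneg J
  have hp : 0 < h := div_pos (by linarith) (by linarith)
  have hb : a + ((J : ℝ) + 2) * h = b := by rw [hdef]; field_simp; ring
  have h2 : 2 * h ≤ h0 := by
    rw [div_le_iff₀ hh] at hJ1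
    rw [hdef, ← mul_div_assoc, div_le_iff₀ (by linarith)]; nlinarith
  have h6 : 1 ≤ J → 1 / h ≤ 6 / h0 := by
    intro h1
    have h1' : (1 : ℝ) ≤ J := by exact_mod_cast h1
    rw [le_div_iff₀ hh] at hJ2
    rw [div_le_div_iff₀ hp hh, hdef, ← mul_div_assoc, le_div_iff₀ (by linarith)]; nlinarith
  set u : ℕ → ℝ := fun j => a + j * h with hu
  have hu1 : ∀ j, u (j + 1) = u j + h := fun j => by simp only [hu]; push_cast; ring
  have hua : ∀ j, a ≤ u j := fun j => le_add_of_nonneg_right (by positivity)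
  have hub : ∀ j, j ≤ J → u j + 2 * h ≤ b := fun j hj => by
    have : (j : ℝ) ≤ J := by exact_mod_cast hj
    rw [← hb]; simp only [hu]; nlinarith
  have hI : ∀ j, j ≤ J → u j ∈ Ico a b := fun j hj => ⟨hua j, by linarith [hub j hj]⟩
  have hu0 : u 0 = a := by simp [hu]
  have hAa : A * k a ≤ A * B0 := mul_le_mul_of_nonneg_left (hk1 a ⟨le_rfl, hab.le⟩) hA
  have key : ∀ j, j ≤ J → ∀ s p, u j + h ≤ s → s ≤ u j + 2 * h → W s (u j) p →
      (∫ s in a..s, lo s) - (18 * A / h0 * (∫ s in a..u j + h, E s) + j * B + A * B0 + A * k s)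
        ≤ p - p0 ∧
      p - p0 ≤ (∫ s in a..s, up s)
        + (18 * A / h0 * (∫ s in a..u j + h, E s) + j * B + A * B0 + A * k s) := by
    intro j
    induction j with
    | zero =>
      intro hj s p h1 h3 hw
      have h4 := win _ (hI 0 hj) a s p0 p hu0.le (by linarith) (by linarith)
        (h3.trans (hub 0 hj)) (by rwa [hu0]) hw
      have h5 : 0 ≤ 18 * A / h0 * ∫ s in a..u 0 + h, E s :=
        mul_nonneg (by positivity) (intervalIntegral.integral_nonneg (by linarith) fun s _ => hE0 s)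
      simp only [Nat.cast_zero, zero_mul, add_zero]
      constructor <;> linarith [h4.1, h4.2]
    | succ j ih =>
      intro hj s p h1 h3 hw
      have hj' : j ≤ J := by omega
      have hb' := hub (j + 1) hj
      have hI' := hI (j + 1) hj
      rw [hu1] at h1 h3 hb' hw hI'
      have ha' := hua j
      obtain ⟨σ, hσ, hσE⟩ := R.exists_good (show u j + h < u j + h + h by linarith)
        (ii_mono hE (by linarith) (by linarith) (by linarith)) le_rfl
      obtain ⟨r, hr⟩ := ex _ (hI j hj') σ (by linarith [hσ.1]) (by linarith [hσ.2]) (by linarith [hσ.2])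
      obtain ⟨r', hr'⟩ := ex _ hI' σ hσ.1.le (by linarith [hσ.2]) (by linarith [hσ.2])
      have hσa : a ≤ σ := by linarith [hσ.1]
      have hσs : σ < s := by linarith [hσ.2]
      have hsb : s ≤ b := by linarith
      have i1 := ih hj' σ r hσ.1.le (by linarith [hσ.2]) hr
      have i2 := win _ hI' σ s r' p hσ.1.le hσs (by linarith) hsb hr' hw
      have i3 := sw _ (hI j hj') _ hI' σ _ _ (by linarith) hσ.1.le (by linarith [hσ.2])
        (by linarith) hr hr'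
      have a1 := intervalIntegral.integral_add_adjacent_intervals (ii_mono hlo le_rfl hσa (by linarith))
        (ii_mono hlo hσa hσs.le hsb)
      have a2 := intervalIntegral.integral_add_adjacent_intervals (ii_mono hup le_rfl hσa (by linarith))
        (ii_mono hup hσa hσs.le hsb)
      have a3 := intervalIntegral.integral_add_adjacent_intervals
        (ii_mono hE le_rfl (show a ≤ u j + h by linarith) (by linarith))
        (ii_mono hE (show a ≤ u j + h by linarith) (show u j + h ≤ u j + h + h by linarith)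
          (by linarith))
      have a4 : 3 * (A * k σ) ≤ 18 * A / h0 * ∫ s in u j + h..u j + h + h, E s := by
        have a5 : 0 ≤ ∫ s in u j + h..u j + h + h, E s :=
          intervalIntegral.integral_nonneg (by linarith) fun s _ => hE0 s
        rw [add_sub_cancel_left] at hσE
        have a6 := (hk2 σ ⟨hσa, by linarith⟩).trans hσE
        calc 3 * (A * k σ) ≤ 3 * (A * ((∫ s in u j + h..u j + h + h, E s) * (1 / h))) := by
              rw [mul_one_div]; gcongr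
          _ ≤ 3 * (A * ((∫ s in u j + h..u j + h + h, E s) * (6 / h0))) := by
              have := h6 (by omega); gcongr
          _ = _ := by ring
      rw [hu1, ← a1, ← a2, ← a3]
      push_cast
      obtain ⟨i4, i5⟩ := abs_le.1 i3
      rw [mul_add (18 * A / h0), add_mul (j : ℝ)]
      rw [mul_add A] at i2
      constructor <;> linarith [i1.1, i1.2, i2.1, i2.2]
  have huJ : u J + 2 * h = b := by rw [← hb]; simp only [hu]; ring
  obtain ⟨p1, hp1⟩ := ex _ (hI J le_rfl) b (by linarith) (by linarith) le_rfl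
  have k1 := key J le_rfl b p1 (by linarith) huJ.ge hp1
  have k2 : 18 * A / h0 * (∫ s in a..u J + h, E s) ≤ 18 * A / h0 * ∫ s in a..b, E s := by
    refine mul_le_mul_of_nonneg_left ?_ (by positivity)
    exact intervalIntegral.integral_mono_interval le_rfl (by linarith [hua J]) (by linarith)
      (ae_of_all _ fun s => hE0 s) hE
  have k3 : (J : ℝ) * B ≤ 2 * (b - a) / h0 * B := mul_le_mul_of_nonneg_right hJ2 hB
  have k4 : A * k b ≤ A * B0 := mul_le_mul_of_nonneg_left (hk1 b ⟨hab.le, le_rfl⟩) hA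
  exact ⟨p1, u J, hI J le_rfl, by linarith, hp1, by linarith [k1.1], by linarith [k1.2]⟩

end Crest.Agent.N207.As
end

-- ▼ part N207/Sk/As3
section

/-! Row 207, final assembly, part 3 (helper87): one time interval. -/

set_option autoImplicit false
set_option linter.unusedSectionVars false

open scoped Manifold ContDiff Topology
open Set MeasureTheory Filter

namespace Crest.Agent.N207.As

open Sk

variable {M : Type*} [TopologicalSpace M] [ChartedSpace E4 M] [IsManifold 𝓘(ℝ, E4) ∞ M]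
  [T3Space M] [ConnectedSpace M] [MeasurableSpace M] [BorelSpace M] [CompactSpace M]

/-- what is used about `|Ric|²` at a fixed time -/
structure Gm (g : Met 4 M) : Prop where
  fin : IsFiniteMeasure g.vol
  nn : ∀ p, 0 ≤ g.rc 0 p
  int : Integrable (g.rc 0) g.vol

theorem gm_of {F : Flow M} (hB : Base F) {s : ℝ} (hs : s ∈ late F) : Gm (F.m s) := by
  have h0 : 0 < s := (half_pos F.hT).trans_le hs.1
  have hs' : s ∈ Ioo 0 F.hc.T := ⟨h0, hs.2⟩
  have hf : IsFiniteMeasure (F.m s).vol := hB.ok.int.fin s hs'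
  have hT : s < F.T := hs.2
  have hc : Continuous ((F.m s).rc 0) := hB.ok.alg.s0_cont (hB.ok.alg.sm_s0
    (hB.ok.alg.sm_Q (a := s) (b := (s + F.T) / 2) 0 ⟨h0, by linarith, show _ < F.T by linarith⟩) s
    ⟨le_rfl, by linarith⟩)
  exact ⟨hf, hB.ok.evo.Q_nonneg 0 s hs',
    hc.integrable_of_hasCompactSupport (HasCompactSupport.of_compactSpace _)⟩

theorem Gm.mono {g : Met 4 M} (h : Gm g) {A B : Set M} (hAB : A ⊆ B) : mass g A ≤ mass g B :=
  setIntegral_mono_set h.int.integrableOn (ae_of_all _ h.nn) hAB.eventuallyLE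

theorem Gm.mass_nn {g : Met 4 M} (h : Gm g) (A : Set M) : 0 ≤ mass g A :=
  integral_nonneg h.nn

theorem Om_mono (N : Nk M) {r r' : ℝ} (h : r ≤ r') : N.Om r ⊆ N.Om r' :=
  union_subset_union_right _ (image_mono fun _ hx => ⟨hx.1, hx.2.trans_le h⟩)

theorem ebd_nn {g : Met 4 M} {N : Nk M} {m : ℕ} {ρ e : ℝ} (h : Ebd g N m ρ e) : 0 ≤ e := by
  obtain ⟨J, -, -, h⟩ := h
  have := h 0
  simp only [Finset.range_zero, Finset.sum_empty, add_zero, mul_one] at this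
  exact (sq_nonneg ρ).trans this

theorem Gm.mass_le {g : Met 4 M} (h : Gm g) {N : Nk M} {m : ℕ} {ρ e V : ℝ} (hN : N.Top)
    (h1 : N.a < ρ / 32) (h2 : ρ ≤ N.b / 4) (hE : Ebd g N m ρ e)
    (hV : g.vol.real (N.Om ρ) ≤ V * ρ ^ 4) :
    mass g (N.Om ρ) ≤ mass g (N.Om (ρ / 32)) + V * e ^ 2 := by
  have ha := hN.a_pos
  have hρ : 0 < ρ := by linarith
  have hf := h.fin
  have hm : MeasurableSet (N.Om (ρ / 32)) := (hN.opn _ ⟨h1, by linarith⟩).measurableSet
  have he := ebd_nn hE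
  obtain ⟨J, hJ0, hJ, hJe⟩ := hE
  have hp : ∀ p ∈ N.Om ρ \ N.Om (ρ / 32), ‖g.rc 0 p‖ ≤ (e / ρ ^ 2) ^ 2 := by
    rintro p ⟨hp | ⟨x, hx, rfl⟩, hp'⟩
    · exact absurd (Or.inl hp) hp'
    have h3 : ρ / 32 ≤ ‖x‖ := not_lt.1 fun h3 => hp' (Or.inr ⟨x, ⟨hx.1, h3⟩, rfl⟩)
    obtain ⟨j, j1, j2⟩ := exists_nat_pow_near (x := ‖x‖ / (ρ / 64)) (y := 2)
      (by rw [le_div_iff₀ (by linarith)]; linarith) one_lt_two
    rw [le_div_iff₀ (by linarith)] at j1
    rw [div_lt_iff₀ (by linarith)] at j2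
    have h4 := hJ j x j1 j2.le (hx.2.le.trans h2) 0 (Nat.zero_le _)
    rw [pow_zero, one_mul] at h4
    have h5 : J j ≤ e / ρ ^ 2 := by
      have h6 := hJe (j + 1)
      have h7 : 0 ≤ ∑ i ∈ Finset.range j, J i := Finset.sum_nonneg fun i _ => hJ0 i
      rw [Finset.sum_range_succ] at h6
      rw [le_div_iff₀ (by positivity)]
      nlinarith [sq_nonneg ρ]
    rw [Real.norm_of_nonneg (h.nn _)]
    exact (Real.sqrt_le_left (by positivity)).1 (h4.trans h5)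
  have a1 := integral_inter_add_sdiff (s := N.Om ρ) hm h.int.integrableOn
  have a2 : mass g (N.Om ρ ∩ N.Om (ρ / 32)) ≤ mass g (N.Om (ρ / 32)) := h.mono inter_subset_right
  have a3 := norm_setIntegral_le_of_norm_le_const (μ := g.vol) (measure_lt_top _ _) hp
  have a4 : g.vol.real (N.Om ρ \ N.Om (ρ / 32)) ≤ V * ρ ^ 4 :=
    (measureReal_mono sdiff_subset).trans hV
  have a5 : (e / ρ ^ 2) ^ 2 * g.vol.real (N.Om ρ \ N.Om (ρ / 32)) ≤ V * e ^ 2 :=
    (mul_le_mul_of_nonneg_left a4 (by positivity)).trans (le_of_eq (by field_simp))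
  unfold mass at a2 ⊢
  linarith [(le_abs_self _).trans a3]

section
variable {F : Flow M} {τ : TopD M} {m1 : ℕ} {η V : ℝ} {Cs : ℕ → ℝ}

theorem lam_pos (h : τ.Ok F m1 η Cs V) (n : ℕ) : 0 < τ.lam n :=
  div_pos h.l0_pos (pow_pos (by linarith [h.K_ge]) n)

theorem lam_succ (h : τ.Ok F m1 η Cs V) (n : ℕ) : τ.lam n = τ.K * τ.lam (n + 1) := by
  have : 0 < τ.K := by linarith [h.K_ge]
  unfold TopD.lam; field_simp; ring

theorem lam_le (h : τ.Ok F m1 η Cs V) (n : ℕ) : τ.K * τ.lam n ≤ τ.R := by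
  have hK := h.K_ge
  have h1 : τ.lam n ≤ τ.l0 := div_le_self h.l0_pos.le (one_le_pow₀ (by linarith))
  have h2 : τ.K * τ.lam n ≤ τ.K ^ 2 * τ.l0 :=
    mul_le_mul (by nlinarith) h1 (lam_pos h n).le (by positivity)
  exact h2.trans h.l0_le

theorem t_lt (h : τ.Ok F m1 η Cs V) (n : ℕ) : τ.t n < τ.t (n + 1) := by
  have h1 := h.d_ge n
  have h2 := mul_pos h.c_pos (lam_pos h n)
  unfold TopD.d at h1; linarith

theorem mem_late (h : τ.Ok F m1 η Cs V) {n : ℕ} {s : ℝ} (h1 : τ.t n ≤ s) (h2 : s ≤ τ.t (n + 1)) :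
    s ∈ late F :=
  ⟨(h.t0.trans ((strictMono_nat_of_lt_succ (t_lt h)).monotone (Nat.zero_le n))).trans h1,
    h2.trans_lt (h.lt _)⟩

theorem P_ge (h : τ.Ok F m1 η Cs V) (n : ℕ) :
    τ.lam n ^ 4 ≤ τ.P n ∧ τ.lam n ^ 4 * τ.d n ≤ τ.P n := by
  have hd : ∀ n, 0 < τ.d n := fun n => sub_pos.2 (t_lt h n)
  have h1 : 1 ≤ τ.be n := one_le_mul_of_one_le_of_one_le (by simp) (le_add_of_nonneg_right
    (Finset.sum_nonneg fun j _ => div_nonneg (Real.sqrt_nonneg _) (Real.rpow_nonneg (hd _).le _)))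
  have h2 : τ.d n ≤ τ.be n ^ 2 * τ.d n := le_mul_of_one_le_left (hd n).le (one_le_pow₀ h1)
  have h3 : 0 ≤ τ.lam n ^ 4 := by positivity
  have := hd n
  exact ⟨le_mul_of_one_le_right h3 (by linarith), mul_le_mul_of_nonneg_left (by linarith) h3⟩

end

/-- the data of the final assembly -/
structure Geo (F : Flow M) (τ : TopD M) (m m1 : ℕ) (η : ℝ) (Cs : ℕ → ℝ) (V A0 C0 C1 C' L : ℝ)
    (n0 : ℕ) (W : ℝ → Nk M → ℝ → ℝ → Prop) (ρ : ℕ → ℝ) (e : ℕ → ℝ → ℝ) : Prop where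
  gm : ∀ s ∈ late F, Gm (F.m s)
  ok : τ.Ok F m1 η Cs V
  C0_pos : 0 < C0
  C1_pos : 0 < C1
  C'_pos : 0 < C'
  A0_ge : 128 ≤ A0
  ρ_lo : ∀ n, 64 * τ.K ^ 2 * τ.lam n ≤ ρ n
  ρ_lo' : ∀ n, A0 * τ.lam n ≤ ρ n
  ρ_up : ∀ n, ρ n ≤ L * τ.lam n
  ρ_R : ∀ n, n0 ≤ n → A0 * ρ n ≤ τ.R
  small : ∀ n, n0 ≤ n → 18 * (C0 + 2 * C') * L ^ 2 * τ.lam n ≤ τ.c
  ex : ∀ s ∈ late F, ∀ (N : Nk M) (ρ : ℝ), N.Top → N.b = τ.R → A0 * N.a ≤ ρ → A0 * ρ ≤ τ.R →
    Good (F.m s) N m1 η Cs V → ∃ φ, W s N ρ φ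
  win : ∀ (N : Nk M) (t0 t1 ρ : ℝ) (e : ℝ → ℝ) (e0 e1 p0 p1 : ℝ), F.T / 2 ≤ t0 → t0 < t1 →
    t1 < F.T → N.Top → N.b = τ.R → A0 * N.a ≤ ρ → A0 * ρ ≤ τ.R →
    (∀ s ∈ Icc t0 t1, Good (F.m s) N m1 η Cs V) → IntervalIntegrable e volume t0 t1 →
    IntervalIntegrable (fun s => e s ^ 2) volume t0 t1 →
    (∀ s ∈ Ioo t0 t1, Ebd (F.m s) N m ρ (e s)) → Ebd (F.m t0) N m ρ e0 →
    Ebd (F.m t1) N m ρ e1 → W t0 N ρ p0 → W t1 N ρ p1 →
    IntervalIntegrable (fun s => mass (F.m s) (N.Om (ρ / 16))) volume t0 t1 ∧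
    |p1 - p0 - 2 * ∫ s in t0..t1, mass (F.m s) (N.Om (ρ / 16))| ≤
      C0 * (∫ s in t0..t1, e s ^ 2) + C0 * ρ ^ 2 * (e0 ^ 2 + e1 ^ 2)
  sw : ∀ s N N' ρ ρ' φ φ' e e', W s N ρ φ → W s N' ρ' φ' →
    ρ ≤ L * τ.K * ρ' → ρ' ≤ L * τ.K * ρ → Cmp N N' (min ρ ρ' / 64) τ.R → Ebd (F.m s) N m ρ e →
    Ebd (F.m s) N' m ρ' e' → |φ - φ'| ≤ C' * ρ ^ 2 * (e ^ 2 + e' ^ 2) + C' * ρ ^ 5
  ie : ∀ n, n0 ≤ n → IntervalIntegrable (e n) volume (τ.t n) (τ.t (n + 1))
  ie2 : ∀ n, n0 ≤ n → IntervalIntegrable (fun s => e n s ^ 2) volume (τ.t n) (τ.t (n + 1))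
  eb : ∀ n, n0 ≤ n → ∀ u ∈ τ.I n, ∀ s, u ≤ s → s ≤ u + τ.c * τ.lam n →
    (s < τ.t (n + 1) → Ebd (F.m s) (τ.N u) m (ρ n) (e n s)) ∧
    (s ≤ τ.t (n + 1) → Ebd (F.m s) (τ.N u) m (ρ n) (C1 * τ.lam n))

namespace Geo

variable {F : Flow M} {τ : TopD M} {m m1 : ℕ} {η : ℝ} {Cs : ℕ → ℝ} {V A0 C0 C1 C' L : ℝ}
  {n0 : ℕ} {W : ℝ → Nk M → ℝ → ℝ → Prop} {ρ : ℕ → ℝ} {e : ℕ → ℝ → ℝ}
  (G : Geo F τ m m1 η Cs V A0 C0 C1 C' L n0 W ρ e)
include G

theorem rad (n : ℕ) : τ.lam n ≤ τ.K * τ.lam n ∧ τ.K * (τ.K * τ.lam n) ≤ ρ n / 64 ∧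
    τ.K * τ.lam n ≤ ρ n / 64 ∧ 1 ≤ L ∧ 0 < ρ n := by
  have hK := G.ok.K_ge
  have hl := lam_pos G.ok n
  have h1 := G.ρ_lo n
  have h2 : τ.lam n ≤ τ.K * τ.lam n := le_mul_of_one_le_left hl.le (by linarith)
  have h3 : τ.K * τ.lam n ≤ τ.K * (τ.K * τ.lam n) := le_mul_of_one_le_left (by linarith) (by linarith)
  have h4 : τ.K * (τ.K * τ.lam n) ≤ ρ n / 64 := by linarith
  exact ⟨h2, h4, h3.trans h4, le_of_mul_le_mul_right (by linarith [G.ρ_up n]) hl, by linarith⟩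

theorem radR {n : ℕ} (hn : n0 ≤ n) : 128 * ρ n ≤ τ.R :=
  (mul_le_mul_of_nonneg_right G.A0_ge (G.rad n).2.2.2.2.le).trans (G.ρ_R n hn)

theorem ex' {n : ℕ} (hn : n0 ≤ n) {u s : ℝ} (hu : u ∈ τ.I n) (h1 : u ≤ s)
    (h2 : s ≤ u + τ.c * τ.lam n) (h3 : s ≤ τ.t (n + 1)) : ∃ φ, W s (τ.N u) (ρ n) φ :=
  have hs := mem_late G.ok (hu.1.trans h1) h3
  G.ex s hs _ _ (G.ok.top n u hu) (G.ok.b_eq n u hu) (by rw [G.ok.a_eq n u hu]; exact G.ρ_lo' n)
    (G.ρ_R n hn) (G.ok.good n u hu s h1 h2 hs.2)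

theorem im {n : ℕ} (hn : n0 ≤ n) :
    IntervalIntegrable (τ.ms F (ρ n / 32)) volume (τ.t n) (τ.t (n + 1)) := by
  obtain ⟨h1, -, h2, -, h3⟩ := G.rad n
  exact G.ok.int n _ ⟨by linarith, by linarith [G.radR hn]⟩

/-- the truncated error function -/
theorem trunc {n : ℕ} (hn : n0 ≤ n) : ∃ ε : ℝ → ℝ,
    (∀ u ∈ τ.I n, ∀ s, u ≤ s → s ≤ u + τ.c * τ.lam n → s ≤ τ.t (n + 1) →
      Ebd (F.m s) (τ.N u) m (ρ n) (ε s)) ∧
    (∀ s, ε s ≤ C1 * τ.lam n) ∧ (∀ s ∈ Icc (τ.t n) (τ.t (n + 1)), 0 ≤ ε s) ∧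
    ∀ s, s < τ.t (n + 1) → ε s ≤ e n s := by
  have hc := mul_pos G.ok.c_pos (lam_pos G.ok n)
  refine ⟨fun s => if s < τ.t (n + 1) ∧ e n s ≤ C1 * τ.lam n then e n s else C1 * τ.lam n,
    fun u hu s h1 h2 h3 => ?_, fun s => ?_, fun s hs => ?_, fun s hs => ?_⟩ <;>
    beta_reduce <;> split_ifs with h
  · exact (G.eb n hn u hu s h1 h2).1 h.1
  · exact (G.eb n hn u hu s h1 h2).2 h3
  · exact h.2
  · exact le_rfl
  · exact ebd_nn ((G.eb n hn s ⟨hs.1, h.1⟩ s le_rfl (by linarith)).1 h.1)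
  · exact (mul_pos G.C1_pos (lam_pos G.ok n)).le
  · exact le_rfl
  · exact (not_le.1 fun h' => h ⟨hs, h'⟩).le

/-- comparison of the masses in two charts -/
theorem cmp_mass {n : ℕ} (hn : n0 ≤ n) {u s : ℝ} (hu : u ∈ τ.I n) (h1 : u ≤ s)
    (h2 : s ≤ u + τ.c * τ.lam n) (h3 : s < τ.t (n + 1)) :
    τ.ms F (ρ n / 32) s ≤ mass (F.m s) ((τ.N u).Om (ρ n / 16)) ∧
      mass (F.m s) ((τ.N u).Om (ρ n / 16)) ≤ V * (ρ n / 8) ^ 2 := by
  obtain ⟨r1, -, r2, -, r3⟩ := G.rad n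
  have r4 := G.radR hn
  have hs : s ∈ τ.I n := ⟨hu.1.trans h1, h3⟩
  have hg := G.gm s (mem_late G.ok hs.1 h3.le)
  have hc := G.ok.cmp n n u hu s hs _ le_rfl le_rfl (by
    rw [abs_sub_comm, abs_of_nonneg (by linarith)]
    linarith [mul_le_mul_of_nonneg_left r1 G.ok.c_pos.le])
  have c1 := (hc (ρ n / 16) ⟨by linarith, by linarith⟩).2
  have c2 := (hc (ρ n / 8) ⟨by linarith, by linarith⟩).1
  rw [show ρ n / 16 / 2 = ρ n / 32 by ring] at c1
  rw [show ρ n / 8 / 2 = ρ n / 16 by ring] at c2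
  exact ⟨hg.mono c1, (hg.mono c2).trans (G.ok.zb n s hs _ ⟨by linarith, by linarith⟩)⟩

theorem V_nn : 0 ≤ V := by
  have hl := lam_pos G.ok 0
  have hs : τ.t 0 ∈ τ.I 0 := ⟨le_rfl, t_lt G.ok 0⟩
  have h1 := G.ok.zb 0 _ hs (τ.lam 0) ⟨le_rfl, (G.rad 0).1.trans (lam_le G.ok 0)⟩
  have h2 := (G.gm _ (mem_late G.ok hs.1 hs.2.le)).mass_nn ((τ.N (τ.t 0)).Om (τ.lam 0))
  exact nonneg_of_mul_nonneg_left (h2.trans h1) (by positivity)

/-- a good time for the Lojasiewicz inequality -/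
theorem good {n : ℕ} (hn : n0 ≤ n) : ∃ s ∈ τ.I n, ∃ ε, 0 ≤ ε ∧ ε ≤ C1 * τ.lam n ∧
    Ebd (F.m s) (τ.N s) m (ρ n) ε ∧ τ.ms F (ρ n) s ≤ V * ρ n ^ 2 ∧
    √(τ.ms F (ρ n) s) + C0 * ε ≤
      (√(1 + V) + C0) * √((τ.Z F ρ n + ∫ s in τ.t n..τ.t (n + 1), e n s ^ 2) / τ.d n) := by
  obtain ⟨ε, e1, e2, e3, e4⟩ := G.trunc hn
  obtain ⟨r1, -, r2, -, r3⟩ := G.rad n
  have r4 := G.radR hn
  have hl := lam_pos G.ok n
  have hc := mul_pos G.ok.c_pos hl
  have hV := G.V_nn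
  obtain ⟨s, hs, h1⟩ := R.exists_good (t_lt G.ok n) ((G.im hn).add (G.ie2 n hn))
    (intervalIntegral.integral_add (G.im hn) (G.ie2 n hn)).le
  have hs' : s ∈ τ.I n := ⟨hs.1.le, hs.2⟩
  have hl' := mem_late G.ok hs.1.le hs.2.le
  have hg := G.gm s hl'
  have hE := e1 s hs' s le_rfl (by linarith) hs.2.le
  have h0 := e3 s ⟨hs.1.le, hs.2.le⟩
  have hr : ρ n ∈ Icc (τ.lam n) τ.R := ⟨by linarith, by linarith⟩
  have h2 := hg.mass_le (G.ok.top n s hs') (by rw [G.ok.a_eq n s hs']; linarith)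
    (by rw [G.ok.b_eq n s hs']; linarith) hE (G.ok.vol n s hs' s le_rfl (by linarith) hl'.2 _ hr)
  refine ⟨s, hs', ε s, h0, e2 s, hE, G.ok.zb n s hs' _ hr, ?_⟩
  set X := (τ.Z F ρ n + ∫ s in τ.t n..τ.t (n + 1), e n s ^ 2) / τ.d n with hX
  have h3 : τ.ms F (ρ n / 32) s + e n s ^ 2 ≤ X := h1
  have h4 : ε s ^ 2 ≤ e n s ^ 2 := pow_le_pow_left₀ h0 (e4 s hs.2) 2
  have h5 : 0 ≤ τ.ms F (ρ n / 32) s := hg.mass_nn _
  have h6 : ε s ≤ √X := Real.le_sqrt_of_sq_le (by linarith)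
  have h7 : √(τ.ms F (ρ n) s) ≤ √(1 + V) * √X := by
    rw [← Real.sqrt_mul (by linarith)]
    refine Real.sqrt_le_sqrt ?_
    have h8 : τ.ms F (ρ n) s ≤ τ.ms F (ρ n / 32) s + V * ε s ^ 2 := h2
    nlinarith [sq_nonneg (e n s), mul_le_mul_of_nonneg_left (show ε s ^ 2 ≤ X by linarith) hV]
  linarith [mul_le_mul_of_nonneg_left h6 G.C0_pos.le]

end Geo

end Crest.Agent.N207.As
end

-- ▼ part N207/R/Three
section

/-! Row 207, block R: the discrete ODE lemma, three terms back (helper87). -/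

set_option autoImplicit false
open Finset Filter

namespace Crest.Agent.N207.R

/-- The hypothesis of the discrete ODE lemma, three terms back. -/
structure Hyp3 (c C th kap : ℝ) (n0 : ℕ) (d z be : ℕ → ℝ) : Prop where
  c_pos : 0 < c
  C_nn : 0 ≤ C
  th_le : th ≤ 1 / 16
  kap_pos : 0 < kap
  kap_lt : kap < 1
  d_pos : ∀ n, 0 < d n
  d_sum : Summable d
  z_ge : ∀ n, c / d n ≤ z n
  be_ge : ∀ n, 1 ≤ be n
  step : ∀ n, n0 ≤ n → z (n + 3) ≤ th * (z n + z (n + 1) + z (n + 2)) +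
    C * (1 + ∑' m, kap ^ m * be (n + m) ^ 2 * d (n + m))

theorem sum_rec3 {w e : ℕ → ℝ} (hw : ∀ n, 0 ≤ w n) (he : ∀ n, 0 ≤ e n) {m : ℕ}
    (h : ∀ k, m ≤ k → w (k + 3) ≤ 1 / 16 * (w k + w (k + 1) + w (k + 2)) + e k) (N : ℕ) :
    ∑ n ∈ range N, w n ≤ 2 * ∑ n ∈ range (m + 3), w n + 2 * ∑ n ∈ range N, e n := by
  have mono : ∀ {f : ℕ → ℝ}, (∀ n, 0 ≤ f n) → ∀ {a b : ℕ}, a ≤ b →
      ∑ n ∈ range a, f n ≤ ∑ n ∈ range b, f n := fun hf _ _ hab =>
    sum_le_sum_of_subset_of_nonneg (range_mono hab) fun n _ _ => hf n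
  have key : ∀ j : ℕ, ∑ n ∈ range (m + j + 3), w n -
      1 / 16 * (∑ n ∈ range (m + j), w n + ∑ n ∈ range (m + j + 1), w n +
        ∑ n ∈ range (m + j + 2), w n) ≤
      ∑ n ∈ range (m + 3), w n + ∑ n ∈ range (m + j), e n := by
    intro j
    induction j with
    | zero =>
      have h1 : 0 ≤ ∑ n ∈ range m, w n := sum_nonneg fun n _ => hw n
      have h2 : 0 ≤ ∑ n ∈ range (m + 1), w n := sum_nonneg fun n _ => hw n
      have h2' : 0 ≤ ∑ n ∈ range (m + 2), w n := sum_nonneg fun n _ => hw n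
      have h3 : 0 ≤ ∑ n ∈ range m, e n := sum_nonneg fun n _ => he n
      simp only [Nat.add_zero]; linarith
    | succ j ih =>
      have h1 := h (m + j) (by omega)
      rw [← Nat.add_assoc]
      rw [sum_range_succ w (m + j + 3), sum_range_succ e (m + j)]
      rw [sum_range_succ w (m + j + 2), sum_range_succ w (m + j + 1), sum_range_succ w (m + j)]
        at ih ⊢
      linarith
  have hE : 0 ≤ ∑ n ∈ range N, e n := sum_nonneg fun n _ => he n
  have hW : 0 ≤ ∑ n ∈ range (m + 3), w n := sum_nonneg fun n _ => hw n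
  by_cases hN : N ≤ m + 3
  · have := mono hw hN; linarith
  · obtain ⟨j, rfl⟩ : ∃ j, N = m + j + 3 := ⟨N - m - 3, by omega⟩
    have h1 := key j
    have h2 := mono hw (show m + j ≤ m + j + 3 by omega)
    have h3 := mono hw (show m + j + 1 ≤ m + j + 3 by omega)
    have h3' := mono hw (show m + j + 2 ≤ m + j + 3 by omega)
    have h4 := mono he (show m + j ≤ m + j + 3 by omega)
    linarith

namespace Hyp3

variable {c C th kap : ℝ} {n0 : ℕ} {d z be : ℕ → ℝ}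

theorem z_pos (H : Hyp3 c C th kap n0 d z be) (n : ℕ) : 0 < z n :=
  lt_of_lt_of_le (div_pos H.c_pos (H.d_pos n)) (H.z_ge n)

theorem be_nn (H : Hyp3 c C th kap n0 d z be) (n : ℕ) : 0 ≤ be n := zero_le_one.trans (H.be_ge n)

theorem step' (H : Hyp3 c C th kap n0 d z be) (n : ℕ) (hn : n0 ≤ n) :
    z (n + 3) ≤ th * (z n + z (n + 1) + z (n + 2)) +
      C * (be n + ∑' m, kap ^ m * be (n + m) ^ 2 * d (n + m)) :=
  (H.step n hn).trans (add_le_add le_rfl
    (mul_le_mul_of_nonneg_left (add_le_add (H.be_ge n) le_rfl) H.C_nn))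

theorem d_le (H : Hyp3 c C th kap n0 d z be) (n : ℕ) : d n ≤ ∑' m, d m :=
  H.d_sum.le_tsum n fun m _ => (H.d_pos m).le

theorem sum_d_le (H : Hyp3 c C th kap n0 d z be) (m N : ℕ) :
    ∑ n ∈ range N, d (n + m) ≤ ∑' k, d k := by
  have h1 : ∑ n ∈ range N, d (n + m) = ∑ k ∈ (range N).map (addRightEmbedding m), d k := by
    rw [sum_map]; rfl
  rw [h1]
  exact H.d_sum.sum_le_tsum _ fun k _ => (H.d_pos k).le

/-- First pass. -/
theorem r1 (H : Hyp3 c C th kap n0 d z be) {B x : ℝ} (hx : 1 ≤ x) (hk : x ^ 2 * kap < 1)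
    (hb : ∀ n : ℕ, be n ≤ B * ((n : ℝ) + 1) * x ^ n) :
    ∃ C' : ℝ, 0 < C' ∧ ∀ n : ℕ, z n ≤ C' * ((n : ℝ) + 1) ^ 2 * x ^ (2 * n) := by
  have hx0 : 0 < x := by linarith
  have hB : 0 ≤ B := by have := (H.be_nn 0).trans (hb 0); simpa using this
  set D := ∑' m, d m with hD
  have hD0 : 0 ≤ D := (H.d_pos 0).le.trans (H.d_le 0)
  have hk0 : 0 < x ^ 2 * kap := mul_pos (by positivity) H.kap_pos
  have hs := summable_sq_geo hk0 hk
  set S := ∑' m : ℕ, (x ^ 2 * kap) ^ m * ((m : ℝ) + 1) ^ 2 with hS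
  have hS0 : 0 ≤ S := tsum_nonneg fun m => by positivity
  set W : ℕ → ℝ := fun n => ((n : ℝ) + 1) ^ 2 * x ^ (2 * n) with hW
  have hW1 : ∀ n, 1 ≤ W n := fun n => by
    have h1 : (1 : ℝ) ≤ ((n : ℝ) + 1) ^ 2 := one_le_pow₀ (by simp)
    have h2 : (1 : ℝ) ≤ x ^ (2 * n) := one_le_pow₀ hx
    exact one_le_mul_of_one_le_of_one_le h1 h2
  have hWm : ∀ n, W n ≤ W (n + 1) := fun n => by
    simp only [hW]
    have h1 : ((n : ℝ) + 1) ^ 2 ≤ (((n + 1 : ℕ) : ℝ) + 1) ^ 2 := by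
      push_cast; gcongr; linarith
    have h2 : x ^ (2 * n) ≤ x ^ (2 * (n + 1)) := pow_le_pow_right₀ hx (by omega)
    exact mul_le_mul h1 h2 (by positivity) (by positivity)
  have hL : ∀ n : ℕ, be n + ∑' m, kap ^ m * be (n + m) ^ 2 * d (n + m) ≤ (B + B ^ 2 * D * S) * W n := by
    intro n
    have h1 : be n ≤ B * W n := by
      refine (hb n).trans ?_
      simp only [hW]
      have h1 : ((n : ℝ) + 1) ≤ ((n : ℝ) + 1) ^ 2 := by nlinarith [Nat.cast_nonneg (α := ℝ) n]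
      have h2 : x ^ n ≤ x ^ (2 * n) := pow_le_pow_right₀ hx (by omega)
      rw [mul_assoc]
      exact mul_le_mul_of_nonneg_left (mul_le_mul h1 h2 (by positivity) (by positivity)) hB
    have h2 : ∀ m : ℕ, kap ^ m * be (n + m) ^ 2 * d (n + m) ≤
        B ^ 2 * D * W n * ((x ^ 2 * kap) ^ m * ((m : ℝ) + 1) ^ 2) := by
      intro m
      have h3 : be (n + m) ≤ B * (((n : ℝ) + 1) * ((m : ℝ) + 1)) * (x ^ n * x ^ m) := by
        refine (hb _).trans ?_
        rw [pow_add]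
        have : ((n + m : ℕ) : ℝ) + 1 ≤ ((n : ℝ) + 1) * ((m : ℝ) + 1) := by
          push_cast; nlinarith [Nat.cast_nonneg (α := ℝ) n, Nat.cast_nonneg (α := ℝ) m,
            mul_nonneg (Nat.cast_nonneg (α := ℝ) n) (Nat.cast_nonneg (α := ℝ) m)]
        gcongr
      have h4 : be (n + m) ^ 2 ≤ (B * (((n : ℝ) + 1) * ((m : ℝ) + 1)) * (x ^ n * x ^ m)) ^ 2 :=
        pow_le_pow_left₀ (H.be_nn _) h3 2
      have hk1 := H.kap_pos
      calc kap ^ m * be (n + m) ^ 2 * d (n + m)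
          ≤ kap ^ m * (B * (((n : ℝ) + 1) * ((m : ℝ) + 1)) * (x ^ n * x ^ m)) ^ 2 * D :=
            mul_le_mul (mul_le_mul_of_nonneg_left h4 (by positivity)) (H.d_le _) (H.d_pos _).le
              (by positivity)
        _ = _ := by simp only [hW]; rw [mul_pow (x ^ 2) kap, ← pow_mul, pow_mul' x 2 n, pow_mul' x 2 m]; ring
    have hsm : Summable fun m : ℕ => kap ^ m * be (n + m) ^ 2 * d (n + m) :=
      Summable.of_nonneg_of_le (fun m => by
        have := H.kap_pos; have := H.d_pos (n + m); positivity) h2 (hs.mul_left _)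
    have h5 := hsm.tsum_le_tsum h2 (hs.mul_left _)
    rw [tsum_mul_left] at h5
    nlinarith
  set C1 := C * (B + B ^ 2 * D * S) with hC1
  have hC10 : 0 ≤ C1 := mul_nonneg H.C_nn (by positivity)
  set M := 2 * C1 + ∑ k ∈ range (n0 + 3), z k with hM
  have hz0 : 0 < ∑ k ∈ range (n0 + 3), z k := sum_pos (fun k _ => H.z_pos k) (by simp)
  have hM0 : 0 < M := by linarith
  have key : ∀ n, z n ≤ M * W n := by
    intro n
    induction n using Nat.strong_induction_on with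
    | _ n ih =>
      by_cases hn : n < n0 + 3
      · have h1 : z n ≤ ∑ k ∈ range (n0 + 3), z k :=
          single_le_sum (f := z) (fun k _ => (H.z_pos k).le) (by simpa using hn)
        nlinarith [hW1 n]
      · obtain ⟨k, rfl⟩ : ∃ k, n = k + 3 := ⟨n - 3, by omega⟩
        have h1 := H.step' k (by omega)
        have h2 := ih k (by omega)
        have h3 := ih (k + 1) (by omega)
        have h3' := ih (k + 2) (by omega)
        have h4 := mul_le_mul_of_nonneg_left (hL k) H.C_nn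
        have h5 := hWm k
        have h6 := hWm (k + 1)
        have h6' := hWm (k + 2)
        have h7 := hW1 k
        have h8 : z k + z (k + 1) + z (k + 2) ≤ 3 * (M * W (k + 3)) := by nlinarith
        have h9 : th * (z k + z (k + 1) + z (k + 2)) ≤ 1 / 16 * (3 * (M * W (k + 3))) :=
          mul_le_mul H.th_le h8 (add_pos (add_pos (H.z_pos _) (H.z_pos _)) (H.z_pos _)).le
            (by norm_num)
        have h10 : C1 * W k ≤ C1 * W (k + 3) := mul_le_mul_of_nonneg_left (by linarith) hC10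
        have h11 : 2 * C1 * W (k + 3) ≤ M * W (k + 3) :=
          mul_le_mul_of_nonneg_right (by linarith) (by linarith)
        have h12 : 0 ≤ M * W (k + 3) := mul_nonneg hM0.le (by linarith)
        rw [← mul_assoc] at h4
        nlinarith
  exact ⟨M, hM0, fun n => by simpa [hW, mul_assoc] using key n⟩

/-- Second pass. -/
theorem r2 (H : Hyp3 c C th kap n0 d z be) {B : ℝ} (hb : ∀ n : ℕ, be n ≤ B * ((n : ℝ) + 1)) :
    False := by
  have hB : 0 ≤ B := by have := (H.be_nn 0).trans (hb 0); simpa using this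
  set D := ∑' m, d m with hD
  have hD0 : 0 ≤ D := (H.d_pos 0).le.trans (H.d_le 0)
  have hk := H.kap_pos
  have hs := summable_sq_geo H.kap_pos H.kap_lt
  set S := ∑' m : ℕ, kap ^ m * ((m : ℝ) + 1) ^ 2 with hS
  have hS0 : 0 ≤ S := tsum_nonneg fun m => by positivity
  set G : ℕ → ℝ := fun n => ∑' m : ℕ, kap ^ m * ((m : ℝ) + 1) ^ 2 * d (n + m) with hG
  have hGs : ∀ n, Summable fun m : ℕ => kap ^ m * ((m : ℝ) + 1) ^ 2 * d (n + m) := fun n =>
    Summable.of_nonneg_of_le (fun m => by have := H.d_pos (n + m); positivity)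
      (fun m => mul_le_mul_of_nonneg_left (H.d_le _) (by positivity)) (hs.mul_right D)
  have hGsum : ∀ N, ∑ n ∈ range N, G n ≤ S * D := by
    intro N
    simp only [hG]
    rw [← Summable.tsum_finsetSum fun n _ => hGs n, hS, ← tsum_mul_right]
    refine Summable.tsum_le_tsum (fun m => ?_) (summable_sum fun n _ => hGs n) (hs.mul_right D)
    rw [← mul_sum]
    exact mul_le_mul_of_nonneg_left (H.sum_d_le m N) (by positivity)
  have hG0 : ∀ n, 0 ≤ G n := fun n => tsum_nonneg fun m => by have := H.d_pos (n + m); positivity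
  set w : ℕ → ℝ := fun n => z n / ((n : ℝ) + 1) ^ 2 with hw
  have hw0 : ∀ n, 0 ≤ w n := fun n => div_nonneg (H.z_pos n).le (by positivity)
  set h : ℕ → ℝ := fun n => 1 / ((n : ℝ) + 1) with hh
  have hh0 : ∀ n, 0 < h n := fun n => by positivity
  have hstep : ∀ n : ℕ, n0 ≤ n →
      w (n + 3) ≤ 1 / 16 * (w n + w (n + 1) + w (n + 2)) + C * (B * h n + B ^ 2 * G n) := by
    intro n hk1
    have h1 := H.step' n hk1
    have hp : (0 : ℝ) < (n : ℝ) + 1 := by positivity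
    have h2 : ∀ m : ℕ, kap ^ m * be (n + m) ^ 2 * d (n + m) ≤
        B ^ 2 * ((n : ℝ) + 1) ^ 2 * (kap ^ m * ((m : ℝ) + 1) ^ 2 * d (n + m)) := by
      intro m
      have h3 : be (n + m) ≤ B * (((n : ℝ) + 1) * ((m : ℝ) + 1)) := by
        refine (hb _).trans ?_
        have : ((n + m : ℕ) : ℝ) + 1 ≤ ((n : ℝ) + 1) * ((m : ℝ) + 1) := by
          push_cast; nlinarith [Nat.cast_nonneg (α := ℝ) n, Nat.cast_nonneg (α := ℝ) m,
            mul_nonneg (Nat.cast_nonneg (α := ℝ) n) (Nat.cast_nonneg (α := ℝ) m)]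
        gcongr
      have h4 : be (n + m) ^ 2 ≤ (B * (((n : ℝ) + 1) * ((m : ℝ) + 1))) ^ 2 :=
        pow_le_pow_left₀ (H.be_nn _) h3 2
      have := H.d_pos (n + m)
      calc kap ^ m * be (n + m) ^ 2 * d (n + m)
          ≤ kap ^ m * (B * (((n : ℝ) + 1) * ((m : ℝ) + 1))) ^ 2 * d (n + m) := by gcongr
        _ = _ := by ring
    have hsm : Summable fun m : ℕ => kap ^ m * be (n + m) ^ 2 * d (n + m) :=
      Summable.of_nonneg_of_le (fun m => by have := H.d_pos (n + m); positivity) h2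
        ((hGs n).mul_left _)
    have h5 := hsm.tsum_le_tsum h2 ((hGs n).mul_left _)
    rw [tsum_mul_left] at h5
    have h6 : be n ≤ B * h n * ((n : ℝ) + 1) ^ 2 := by
      refine (hb n).trans (le_of_eq ?_)
      simp only [hh]; field_simp
    have h7 : z (n + 3) ≤ 1 / 16 * (z n + z (n + 1) + z (n + 2)) +
        C * (B * h n + B ^ 2 * G n) * ((n : ℝ) + 1) ^ 2 := by
      have h8 : th * (z n + z (n + 1) + z (n + 2)) ≤ 1 / 16 * (z n + z (n + 1) + z (n + 2)) :=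
        mul_le_mul_of_nonneg_right H.th_le
          (add_pos (add_pos (H.z_pos _) (H.z_pos _)) (H.z_pos _)).le
      have h9 : C * (be n + ∑' m, kap ^ m * be (n + m) ^ 2 * d (n + m)) ≤
          C * (B * h n * ((n : ℝ) + 1) ^ 2 + B ^ 2 * ((n : ℝ) + 1) ^ 2 * G n) :=
        mul_le_mul_of_nonneg_left (add_le_add h6 h5) H.C_nn
      nlinarith
    have ee : ∀ j : ℕ, j ≤ n + 3 → z j ≤ w j * (((n + 3 : ℕ) : ℝ) + 1) ^ 2 := by
      intro j hj
      have e1 : z j = w j * ((j : ℝ) + 1) ^ 2 := by simp only [hw]; field_simp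
      have : (j : ℝ) ≤ ((n + 3 : ℕ) : ℝ) := Nat.cast_le.2 hj
      have := hw0 j
      rw [e1]; gcongr
    have hA : 0 ≤ C * (B * h n + B ^ 2 * G n) :=
      mul_nonneg H.C_nn (add_nonneg (mul_nonneg hB (hh0 n).le) (mul_nonneg (by positivity) (hG0 n)))
    show z (n + 3) / (((n + 3 : ℕ) : ℝ) + 1) ^ 2 ≤ _
    rw [div_le_iff₀ (by positivity)]
    have q2 : ((n : ℝ) + 1) ^ 2 ≤ (((n + 3 : ℕ) : ℝ) + 1) ^ 2 := by push_cast; nlinarith
    have r0 := ee n (by omega)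
    have r1 := ee (n + 1) (by omega)
    have r2 := ee (n + 2) (by omega)
    have r3 := mul_le_mul_of_nonneg_left q2 hA
    nlinarith
  set A0 := ∑ k ∈ range (n0 + 3), w k with hA0
  have hsumw : ∀ N, ∑ n ∈ range N, w n ≤
      2 * A0 + 2 * (C * (B * ∑ n ∈ range N, h n + B ^ 2 * (S * D))) := by
    intro N
    have h1 := sum_rec3 (e := fun n => C * (B * h n + B ^ 2 * G n)) hw0
      (fun n => mul_nonneg H.C_nn (add_nonneg (mul_nonneg hB (hh0 n).le)
        (mul_nonneg (by positivity) (hG0 n)))) hstep N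
    have h2 : ∑ n ∈ range N, C * (B * h n + B ^ 2 * G n) =
        C * (B * ∑ n ∈ range N, h n + B ^ 2 * ∑ n ∈ range N, G n) := by
      rw [← mul_sum, sum_add_distrib, ← mul_sum, ← mul_sum]
    have h3 : C * (B * ∑ n ∈ range N, h n + B ^ 2 * ∑ n ∈ range N, G n) ≤
        C * (B * ∑ n ∈ range N, h n + B ^ 2 * (S * D)) := by
      have := H.C_nn
      have := hGsum N
      gcongr
    linarith
  -- AM-GM
  have hc := H.c_pos
  set K := 2 * C * B + 1 with hK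
  have hK0 : 0 < K := by have := mul_nonneg H.C_nn hB; nlinarith
  have hag : ∀ n, 2 * K * h n ≤ w n + K ^ 2 / c * d n := by
    intro n
    have hd := H.d_pos n
    have h1 : c / d n * h n ^ 2 ≤ w n := by
      have : w n = z n * h n ^ 2 := by simp only [hw, hh]; field_simp
      rw [this]; exact mul_le_mul_of_nonneg_right (H.z_ge n) (by positivity)
    have h2 : c / d n * h n ^ 2 + K ^ 2 / c * d n - 2 * K * h n =
        (c * h n - K * d n) ^ 2 / (c * d n) := by field_simp; ring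
    have h3 : 0 ≤ (c * h n - K * d n) ^ 2 / (c * d n) := by positivity
    linarith
  have hbd : ∀ N, ∑ n ∈ range N, h n ≤ 2 * A0 + 2 * (C * (B ^ 2 * (S * D))) + K ^ 2 / c * D := by
    intro N
    have h1 : ∑ n ∈ range N, 2 * K * h n ≤ ∑ n ∈ range N, (w n + K ^ 2 / c * d n) :=
      sum_le_sum fun n _ => hag n
    rw [← mul_sum, sum_add_distrib, ← mul_sum] at h1
    have h2 := hsumw N
    have h3 : ∑ n ∈ range N, d n ≤ D := by simpa using H.sum_d_le 0 N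
    have h4 : K ^ 2 / c * ∑ n ∈ range N, d n ≤ K ^ 2 / c * D := by gcongr
    have h5 : 0 ≤ ∑ n ∈ range N, h n := sum_nonneg fun n _ => (hh0 n).le
    have h6 := mul_nonneg (mul_nonneg H.C_nn hB) h5
    nlinarith
  have hsum : Summable h := summable_of_sum_range_le (fun n => (hh0 n).le) hbd
  apply Real.not_summable_one_div_natCast
  rw [← summable_nat_add_iff 1]
  simpa [hh] using hsum

/-- Both passes: the memory term is `∑ aₘ^(1/2) d_(m+1)^(-3/4)`, `aₘ = a0 / K^m`. -/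
theorem two (H : Hyp3 c C th kap n0 d z be)
    {K a0 c0 B : ℝ} (hK : 1 < K) (ha0 : 0 < a0) (hc0 : 0 < c0) (hkap : kap * K ≤ 1)
    (hd : ∀ n, c0 * (a0 / K ^ n) ≤ d n)
    (hbe : ∀ n : ℕ, be n ≤ B * ((n : ℝ) + 1) *
      (1 + ∑ m ∈ range (n - 1), (a0 / K ^ m) ^ (1 / 2 : ℝ) * d (m + 1) ^ (-(3 / 4) : ℝ))) :
    False :=
  two_core H.c_pos H.kap_pos H.d_pos H.z_ge H.be_nn H.r1 H.r2 hK ha0 hc0 hkap hd hbe


end Hyp3

end Crest.Agent.N207.R
end

-- ▼ part N207/Sk/As2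
section

/-! Row 207, final assembly, part 2 (helper87): the discrete argument. -/

set_option autoImplicit false
open Finset Filter Topology

namespace Crest.Agent.N207.As

open R

/-- the memory term -/
noncomputable def mm (K l0 : ℝ) (d : ℕ → ℝ) (n : ℕ) : ℝ :=
  1 + ∑ m ∈ range (n - 1), (l0 / K ^ m) ^ (1 / 2 : ℝ) * d (m + 1) ^ (-(3 / 4) : ℝ)

/-- first bound for the memory term -/
theorem mm_le {K l0 c : ℝ} {d : ℕ → ℝ} (hK : 1 < K) (h0 : 0 < l0) (hc : 0 < c)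
    (hd : ∀ n, c * (l0 / K ^ n) ≤ d n) :
    ∃ A x, 0 ≤ A ∧ 1 < x ∧ x ^ 4 = K ∧ ∀ n, mm K l0 d n ≤ A * x ^ n := by
  have hK0 : 0 < K := by linarith
  set x := K ^ (1 / 4 : ℝ) with hx
  have hx1 : 1 < x := Real.one_lt_rpow hK (by norm_num)
  have hx0 : 0 < x := by linarith
  have hx4 : x ^ 4 = K := by
    rw [hx, ← Real.rpow_natCast, ← Real.rpow_mul hK0.le]; norm_num
  have r4 : ∀ (u : ℝ), 0 < u → ∀ (k : ℕ) (e : ℝ), (k : ℝ) = 4 * e → (u ^ 4) ^ e = u ^ k := by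
    intro u hu k e he
    rw [← Real.rpow_natCast u 4, ← Real.rpow_mul hu.le, ← Real.rpow_natCast u k, he]; norm_num
  set A1 := l0 ^ (1 / 2 : ℝ) * (c * l0) ^ (-(3 / 4) : ℝ) * x ^ 3 with hA1
  have hA10 : 0 ≤ A1 := by positivity
  have p1 : ∀ m : ℕ, (l0 / K ^ m) ^ (1 / 2 : ℝ) * d (m + 1) ^ (-(3 / 4) : ℝ) ≤ A1 * x ^ m := by
    intro m
    have ha : (l0 / K ^ m) ^ (1 / 2 : ℝ) = l0 ^ (1 / 2 : ℝ) / x ^ (2 * m) := by
      rw [Real.div_rpow h0.le (by positivity), ← hx4, ← pow_mul, mul_comm 4 m, pow_mul,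
        r4 _ (by positivity) 2 _ (by norm_num), ← pow_mul, mul_comm m 2]
    have h1 : c * (l0 / K ^ (m + 1)) = c * l0 / (x ^ (m + 1)) ^ 4 := by
      rw [← hx4, ← pow_mul, ← pow_mul, mul_comm 4]; ring
    have h2 := Real.rpow_le_rpow_of_nonpos (by positivity) (hd (m + 1))
      (show (-(3 / 4) : ℝ) ≤ 0 by norm_num)
    rw [h1, Real.div_rpow (by positivity) (by positivity),
      Real.rpow_neg (x := (x ^ (m + 1)) ^ 4) (by positivity), r4 _ (by positivity) 3 _ (by norm_num),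
      div_inv_eq_mul] at h2
    rw [ha]
    refine (mul_le_mul_of_nonneg_left h2 (by positivity)).trans (le_of_eq ?_)
    simp only [hA1]; field_simp; ring
  have h4 : 0 < x - 1 := by linarith
  refine ⟨1 + A1 / (x - 1), x, by positivity, hx1, hx4, fun n => ?_⟩
  have h1 := sum_le_sum (s := range (n - 1)) fun m _ => p1 m
  rw [← mul_sum] at h1
  have h2 := geo_sum_le hx1 (n - 1)
  have h3 : x ^ (n - 1) ≤ x ^ n := pow_le_pow_right₀ hx1.le (by omega)
  have h5 : A1 * ∑ m ∈ range (n - 1), x ^ m ≤ A1 * (x ^ n / (x - 1)) := by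
    refine mul_le_mul_of_nonneg_left (h2.trans ?_) hA10; gcongr
  have h6 : (1 : ℝ) ≤ x ^ n := one_le_pow₀ hx1.le
  have h7 : (1 + A1 / (x - 1)) * x ^ n = x ^ n + A1 * (x ^ n / (x - 1)) := by ring
  unfold mm
  linarith

/-- the output of the continuous part -/
structure Dis (K l0 c CE C θ : ℝ) (n1 : ℕ) (d be Z E P p q : ℕ → ℝ) : Prop where
  K_ge : 2 ≤ K
  l0_pos : 0 < l0
  c_pos : 0 < c
  CE_nn : 0 ≤ CE
  C_nn : 0 ≤ C
  θ_nn : 0 ≤ θ
  θ_le : θ ≤ 1
  θ_le' : 3 * CE * θ * K ^ 12 ≤ 1 / 32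
  d_ge : ∀ n, c * (l0 / K ^ n) ≤ d n
  d_sum : Summable d
  be_eq : ∀ n : ℕ, be n = ((n : ℝ) + 1) * mm K l0 d n
  P_eq : ∀ n, P n = (l0 / K ^ n) ^ 4 * (1 + be n ^ 2 * d n)
  Z_nn : ∀ n, 0 ≤ Z n
  drop : ∀ n, n1 ≤ n → c * (l0 / K ^ n) ^ 4 ≤ d n * (Z n + (l0 / K ^ n) ^ 4)
  Z_le : ∀ n, n1 ≤ n → Z n ≤ C * ((l0 / K ^ n) ^ 2 * d n)
  E_le : ∀ n, n1 ≤ n → E (n + 2) ≤ θ * (Z n + Z (n + 1) + Z (n + 2)) + C * (P n + P (n + 1) + P (n + 2))
  p_le : ∀ n, n1 + 2 ≤ n → |p n| ≤ C * (l0 / K ^ n) ^ 2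
  p_lo : ∀ n, n1 + 2 ≤ n → 2 * Z n - CE * E n - C * P n ≤ p (n + 1) - p n
  p_up : ∀ n, n1 + 2 ≤ n → p (n + 1) - p n ≤ C * ((l0 / K ^ n) ^ 2 * d n) + CE * E n + C * P n
  q_lo : ∀ n, n1 + 2 ≤ n → -(CE * E n) - C * P n ≤ p (n + 1) - q n
  q_up : ∀ n, n1 + 2 ≤ n → p (n + 1) - q n ≤ C * ((l0 / K ^ n) ^ 2 * d n) + CE * E n + C * P n
  wl : ∀ η > 0, ∃ δ > 0, ∃ Cw ≥ 0, ∃ N, ∀ n, N ≤ n → |q n| ≤ δ * (l0 / K ^ n) ^ 2 →
    |q n| ≤ η * (l0 / K ^ n) ^ 2 * √((Z n + E n) / d n) + Cw * (l0 / K ^ n) ^ 4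

theorem sum3 {f : ℕ → ℝ} (hf : ∀ n, 0 ≤ f n) (k N : ℕ) :
    ∑ j ∈ range N, (f (k + j) + f (k + j + 1) + f (k + j + 2)) ≤ 3 * ∑ j ∈ range (N + 2), f (k + j) := by
  induction N with
  | zero => simp only [range_zero, sum_empty]; exact mul_nonneg (by norm_num) (sum_nonneg fun _ _ => hf _)
  | succ N ih =>
    clear ih
    have h : ∀ i, i ≤ 2 → ∑ j ∈ range (N + 1), f (k + j + i) ≤ ∑ j ∈ range (N + 1 + 2), f (k + j) := by
      intro i hi
      have h1 : ∑ j ∈ range (N + 1), f (k + j + i) =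
          ∑ j ∈ (range (N + 1)).map (addRightEmbedding i), f (k + j) := by
        rw [sum_map]; exact sum_congr rfl fun j _ => by rw [add_assoc]; rfl
      rw [h1]
      refine sum_le_sum_of_subset_of_nonneg (fun j hj => ?_) fun _ _ _ => hf _
      obtain ⟨a, ha, rfl⟩ := mem_map.1 hj
      have := mem_range.1 ha
      exact mem_range.2 (by simp only [addRightEmbedding_apply]; omega)
    rw [sum_add_distrib, sum_add_distrib]
    have h0 := h 0 (by omega)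
    simp only [add_zero] at h0
    linarith [h 1 (by omega), h 2 (by omega)]

theorem fin_alg {L l z0 z1 z2 Z0 Z1 Z2 Z3 q E d G Pt a C C4 Cw c η l2 : ℝ} (hl : 0 < l) (hL : 0 ≤ L)
    (hc : 0 < c) (hη : 0 ≤ η) (hd : 0 < d) (hC : 0 ≤ C) (hC4 : 0 ≤ C4) (hG : 0 ≤ G) (ha : 0 ≤ a)
    (hCw : 0 ≤ Cw) (h0 : 0 ≤ z0) (h1 : 0 ≤ z1) (h2 : 0 ≤ z2) (hl2 : 0 ≤ l2) (hl3 : l2 ≤ l)
    (hZ : Z0 + Z1 + Z2 ≤ l ^ 4 * (z0 + z1 + z2)) (hZ2 : Z2 ≤ l ^ 4 * (z0 + z1 + z2))
    (hPt : Pt ≤ l ^ 4 * (2 + G)) (hE : E ≤ (Z0 + Z1 + Z2) + C * Pt) (hdz : c / d ≤ z2)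
    (hq : q ≤ η * l2 ^ 2 * √((Z2 + E) / d) + Cw * l2 ^ 4)
    (h3 : Z3 ≤ q + a * (Z0 + Z1 + Z2) + C4 * Pt) (s1 : a * L ≤ 1 / 32)
    (s2 : η * (1 + 1 / c) * L ≤ 1 / 32) :
    Z3 * L / l ^ 4 + 1 ≤ 1 / 16 * (z0 + z1 + z2) + (1 + L * (2 * η * C + Cw + 2 * C4)) * (1 + G) := by
  set s := z0 + z1 + z2 with hs
  have hs0 : 0 ≤ s := by positivity
  have hl4 : 0 < l ^ 4 := by positivity
  set X := 2 * s + C * (2 + G) with hX
  have hX0 : 0 ≤ X := by positivity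
  have e1 : Z2 + E ≤ l ^ 4 * X := by nlinarith [mul_le_mul_of_nonneg_left hPt hC]
  have e2 : 1 / d ≤ s / c := by
    rw [div_le_iff₀ hd] at hdz
    rw [div_le_div_iff₀ hd hc]; nlinarith [mul_nonneg (add_nonneg h0 h1) hd.le]
  have e3 : √((Z2 + E) / d) ≤ l ^ 2 * ((X + s / c) / 2) := by
    refine Real.sqrt_le_iff.2 ⟨by positivity, ?_⟩
    calc (Z2 + E) / d = (Z2 + E) * (1 / d) := by ring
      _ ≤ l ^ 4 * X * (s / c) := mul_le_mul e1 e2 (by positivity) (by positivity)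
      _ = l ^ 4 * (X * (s / c)) := by ring
      _ ≤ l ^ 4 * ((X + s / c) / 2) ^ 2 := by gcongr; nlinarith [sq_nonneg (X - s / c)]
      _ = _ := by ring
  have e4 : q ≤ l ^ 4 * (η * ((X + s / c) / 2) + Cw) := by
    refine hq.trans ?_
    calc _ ≤ η * l ^ 2 * (l ^ 2 * ((X + s / c) / 2)) + Cw * l ^ 4 := by gcongr
      _ = _ := by ring
  have e5 : Z3 ≤ l ^ 4 * (η * ((X + s / c) / 2) + Cw + a * s + C4 * (2 + G)) := by
    nlinarith [mul_le_mul_of_nonneg_left hZ ha, mul_le_mul_of_nonneg_left hPt hC4]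
  have e6 : Z3 * L / l ^ 4 ≤ (η * ((X + s / c) / 2) + Cw + a * s + C4 * (2 + G)) * L := by
    rw [div_le_iff₀ hl4]; nlinarith [mul_le_mul_of_nonneg_right e5 hL]
  have e7 : η * ((X + s / c) / 2) ≤ η * (1 + 1 / c) * s + η * C * (2 * (1 + G)) := by
    have : (X + s / c) / 2 ≤ (1 + 1 / c) * s + C * (2 * (1 + G)) := by
      have : 0 ≤ s / c := by positivity
      have : 1 / c * s = s / c := by ring
      nlinarith [mul_nonneg hC hG]
    nlinarith [mul_le_mul_of_nonneg_left this hη]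
  have e8 := mul_le_mul_of_nonneg_right e7 hL
  have e9 := mul_le_mul_of_nonneg_right s1 hs0
  have e10 := mul_le_mul_of_nonneg_right s2 hs0
  nlinarith [mul_nonneg (mul_nonneg hL hCw) hG, mul_nonneg (mul_nonneg hL hC4) hG]

theorem Dis.false {K l0 c CE C θ : ℝ} {n1 : ℕ} {d be Z E P p q : ℕ → ℝ}
    (H : Dis K l0 c CE C θ n1 d be Z E P p q) : False := by
  have hK : 1 < K := by linarith [H.K_ge]
  have hK0 : 0 < K := by linarith
  have hl0 := H.l0_pos
  have hc := H.c_pos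
  have hC := H.C_nn
  have hCE := H.CE_nn
  have hθ := H.θ_nn
  set l : ℕ → ℝ := fun n => l0 / K ^ n with hl
  have hlp : ∀ n, 0 < l n := fun n => by positivity
  have hla : ∀ n j, l (n + j) ≤ l n := fun n j =>
    div_le_div_of_nonneg_left hl0.le (by positivity) (pow_le_pow_right₀ hK.le (by omega))
  have hdp : ∀ n, 0 < d n := fun n => lt_of_lt_of_le (by positivity) (H.d_ge n)
  set D := ∑' n, d n with hD
  have hdD : ∀ n, d n ≤ D := fun n => H.d_sum.le_tsum n fun m _ => (hdp m).le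
  have hD0 : 0 ≤ D := (hdp 0).le.trans (hdD 0)
  have hm1 : ∀ n, 1 ≤ mm K l0 d n := fun n => le_add_of_nonneg_right (sum_nonneg fun m _ =>
    mul_nonneg (by positivity) (Real.rpow_nonneg (hdp _).le _))
  have hb1 : ∀ n, 1 ≤ be n := fun n => by
    rw [H.be_eq]; exact one_le_mul_of_one_le_of_one_le (by simp) (hm1 n)
  have hP0 : ∀ n, 0 ≤ P n := fun n => by rw [H.P_eq]; have := hdp n; positivity
  obtain ⟨A, x, hA, hx1, hx4, hmA⟩ := mm_le hK hl0 hc H.d_ge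
  have hx0 : 0 < x := by linarith
  have hxi : x⁻¹ < 1 := inv_lt_one_of_one_lt₀ hx1
  have hs2 := summable_sq_geo (inv_pos.2 hx0) hxi
  set g : ℕ → ℝ := fun m => d m + l0 ^ 2 * (1 + A ^ 2 * D) * (x⁻¹ ^ m * ((m : ℝ) + 1) ^ 2) with hg
  have hgs : Summable g := H.d_sum.add (hs2.mul_left _)
  have hdg : ∀ m, d m ≤ g m := fun m => le_add_of_nonneg_right (by positivity)
  have hPg : ∀ m, P m ≤ l m ^ 2 * g m := by
    intro m
    have h1 : be m ≤ ((m : ℝ) + 1) * (A * x ^ m) := by rw [H.be_eq]; have := hmA m; gcongr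
    have h2 : be m ^ 2 * d m ≤ (((m : ℝ) + 1) * (A * x ^ m)) ^ 2 * D :=
      mul_le_mul (pow_le_pow_left₀ (by linarith [hb1 m]) h1 2) (hdD m) (hdp m).le (by positivity)
    set y := x ^ m with hy
    have hy1 : 1 ≤ y := one_le_pow₀ hx1.le
    have hl2 : l m = l0 / y ^ 4 := by simp only [hl, hy]; rw [← hx4, ← pow_mul, ← pow_mul, mul_comm]
    have hm : (1 : ℝ) ≤ ((m : ℝ) + 1) ^ 2 := one_le_pow₀ (by simp)
    have h3 : l m ^ 2 * (1 + be m ^ 2 * d m) ≤
        l0 ^ 2 * (1 + A ^ 2 * D) * (x⁻¹ ^ m * ((m : ℝ) + 1) ^ 2) := by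
      rw [hl2, inv_pow, ← hy]
      have h4 : 1 + be m ^ 2 * d m ≤ (1 + A ^ 2 * D) * ((m : ℝ) + 1) ^ 2 * y ^ 7 := by
        have h5 : y ^ 2 ≤ y ^ 7 := pow_le_pow_right₀ hy1 (by norm_num)
        have h6 : (1 : ℝ) ≤ ((m : ℝ) + 1) ^ 2 * y ^ 7 :=
          one_le_mul_of_one_le_of_one_le hm (one_le_pow₀ hy1)
        have h7 : (((m : ℝ) + 1) * (A * y)) ^ 2 * D ≤ A ^ 2 * D * ((m : ℝ) + 1) ^ 2 * y ^ 7 := by
          calc _ = A ^ 2 * D * ((m : ℝ) + 1) ^ 2 * y ^ 2 := by ring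
            _ ≤ _ := by gcongr
        nlinarith
      calc _ ≤ (l0 / y ^ 4) ^ 2 * ((1 + A ^ 2 * D) * ((m : ℝ) + 1) ^ 2 * y ^ 7) := by gcongr
        _ = _ := by field_simp
    rw [H.P_eq]
    calc _ = l m ^ 2 * (l m ^ 2 * (1 + be m ^ 2 * d m)) := by simp only [hl]; ring
      _ ≤ _ := mul_le_mul_of_nonneg_left (h3.trans (le_add_of_nonneg_left (hdp m).le)) (by positivity)
  have hg0 : ∀ m, 0 ≤ g m := fun m => (hdp m).le.trans (hdg m)
  set tl : ℕ → ℝ := fun k => ∑' j, g (j + k) with htl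
  have htl0 : Tendsto tl atTop (𝓝 0) := tendsto_sum_nat_add g
  have hsum : ∀ {f : ℕ → ℝ} {B : ℝ} (k N : ℕ), 0 ≤ B → (∀ j, f (k + j) ≤ B * (l (k + j) ^ 2 * g (k + j))) →
      ∑ j ∈ range N, f (k + j) ≤ B * (l k ^ 2 * tl k) := by
    intro f B k N hB hf
    calc _ ≤ ∑ j ∈ range N, B * (l k ^ 2 * g (j + k)) := sum_le_sum fun j _ => (hf j).trans (by
            have := hla k j; have := hlp (k + j); have := hg0 (k + j); rw [add_comm j k]; gcongr)
      _ = B * (l k ^ 2 * ∑ j ∈ range N, g (j + k)) := by rw [mul_sum, mul_sum]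
      _ ≤ _ := by
        have := ((summable_nat_add_iff k).2 hgs).sum_le_tsum (range N) fun j _ => hg0 _
        gcongr
  set kap := (K ^ 4)⁻¹ with hkap
  have hkp : 0 < kap := by positivity
  have hK4 : 16 ≤ K ^ 4 := le_trans (by norm_num) (pow_le_pow_left₀ (by norm_num) H.K_ge 4)
  have hk1 : kap ≤ 1 / 2 := by rw [hkap, one_div]; exact inv_anti₀ (by norm_num) (by linarith)
  have hqa : ∀ n m, l (n + m) ^ 4 = l n ^ 4 * kap ^ m := fun n m => by
    simp only [hl, hkap, inv_pow]; field_simp; ring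
  have hPs : Summable P := Summable.of_nonneg_of_le hP0 (fun m => (hPg m).trans (by
    have := hla 0 m; rw [zero_add] at this; have := hlp m; have := hg0 m; gcongr)) (hgs.mul_left (l 0 ^ 2))
  have hPk : ∀ k j, P (k + j) = l k ^ 4 * (kap ^ j + kap ^ j * be (k + j) ^ 2 * d (k + j)) := fun k j => by
    rw [H.P_eq]; change l (k + j) ^ 4 * _ = _; rw [hqa]; ring
  have hG : ∀ k, Summable fun j : ℕ => kap ^ j * be (k + j) ^ 2 * d (k + j) := by
    intro k
    have h1 := ((summable_nat_add_iff k).2 hPs).mul_left (l k ^ 4)⁻¹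
    refine Summable.of_nonneg_of_le (fun m => by have := hdp (k + m); positivity) (fun m => ?_) h1
    have := hlp k
    rw [add_comm m k, hPk, inv_mul_cancel_left₀ (by positivity)]
    exact le_add_of_nonneg_left (by positivity)
  set G : ℕ → ℝ := fun k => ∑' j : ℕ, kap ^ j * be (k + j) ^ 2 * d (k + j) with hGd
  have hG0 : ∀ k, 0 ≤ G k := fun k => tsum_nonneg fun m => by have := hdp (k + m); positivity
  have hPt : ∀ k N, ∑ j ∈ range N, P (k + j) ≤ l k ^ 4 * (2 + G k) := by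
    intro k N
    simp only [hPk]
    rw [← mul_sum, sum_add_distrib]
    have h1 : ∑ j ∈ range N, kap ^ j ≤ 2 := by
      refine (sum_le_sum fun j _ => pow_le_pow_left₀ hkp.le hk1 j).trans ?_
      exact (summable_geometric_two.sum_le_tsum _ fun _ _ => by positivity).trans tsum_geometric_two.le
    have h2 := (hG k).sum_le_tsum (range N) fun m _ => by have := hdp (k + m); positivity
    have := hlp k
    gcongr
  have hEs : ∀ k, n1 ≤ k → ∀ N, ∑ j ∈ range N, E (k + 2 + j) ≤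
      θ * (3 * ∑ j ∈ range (N + 2), Z (k + j)) + C * (3 * ∑ j ∈ range (N + 2), P (k + j)) := by
    intro k hk N
    calc _ ≤ ∑ j ∈ range N, (θ * (Z (k + j) + Z (k + j + 1) + Z (k + j + 2)) +
          C * (P (k + j) + P (k + j + 1) + P (k + j + 2))) := sum_le_sum fun j _ => by
            rw [add_right_comm]; exact H.E_le _ (by omega)
      _ ≤ _ := by
        rw [sum_add_distrib, ← mul_sum, ← mul_sum]
        have := sum3 H.Z_nn k N; have := sum3 hP0 k N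
        gcongr
  have hsh : ∀ {f : ℕ → ℝ}, (∀ m, 0 ≤ f m) → ∀ k N,
      ∑ j ∈ range N, f (k + 2 + j) ≤ ∑ j ∈ range (N + 2), f (k + j) := fun {f} hf k N => by
    rw [add_comm N 2, sum_range_add]
    simp only [add_assoc]
    exact le_add_of_nonneg_left (sum_nonneg fun _ _ => hf _)
  have hP2 := hsh hP0
  have tlo : ∀ k, n1 ≤ k → ∀ N, 2 * ∑ j ∈ range N, Z (k + 3 + j) - CE * ∑ j ∈ range (N + 1), E (k + 2 + j)
      - C * ∑ j ∈ range (N + 1), P (k + 2 + j) ≤ p (k + 3 + N) - q (k + 2) := by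
    intro k hk N
    induction N with
    | zero => simpa using H.q_lo (k + 2) (by omega)
    | succ N ih =>
      have h1 := H.p_lo (k + 3 + N) (by omega)
      rw [sum_range_succ, sum_range_succ _ (N + 1), sum_range_succ _ (N + 1),
        show k + 2 + (N + 1) = k + 3 + N by omega, ← add_assoc]
      linarith
  have tup : ∀ k, n1 ≤ k → ∀ N, p (k + 3 + N) - q (k + 2) ≤
      C * ∑ j ∈ range (N + 1), l (k + 2 + j) ^ 2 * d (k + 2 + j)
      + CE * ∑ j ∈ range (N + 1), E (k + 2 + j) + C * ∑ j ∈ range (N + 1), P (k + 2 + j) := by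
    intro k hk N
    induction N with
    | zero => simpa using H.q_up (k + 2) (by omega)
    | succ N ih =>
      have h1 := H.p_up (k + 3 + N) (by omega)
      rw [sum_range_succ _ (N + 1), sum_range_succ _ (N + 1), sum_range_succ _ (N + 1),
        show k + 2 + (N + 1) = k + 3 + N by omega, ← add_assoc]
      linarith
  have hl0' : Tendsto l atTop (𝓝 0) := tendsto_const_nhds.div_atTop (tendsto_pow_atTop_atTop_of_one_lt hK)
  have hplim : ∀ k, Tendsto (fun N => p (k + 3 + N)) atTop (𝓝 0) := fun k => by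
    have h1 : Tendsto p atTop (𝓝 0) := by
      have h2 := (hl0'.pow 2).const_mul C
      rw [zero_pow two_ne_zero, mul_zero] at h2
      exact squeeze_zero_norm' ((eventually_ge_atTop (n1 + 2)).mono fun n hn => H.p_le n hn) h2
    exact h1.comp (tendsto_atTop_mono (fun N => Nat.le_add_left N (k + 3)) tendsto_id)
  set C5 := C + CE * (θ * (3 * C) + C * 3) + C with hC5
  have hq : ∀ k, n1 ≤ k → |q (k + 2)| ≤ C5 * (l k ^ 2 * tl k) := by
    intro k hk
    have hW : 0 ≤ l k ^ 2 * tl k := mul_nonneg (by positivity) (tsum_nonneg fun _ => hg0 _)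
    have h1 : ∀ N, |p (k + 3 + N) - q (k + 2)| ≤ C5 * (l k ^ 2 * tl k) := by
      intro N
      have a1 := hsum (f := Z) k (N + 1 + 2) hC fun j => (H.Z_le _ (by omega)).trans (by
        have := hdg (k + j); change C * (l (k + j) ^ 2 * _) ≤ _; gcongr)
      have a2 := hsum (f := P) (B := 1) k (N + 1 + 2) zero_le_one fun j => by rw [one_mul]; exact hPg _
      have a3 := hsum (f := fun m => l m ^ 2 * d m) (B := 1) k (N + 1 + 2) zero_le_one fun j => by
        have := hdg (k + j); rw [one_mul]; gcongr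
      have a4 := (hsh (f := fun m => l m ^ 2 * d m) (fun m => by have := hdp m; positivity)
        k (N + 1)).trans a3
      have a5 := hEs k hk (N + 1)
      have a6 := hP2 k (N + 1)
      have a7 : CE * ∑ j ∈ range (N + 1), E (k + 2 + j) ≤
          CE * ((θ * (3 * C) + C * 3) * (l k ^ 2 * tl k)) := by
        refine mul_le_mul_of_nonneg_left (a5.trans ?_) hCE
        calc _ ≤ θ * (3 * (C * (l k ^ 2 * tl k))) + C * (3 * (1 * (l k ^ 2 * tl k))) := by gcongr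
          _ = _ := by ring
      have a8 := mul_le_mul_of_nonneg_left (a6.trans a2) hC
      have a9 := mul_le_mul_of_nonneg_left a4 hC
      have a10 : 0 ≤ ∑ j ∈ range N, Z (k + 3 + j) := sum_nonneg fun _ _ => H.Z_nn _
      have a11 := mul_nonneg hC hW
      rw [abs_le, hC5]
      constructor <;> nlinarith [tlo k hk N, tup k hk N]
    have h2 := ((hplim k).sub_const (q (k + 2))).abs
    rw [zero_sub, abs_neg] at h2
    exact le_of_tendsto' h2 h1
  have hK12 : 1 ≤ K ^ 12 := one_le_pow₀ hK.le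
  have hθ1 : 3 * CE * θ ≤ 1 := by nlinarith [H.θ_le', mul_nonneg hCE hθ]
  set C4 := 3 * CE * C + C with hC4
  have hZ3 : ∀ k, n1 ≤ k → Z (k + 3) ≤ |q (k + 2)| + 3 * CE * θ * (Z k + Z (k + 1) + Z (k + 2))
      + C4 * (l k ^ 4 * (2 + G k)) := by
    intro k hk
    have h1 := ((hplim k).add_const (|q (k + 2)| + 3 * CE * θ * (Z k + Z (k + 1) + Z (k + 2))
      + C4 * (l k ^ 4 * (2 + G k))))
    rw [zero_add] at h1
    refine ge_of_tendsto h1 ((eventually_ge_atTop 1).mono fun N hN => ?_)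
    have a1 := tlo k hk N
    have a2 := mul_le_mul_of_nonneg_left (hEs k hk (N + 1)) hCE
    have a3 := hPt k (N + 1 + 2)
    have a4 := mul_le_mul_of_nonneg_left ((hP2 k (N + 1)).trans a3) hC
    have a5 := mul_le_mul_of_nonneg_left a3 (show 0 ≤ 3 * CE * C by positivity)
    have a6 : ∑ j ∈ range (N + 1 + 2), Z (k + j) =
        Z k + Z (k + 1) + Z (k + 2) + ∑ j ∈ range N, Z (k + 3 + j) := by
      rw [show N + 1 + 2 = 3 + N by omega, sum_range_add]
      simp [sum_range_succ, add_assoc]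
    have a7 := single_le_sum (f := fun j => Z (k + 3 + j)) (s := range N) (a := 0)
      (fun j _ => H.Z_nn _) (mem_range.2 hN)
    have a8 : 0 ≤ ∑ j ∈ range N, Z (k + 3 + j) := sum_nonneg fun _ _ => H.Z_nn _
    have a9 := mul_le_mul_of_nonneg_right hθ1 a8
    rw [a6] at a2
    simp only [Nat.add_zero] at a7
    rw [hC4]
    nlinarith [neg_le_abs (q (k + 2))]
  set η := 1 / (32 * (1 + 1 / c) * K ^ 12) with hη
  have hη0 : 0 < η := by positivity
  obtain ⟨δ, hδ, Cw, hCw, N, hw⟩ := H.wl η hη0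
  obtain ⟨N1, hN1⟩ := eventually_atTop.1 ((htl0.const_mul (C5 * K ^ 4)).eventually
    (gt_mem_nhds (show C5 * K ^ 4 * 0 < δ by simpa using hδ)))
  set z : ℕ → ℝ := fun n => if n1 ≤ n then Z n / l n ^ 4 + 1 else c / d n with hz
  have hze : ∀ n, n1 ≤ n → z n = Z n / l n ^ 4 + 1 := fun n hn => if_pos hn
  have hzg : ∀ n, c / d n ≤ z n := by
    intro n
    by_cases hn : n1 ≤ n
    · have h1 := H.drop n hn
      have := hlp n
      rw [hze n hn, div_add_one (by positivity), div_le_div_iff₀ (hdp n) (by positivity), mul_comm _ (d n)]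
      exact h1
    · exact (if_neg hn).ge
  have hz0 : ∀ n, 0 ≤ z n := fun n => (div_pos hc (hdp n)).le.trans (hzg n)
  have hZz : ∀ k, n1 ≤ k → ∀ j, Z (k + j) ≤ l k ^ 4 * z (k + j) := by
    intro k hk j
    have h1 : Z (k + j) ≤ l (k + j) ^ 4 * z (k + j) := by
      have := hlp (k + j)
      rw [hze _ (by omega), mul_add, mul_div_cancel₀ _ (by positivity)]
      exact le_add_of_nonneg_right (by positivity)
    have := hla k j; have := hlp (k + j); have := hz0 (k + j)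
    exact h1.trans (by gcongr)
  have HH : Hyp3 c (1 + K ^ 12 * (2 * η * C + Cw + 2 * C4)) (1 / 16) kap (max n1 (max N N1)) d z be := by
    refine ⟨hc, by positivity, le_rfl, hkp, by linarith, hdp, H.d_sum, hzg, hb1, fun k hk => ?_⟩
    have hk1 : n1 ≤ k := le_of_max_le_left hk
    have hk2 : N ≤ k := le_of_max_le_left (le_of_max_le_right hk)
    have hk3 : N1 ≤ k := le_of_max_le_right (le_of_max_le_right hk)
    have hlk := hlp k
    have b1 : |q (k + 2)| ≤ δ * l (k + 2) ^ 2 := by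
      refine (hq k hk1).trans ?_
      have b2 : l k ^ 2 = K ^ 4 * l (k + 2) ^ 2 := by simp only [hl]; field_simp; ring
      have b3 := mul_le_mul_of_nonneg_right (hN1 k hk3).le (show 0 ≤ l (k + 2) ^ 2 by positivity)
      rw [b2]; linarith
    have b4 : Z (k + 3) / l (k + 3) ^ 4 = Z (k + 3) * K ^ 12 / l k ^ 4 := by
      rw [hqa k 3, hkap]; field_simp
    have c0 := hZz k hk1 0
    have c1 := hZz k hk1 1
    have c2 := hZz k hk1 2
    rw [add_zero] at c0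
    have b5 := hPt k 3
    simp only [sum_range_succ, range_zero, sum_empty, zero_add, add_zero] at b5
    have b6 := mul_le_of_le_one_left (add_nonneg (add_nonneg (H.Z_nn k) (H.Z_nn (k + 1))) (H.Z_nn (k + 2)))
      H.θ_le
    rw [hze _ (by omega), b4]
    refine fin_alg (Pt := l k ^ 4 * (2 + G k)) (E := E (k + 2)) (Z0 := Z k) (Z1 := Z (k + 1))
      hlk (by positivity) hc hη0.le (hdp (k + 2)) hC (by positivity) (hG0 k)
      (show 0 ≤ 3 * CE * θ by positivity) hCw (hz0 _) (hz0 _) (hz0 _) (hlp (k + 2)).le (hla k 2)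
      (by linarith) (by linarith [H.Z_nn k, H.Z_nn (k + 1)]) le_rfl ?_ (hzg _)
      (hw (k + 2) (by omega) b1) (hZ3 k hk1) H.θ_le' ?_
    · linarith [H.E_le k hk1, mul_le_mul_of_nonneg_left b5 hC]
    · rw [hη]; exact le_of_eq (by field_simp)
  refine HH.two (B := 1) hK hl0 hc ?_ H.d_ge fun n => ?_
  · rw [hkap, inv_mul_le_iff₀ (by positivity), mul_one]
    calc K = K ^ 1 := (pow_one K).symm
      _ ≤ K ^ 4 := pow_le_pow_right₀ hK.le (by norm_num)
  · rw [H.be_eq, one_mul]; rfl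

end Crest.Agent.N207.As
end

-- ▼ part N207/Sk/As4
section

/-! Row 207, final assembly, part 4 (helper87): `TOP`, `PEST`, `PHI'`, `WL'` bound the curvature. -/

set_option autoImplicit false
set_option linter.unusedSectionVars false

open scoped Manifold ContDiff Topology
open Set MeasureTheory Filter

namespace Crest.Agent.N207.As

open Sk

variable {M : Type*} [TopologicalSpace M] [ChartedSpace E4 M] [IsManifold 𝓘(ℝ, E4) ∞ M]
  [T3Space M] [ConnectedSpace M] [MeasurableSpace M] [BorelSpace M] [CompactSpace M]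

theorem err_alg {C0 C1 C' L c l l' r d d' E E' P : ℝ} (h0 : 0 < C0) (h1 : 0 < C1) (h' : 0 < C')
    (hc : 0 < c) (hl : 0 < l) (hl1 : l ≤ 1) (hl' : 0 ≤ l') (hll : l' ≤ l) (hr : 0 < r)
    (hrL : r ≤ L * l) (hd : 0 ≤ d') (hd' : d' ≤ d) (hE : 0 ≤ E') (hE' : E' ≤ E)
    (hs : 18 * (C0 + 2 * C') * L ^ 2 * l ≤ c) (hP : l ^ 4 ≤ P) (hP' : l ^ 4 * d ≤ P) :
    18 * ((C0 + 2 * C') * r ^ 2) / (c * l) * E' + 2 * d' / (c * l) * (C' * r ^ 5)
      + 2 * ((C0 + 2 * C') * r ^ 2) * (C1 * l) ^ 2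
      + (C' * r ^ 2 * ((C1 * l) ^ 2 + (C1 * l') ^ 2) + C' * r ^ 5) ≤
    E + (2 * C' * L ^ 5 / c + 2 * (C0 + 2 * C') * L ^ 2 * C1 ^ 2 + 2 * C' * L ^ 2 * C1 ^ 2
      + C' * L ^ 5) * P := by
  have hL : 0 < L := (mul_pos_iff_of_pos_right hl).1 (hr.trans_le hrL)
  have a1 : 18 * ((C0 + 2 * C') * r ^ 2) / (c * l) ≤ 1 := by
    rw [div_le_one (by positivity)]
    calc _ ≤ 18 * ((C0 + 2 * C') * (L * l) ^ 2) := by gcongr
      _ = 18 * (C0 + 2 * C') * L ^ 2 * l * l := by ring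
      _ ≤ _ := by gcongr
  have a2 : 2 * d' / (c * l) * (C' * r ^ 5) ≤ 2 * C' * L ^ 5 / c * P := by
    have := hd.trans hd'
    calc _ ≤ 2 * d / (c * l) * (C' * (L * l) ^ 5) := by gcongr
      _ = 2 * C' * L ^ 5 / c * (l ^ 4 * d) := by field_simp
      _ ≤ _ := by gcongr
  have a3 : 2 * ((C0 + 2 * C') * r ^ 2) * (C1 * l) ^ 2 ≤ 2 * (C0 + 2 * C') * L ^ 2 * C1 ^ 2 * P := by
    calc _ ≤ 2 * ((C0 + 2 * C') * (L * l) ^ 2) * (C1 * l) ^ 2 := by gcongr
      _ = 2 * (C0 + 2 * C') * L ^ 2 * C1 ^ 2 * l ^ 4 := by ring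
      _ ≤ _ := by gcongr
  have a4 : C' * r ^ 2 * ((C1 * l) ^ 2 + (C1 * l') ^ 2) ≤ 2 * C' * L ^ 2 * C1 ^ 2 * P := by
    calc _ ≤ C' * (L * l) ^ 2 * ((C1 * l) ^ 2 + (C1 * l) ^ 2) := by gcongr
      _ = 2 * C' * L ^ 2 * C1 ^ 2 * l ^ 4 := by ring
      _ ≤ _ := by gcongr
  have a5 : C' * r ^ 5 ≤ C' * L ^ 5 * P := by
    calc _ ≤ C' * (L * l) ^ 5 := by gcongr
      _ = C' * L ^ 5 * (l ^ 4 * l) := by ring
      _ ≤ C' * L ^ 5 * (l ^ 4 * 1) := by gcongr
      _ ≤ _ := by rw [mul_one]; gcongr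
  have a6 := mul_le_of_le_one_left hE a1
  linarith

namespace Geo

variable {F : Flow M} {τ : TopD M} {m m1 : ℕ} {η : ℝ} {Cs : ℕ → ℝ} {V A0 C0 C1 C' L : ℝ}
  {n0 : ℕ} {W : ℝ → Nk M → ℝ → ℝ → Prop} {ρ : ℕ → ℝ} {e : ℕ → ℝ → ℝ}
  (G : Geo F τ m m1 η Cs V A0 C0 C1 C' L n0 W ρ e)
include G

/-- the change of the action from a time of `I n` to the end of `I n` -/
theorem step {n : ℕ} (hn : n0 ≤ n) {x p0 p1 : ℝ} (hx : x ∈ τ.I n) (h0 : W x (τ.N x) (ρ n) p0)
    (h1 : W (τ.t (n + 1)) (τ.N (τ.t (n + 1))) (ρ (n + 1)) p1) :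
    2 * (∫ s in x..τ.t (n + 1), τ.ms F (ρ n / 32) s)
      - (C0 + 1) * (∫ s in τ.t n..τ.t (n + 1), e n s ^ 2)
      - (2 * C' * L ^ 5 / τ.c + 2 * (C0 + 2 * C') * L ^ 2 * C1 ^ 2 + 2 * C' * L ^ 2 * C1 ^ 2
        + C' * L ^ 5) * τ.P n ≤ p1 - p0 ∧
    p1 - p0 ≤ V * L ^ 2 * (τ.lam n ^ 2 * τ.d n) + (C0 + 1) * (∫ s in τ.t n..τ.t (n + 1), e n s ^ 2)
      + (2 * C' * L ^ 5 / τ.c + 2 * (C0 + 2 * C') * L ^ 2 * C1 ^ 2 + 2 * C' * L ^ 2 * C1 ^ 2
        + C' * L ^ 5) * τ.P n := by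
  obtain ⟨ε, e1, e2, e3, e4⟩ := G.trunc hn
  obtain ⟨r1, r5, r2, hL, r3⟩ := G.rad n
  obtain ⟨q1, q5, q2, -, q3⟩ := G.rad (n + 1)
  have r4 := G.radR hn
  have hl := lam_pos G.ok n
  have hl' := lam_pos G.ok (n + 1)
  have hK := G.ok.K_ge
  have hc := G.ok.c_pos
  have hV := G.V_nn
  have hC0 := G.C0_pos
  have hC' := G.C'_pos
  have hls := lam_succ G.ok n
  have hI : ∀ u ∈ Ico x (τ.t (n + 1)), u ∈ τ.I n := fun u hu => ⟨hx.1.trans hu.1, hu.2⟩
  have im : ∀ {a b : ℝ}, x ≤ a → a ≤ b → b ≤ τ.t (n + 1) →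
      IntervalIntegrable (τ.ms F (ρ n / 32)) volume a b :=
    fun h1 h2 h3 => ii_mono (G.im hn) (hx.1.trans h1) h2 h3
  have i2 : ∀ {a b : ℝ}, x ≤ a → a ≤ b → b ≤ τ.t (n + 1) →
      IntervalIntegrable (fun s => e n s ^ 2) volume a b :=
    fun h1 h2 h3 => ii_mono (G.ie2 n hn) (hx.1.trans h1) h2 h3
  have ilo : ∀ {a b : ℝ}, x ≤ a → a ≤ b → b ≤ τ.t (n + 1) →
      ∫ s in a..b, (2 * τ.ms F (ρ n / 32) s - C0 * e n s ^ 2) =
        2 * (∫ s in a..b, τ.ms F (ρ n / 32) s) - C0 * ∫ s in a..b, e n s ^ 2 := fun h1 h2 h3 => by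
    rw [intervalIntegral.integral_sub ((im h1 h2 h3).const_mul _) ((i2 h1 h2 h3).const_mul _),
      intervalIntegral.integral_const_mul, intervalIntegral.integral_const_mul]
  have iup : ∀ {a b : ℝ}, x ≤ a → a ≤ b → b ≤ τ.t (n + 1) →
      ∫ s in a..b, (2 * (V * (ρ n / 8) ^ 2) + C0 * e n s ^ 2) =
        2 * (∫ _ in a..b, V * (ρ n / 8) ^ 2) + C0 * ∫ s in a..b, e n s ^ 2 := fun h1 h2 h3 => by
    rw [intervalIntegral.integral_add intervalIntegrable_const ((i2 h1 h2 h3).const_mul _),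
      intervalIntegral.integral_const_mul, intervalIntegral.integral_const_mul C0]
  have hρρ : ρ n ≤ L * τ.K * ρ n :=
    le_mul_of_one_le_left r3.le (one_le_mul_of_one_le_of_one_le hL (by linarith))
  obtain ⟨p, u, hu, hub, hp, c1, c2⟩ := chain (W := fun s u p => W s (τ.N u) (ρ n) p)
    (h0 := τ.c * τ.lam n) (A := (C0 + 2 * C') * ρ n ^ 2) (B := C' * ρ n ^ 5)
    (B0 := (C1 * τ.lam n) ^ 2) (lo := fun s => 2 * τ.ms F (ρ n / 32) s - C0 * e n s ^ 2)
    (up := fun s => 2 * (V * (ρ n / 8) ^ 2) + C0 * e n s ^ 2) (E := fun s => e n s ^ 2)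
    (k := fun s => ε s ^ 2) hx.2 (by positivity) (by positivity) (by positivity)
    (((im le_rfl hx.2.le le_rfl).const_mul _).sub ((i2 le_rfl hx.2.le le_rfl).const_mul _))
    (intervalIntegrable_const.add ((i2 le_rfl hx.2.le le_rfl).const_mul _))
    (i2 le_rfl hx.2.le le_rfl) (fun s => sq_nonneg _)
    (fun s hs => pow_le_pow_left₀ (e3 s ⟨hx.1.trans hs.1, hs.2⟩) (e2 s) 2)
    (fun s hs => pow_le_pow_left₀ (e3 s ⟨hx.1.trans hs.1, hs.2.le⟩) (e4 s hs.2) 2)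
    (fun u hu s h1 h2 h3 => G.ex' hn (hI u hu) h1 h2 h3)
    (fun u hu a b p p' h1 h2 h3 h4 hp hp' => by
      have hu' := hI u hu
      have hxa : x ≤ a := hu.1.trans h1
      obtain ⟨w1, w2⟩ := G.win (τ.N u) a b (ρ n) (e n) (ε a) (ε b) p p'
        (mem_late G.ok (hx.1.trans hxa) (h2.le.trans h4)).1 h2 (h4.trans_lt (G.ok.lt _))
        (G.ok.top n u hu') (G.ok.b_eq n u hu') (by rw [G.ok.a_eq n u hu']; exact G.ρ_lo' n)
        (G.ρ_R n hn) (fun s hs => G.ok.good n u hu' s (h1.trans hs.1) (hs.2.trans h3)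
          ((hs.2.trans h4).trans_lt (G.ok.lt _)))
        (ii_mono (G.ie n hn) (hx.1.trans hxa) h2.le h4) (i2 hxa h2.le h4)
        (fun s hs => (G.eb n hn u hu' s (h1.trans hs.1.le) (hs.2.le.trans h3)).1 (hs.2.trans_le h4))
        (e1 u hu' a h1 (h2.le.trans h3) (h2.le.trans h4)) (e1 u hu' b (h1.trans h2.le) h3 h4) hp hp'
      have hm := fun s (hs : s ∈ Ioo a b) =>
        G.cmp_mass hn hu' (h1.trans hs.1.le) (hs.2.le.trans h3) (hs.2.trans_le h4)
      have w3 := intervalIntegral.integral_mono_on_of_le_Ioo h2.le (im hxa h2.le h4) w1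
        fun s hs => (hm s hs).1
      have w4 := intervalIntegral.integral_mono_on_of_le_Ioo h2.le w1 intervalIntegrable_const
        fun s hs => (hm s hs).2
      have w5 : C0 * ρ n ^ 2 * (ε a ^ 2 + ε b ^ 2) ≤ (C0 + 2 * C') * ρ n ^ 2 * (ε a ^ 2 + ε b ^ 2) := by
        gcongr; linarith
      obtain ⟨w6, w7⟩ := abs_le.1 w2
      rw [ilo hxa h2.le h4, iup hxa h2.le h4]
      constructor <;> linarith)
    (fun u hu u' hu' s p p' h1 h2 h3 h4 hp hp' => by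
      have w := G.sw s _ _ _ _ _ _ _ _ hp hp' hρρ hρρ
        (G.ok.cmp n n u (hI u hu) u' (hI u' hu') _ (by rwa [min_self]) (by rwa [min_self]) (by
          rw [min_self, abs_sub_comm, abs_of_nonneg (by linarith)]
          linarith [mul_le_mul_of_nonneg_left (r1.trans r2) hc.le]))
        (e1 u (hI u hu) s (h1.trans h2) h3 h4.le) (e1 u' (hI u' hu') s h2 (by linarith) h4.le)
      have : 0 ≤ C0 * ρ n ^ 2 * ε s ^ 2 := by positivity
      linarith) h0
  have hb : τ.t (n + 1) ∈ τ.I (n + 1) := ⟨le_rfl, t_lt G.ok _⟩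
  have hmin : τ.K * τ.lam n ≤ min (ρ n) (ρ (n + 1)) / 64 := by
    rw [← min_div_div_right (by norm_num)]; exact le_min r2 (by rwa [hls])
  have hll : τ.lam (n + 1) ≤ τ.lam n := by rw [hls]; exact q1
  have w := G.sw _ _ _ _ _ _ _ _ _ hp h1
    ((G.ρ_up n).trans (by rw [hls, mul_assoc]; gcongr; linarith))
    ((G.ρ_up (n + 1)).trans (by
      rw [mul_assoc]
      refine mul_le_mul_of_nonneg_left ?_ (by linarith)
      nlinarith))
    (G.ok.cmp n (n + 1) u (hI u hu) _ hb _ hmin (le_trans (by gcongr) hmin) (by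
      rw [abs_sub_comm, abs_of_nonneg (by linarith [hu.2])]
      linarith [mul_le_mul_of_nonneg_left (r1.trans hmin) hc.le]))
    ((G.eb n hn u (hI u hu) _ hu.2.le hub).2 le_rfl)
    ((G.eb (n + 1) (by omega) _ hb _ le_rfl (le_add_of_nonneg_right (by positivity))).2 hb.2.le)
  have hE : ∫ s in x..τ.t (n + 1), e n s ^ 2 ≤ ∫ s in τ.t n..τ.t (n + 1), e n s ^ 2 :=
    intervalIntegral.integral_mono_interval hx.1 hx.2.le le_rfl (ae_of_all _ fun s => sq_nonneg _)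
      (G.ie2 n hn)
  have hd : τ.t (n + 1) - x ≤ τ.d n := sub_le_sub_left hx.1 _
  have a1 := err_alg (C1 := C1) hC0 G.C1_pos hC' hc hl ((r1.trans (lam_le G.ok n)).trans G.ok.R_le)
    hl'.le hll r3 (G.ρ_up n) (sub_pos.2 hx.2).le hd
    (intervalIntegral.integral_nonneg hx.2.le fun s _ => sq_nonneg (e n s)) hE (G.small n hn)
    (P_ge G.ok n).1 (P_ge G.ok n).2
  have a2 := mul_le_mul_of_nonneg_left hE hC0.le
  have a3 : 2 * (∫ _ in x..τ.t (n + 1), V * (ρ n / 8) ^ 2) ≤ V * L ^ 2 * (τ.lam n ^ 2 * τ.d n) := by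
    have h3 := (sub_pos.2 hx.2).le
    have h4 := h3.trans hd
    have h5 := G.ρ_up n
    rw [intervalIntegral.integral_const, smul_eq_mul]
    calc _ ≤ 2 * (τ.d n * (V * (L * τ.lam n / 8) ^ 2)) := by gcongr
      _ = V * L ^ 2 * (τ.lam n ^ 2 * τ.d n) * (1 / 32) := by ring
      _ ≤ _ := mul_le_of_le_one_right (by positivity) (by norm_num)
  rw [ilo le_rfl hx.2.le le_rfl] at c1
  rw [iup le_rfl hx.2.le le_rfl] at c2
  obtain ⟨w1, w2⟩ := abs_le.1 w
  constructor <;> linarith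

theorem Z_nn (n : ℕ) {x : ℝ} (hx : x ∈ τ.I n) (r : ℝ) : 0 ≤ ∫ s in x..τ.t (n + 1), τ.ms F r s :=
  intervalIntegral.integral_nonneg hx.2.le fun s hs =>
    (G.gm s (mem_late G.ok (hx.1.trans hs.1) hs.2)).mass_nn _

theorem drop {n : ℕ} (hn : n0 ≤ n) : τ.c * τ.lam n ^ 4 ≤ τ.d n * (τ.Z F ρ n + τ.lam n ^ 4) := by
  obtain ⟨r1, -, r2, -, r3⟩ := G.rad n
  have h1 := intervalIntegral.integral_mono_on (t_lt G.ok n).le (G.ok.int n _ ⟨r1, lam_le G.ok n⟩)
    (G.im hn) fun s hs => (G.gm s (mem_late G.ok hs.1 hs.2)).mono (Om_mono _ (by linarith))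
  exact (G.ok.drop n).trans (mul_le_mul_of_nonneg_left (add_le_add h1 le_rfl)
    (sub_pos.2 (t_lt G.ok n)).le)

theorem Z_le {n : ℕ} (hn : n0 ≤ n) : τ.Z F ρ n ≤ V * L ^ 2 * (τ.lam n ^ 2 * τ.d n) := by
  obtain ⟨r1, -, r2, -, r3⟩ := G.rad n
  have r4 := G.radR hn
  have hV := G.V_nn
  have hd : 0 ≤ τ.d n := (sub_pos.2 (t_lt G.ok n)).le
  have h1 := intervalIntegral.integral_mono_on_of_le_Ioo (t_lt G.ok n).le (G.im hn)
    intervalIntegrable_const fun s hs => G.ok.zb n s ⟨hs.1.le, hs.2⟩ _ ⟨by linarith, by linarith⟩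
  rw [intervalIntegral.integral_const, smul_eq_mul] at h1
  have h2 : ρ n / 32 ≤ L * τ.lam n := by linarith [G.ρ_up n]
  calc _ ≤ τ.d n * (V * (ρ n / 32) ^ 2) := h1
    _ ≤ τ.d n * (V * (L * τ.lam n) ^ 2) := by gcongr
    _ = _ := by ring

end Geo

end Crest.Agent.N207.As

namespace Crest.Agent.N207.Sk

open As

variable {M : Type*} [TopologicalSpace M] [ChartedSpace E4 M] [IsManifold 𝓘(ℝ, E4) ∞ M]
  [T3Space M] [ConnectedSpace M] [MeasurableSpace M] [BorelSpace M] [CompactSpace M]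

/-- the final assembly -/
theorem asm {F : Flow M} (hB : Base F) (hT : TOP F) (hP : PEST F) (hΦ : PHI' F) (hW : WL' F) :
    F.BddRm := by
  by_contra hn
  obtain ⟨m, η1, hη1, hΦ⟩ := hΦ
  obtain ⟨m0, η0, hη0, hP⟩ := hP m
  obtain ⟨Cs, V, τ, ok⟩ := hT hn (max m m0) (min η1 η0) (lt_min hη1 hη0)
  obtain ⟨ηa, hηa, hW⟩ := hW
  have hK := ok.K_ge
  have hK0 : 0 < τ.K := by linarith
  have hl := lam_pos ok
  have hR : 0 < τ.R := (mul_pos hK0 (hl 0)).trans_le (lam_le ok 0)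
  obtain ⟨C0, A0, V', Cs', W, hC0, hA0, hex, hwin, hadm, hsw⟩ :=
    hΦ _ _ Cs V τ.R ηa (le_max_left m m0) (min_le_left η1 η0) hR ok.R_le hηa
  set θ := min 1 (1 / (96 * (C0 + 1) * τ.K ^ 12)) with hθ
  have hθ0 : 0 < θ := lt_min one_pos (by positivity)
  obtain ⟨L, C1, n0, ρ, e, hC1, hρ, hpe⟩ := hP _ _ Cs V τ (le_max_right m m0) (min_le_right η1 η0) ok
    θ (max A0 (64 * τ.K ^ 2)) hθ0 (lt_max_of_lt_left (by linarith))
  have ρ1 : ∀ n, A0 * τ.lam n ≤ ρ n := fun n =>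
    (mul_le_mul_of_nonneg_right (le_max_left _ _) (hl n).le).trans (hρ n).1
  have ρ2 : ∀ n, τ.lam n ≤ ρ n := fun n =>
    (le_mul_of_one_le_left (hl n).le (by linarith)).trans (ρ1 n)
  have hL : 1 ≤ L := le_of_mul_le_mul_right (by linarith [ρ2 0, (hρ 0).2]) (hl 0)
  obtain ⟨C', hC', hsw⟩ := hsw (L * τ.K) (one_le_mul_of_one_le_of_one_le hL (by linarith))
  have hl0 : Tendsto τ.lam atTop (𝓝 0) :=
    tendsto_const_nhds.div_atTop (tendsto_pow_atTop_atTop_of_one_lt (by linarith))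
  have ev : ∀ B ε : ℝ, 0 < ε → ∃ N, ∀ n, N ≤ n → B * τ.lam n ≤ ε := fun B ε hε =>
    eventually_atTop.1 ((hl0.const_mul B).eventually (ge_mem_nhds (by simpa using hε)))
  obtain ⟨n2, h2⟩ := ev (A0 * L) τ.R hR
  obtain ⟨n3, h3⟩ := ev (18 * (C0 + 2 * C') * L ^ 2) τ.c ok.c_pos
  set n1 := max n0 (max n2 n3) + 2 with hn1
  have sh : ∀ n, n1 ≤ n → ∃ k, n0 ≤ k ∧ n = k + 2 := fun n h => ⟨n - 2, by omega, by omega⟩
  have G : Geo F τ m _ _ Cs V A0 C0 C1 C' L n1 W ρ e :=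
    ⟨fun s hs => gm_of hB hs, ok, hC0, hC1, hC', hA0,
      fun n => (mul_le_mul_of_nonneg_right (le_max_right _ _) (hl n).le).trans (hρ n).1, ρ1,
      fun n => (hρ n).2,
      fun n h => (mul_le_mul_of_nonneg_left (hρ n).2 (by linarith)).trans
        (by rw [← mul_assoc]; exact h2 n (by omega)),
      fun n h => h3 n (by omega), hex, hwin, hsw,
      fun n h => by obtain ⟨k, hk, rfl⟩ := sh n h; exact (hpe k hk).1,
      fun n h => by obtain ⟨k, hk, rfl⟩ := sh n h; exact (hpe k hk).2.1,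
      fun n h => by obtain ⟨k, hk, rfl⟩ := sh n h; exact (hpe k hk).2.2.1⟩
  have hI : ∀ n, τ.t n ∈ τ.I n := fun n => ⟨le_rfl, t_lt ok n⟩
  have hc : ∀ n, 0 ≤ τ.c * τ.lam n := fun n => (mul_pos ok.c_pos (hl n)).le
  choose! p hp using fun n (h : n1 ≤ n) =>
    G.ex' h (hI n) le_rfl (le_add_of_nonneg_right (hc n)) (hI n).2.le
  choose! s hs ε e0 e1 e2 e3 e4 using fun n (h : n1 ≤ n) => G.good h
  choose! q hq using fun n (h : n1 ≤ n) =>
    G.ex' h (hs n h) le_rfl (le_add_of_nonneg_right (hc n)) (hs n h).2.le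
  have hV := G.V_nn
  have hcp := ok.c_pos
  set C2 := 2 * C' * L ^ 5 / τ.c + 2 * (C0 + 2 * C') * L ^ 2 * C1 ^ 2 + 2 * C' * L ^ 2 * C1 ^ 2
    + C' * L ^ 5 with hC2
  have hC20 : 0 ≤ C2 := by positivity
  have hVL : 0 ≤ V * L ^ 2 := by positivity
  have hCL : 0 ≤ C0 * L ^ 2 := by positivity
  set C := C1 + V * L ^ 2 + C0 * L ^ 2 + C2 with hC
  have hd : ∀ n, 0 < τ.d n := fun n => sub_pos.2 (t_lt ok n)
  have hP0 : ∀ n, 0 ≤ τ.P n := fun n => le_trans (by positivity) (P_ge ok n).1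
  have b1 : ∀ n, C2 * τ.P n ≤ C * τ.P n := fun n => mul_le_mul_of_nonneg_right (by linarith) (hP0 n)
  have b2 : ∀ n, V * L ^ 2 * (τ.lam n ^ 2 * τ.d n) ≤ C * (τ.lam n ^ 2 * τ.d n) := fun n =>
    mul_le_mul_of_nonneg_right (by linarith) (mul_pos (pow_pos (hl n) 2) (hd n)).le
  have sp := fun n (h : n1 + 2 ≤ n) => G.step (by omega) (hI n) (hp n (by omega)) (hp (n + 1) (by omega))
  have sq := fun n (h : n1 + 2 ≤ n) =>
    G.step (by omega) (hs n (by omega)) (hq n (by omega)) (hp (n + 1) (by omega))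
  refine Dis.false (K := τ.K) (l0 := τ.l0) (c := τ.c) (CE := C0 + 1) (C := C) (θ := θ) (n1 := n1)
    (d := τ.d) (be := τ.be) (Z := τ.Z F ρ) (E := fun n => ∫ s in τ.t n..τ.t (n + 1), e n s ^ 2)
    (P := τ.P) (p := p) (q := q)
    ⟨by linarith, ok.l0_pos, hcp, by linarith, by linarith, hθ0.le, min_le_left _ _, ?_, ok.d_ge, ?_,
      fun n => ?_, fun n => rfl, fun n => G.Z_nn n (hI n) _, fun n h => G.drop h,
      fun n h => (G.Z_le h).trans (b2 n), fun n h => ?_, fun n h => ?_, fun n h => ?_, fun n h => ?_,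
      fun n h => ?_, fun n h => ?_, fun η hη => ?_⟩
  · have h4 : θ ≤ 1 / (96 * (C0 + 1) * τ.K ^ 12) := min_le_right _ _
    rw [le_div_iff₀ (by positivity)] at h4
    linarith
  · refine summable_of_sum_range_le (c := F.T - τ.t 0) (fun n => (hd n).le) fun n => ?_
    unfold TopD.d
    rw [Finset.sum_range_sub]
    linarith [ok.lt n]
  · unfold TopD.be TopD.mem mm
    congr 2
    refine Finset.sum_congr rfl fun j _ => ?_
    rw [Real.sqrt_eq_rpow, Real.rpow_neg (hd _).le, div_eq_mul_inv]; rfl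
  · refine (hpe n (by omega)).2.2.2.trans (add_le_add le_rfl (mul_le_mul_of_nonneg_right (by linarith) ?_))
    linarith [hP0 n, hP0 (n + 1), hP0 (n + 2)]
  · refine (hadm _ _ _ _ (hp n (by omega))).1.trans ?_
    have := (hρ n).2
    have := (hl n).trans_le (ρ2 n)
    calc _ ≤ C0 * (L * τ.lam n) ^ 2 := by gcongr
      _ = C0 * L ^ 2 * τ.lam n ^ 2 := by ring
      _ ≤ C * τ.lam n ^ 2 := mul_le_mul_of_nonneg_right (by linarith) (sq_nonneg _)
  · exact le_trans (sub_le_sub_left (b1 n) _) (sp n h).1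
  · exact (sp n h).2.trans (add_le_add (add_le_add (b2 n) le_rfl) (b1 n))
  · linarith [(sq n h).1, b1 n, G.Z_nn n (hs n (by omega)) (ρ n / 32)]
  · exact (sq n h).2.trans (add_le_add (add_le_add (b2 n) le_rfl) (b1 n))
  · have hS : 0 < √(1 + V) + C0 := by positivity
    obtain ⟨δ, Cw, hδ, hCw, hw⟩ := hW Cs' V' (η / (L ^ 2 * (√(1 + V) + C0))) (by positivity)
    obtain ⟨k1, g1⟩ := ev L δ hδ
    obtain ⟨k2, g2⟩ := ev (C0 * C1) δ hδ
    obtain ⟨k3, g3⟩ := ev (√V * L) δ hδ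
    refine ⟨δ, hδ, Cw * L ^ 4, by positivity, max n1 (max k1 (max k2 k3)), fun n h hqn => ?_⟩
    have h1 : n1 ≤ n := by omega
    have r0 := (hl n).trans_le (ρ2 n)
    have r1 := (hρ n).2
    have r2 := ρ2 n
    have r3 := hl n
    have w := hw (s n) (mem_late ok (hs n h1).1 (hs n h1).2.le) (ρ n) (C0 * ε n) _ (q n) r0
      (r1.trans (g1 n (by omega))) (mul_nonneg hC0.le (e0 n h1))
      ((mul_le_mul_of_nonneg_left (e1 n h1) hC0.le).trans (by rw [← mul_assoc]; exact g2 n (by omega)))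
      (Real.sqrt_nonneg _) ((Real.sqrt_le_sqrt (e3 n h1)).trans (by
        rw [Real.sqrt_mul hV, Real.sqrt_sq r0.le]
        exact (mul_le_mul_of_nonneg_left r1 (Real.sqrt_nonneg V)).trans
          (by rw [← mul_assoc]; exact g3 n (by omega))))
      (hqn.trans (by change δ * τ.lam n ^ 2 ≤ _; gcongr)) ((hadm _ _ _ _ (hq n h1)).2 _ (e2 n h1))
    refine w.trans ?_
    have h4 := e4 n h1
    change _ ≤ η * τ.lam n ^ 2 * _ + Cw * L ^ 4 * τ.lam n ^ 4
    calc _ ≤ η / (L ^ 2 * (√(1 + V) + C0)) * (L * τ.lam n) ^ 2 * ((√(1 + V) + C0) *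
          √((τ.Z F ρ n + ∫ s in τ.t n..τ.t (n + 1), e n s ^ 2) / τ.d n)) + Cw * (L * τ.lam n) ^ 4 := by
          have := mul_nonneg hC0.le (e0 n h1)
          gcongr
      _ = _ := by field_simp

end Crest.Agent.N207.Sk
end

-- ▼ part N207/V/Intg
section

/-!
# Row 207 (helper97): `HC.Intg` for a Ricci flow, local volume bounds of small balls
-/

set_option autoImplicit false
set_option linter.unusedSectionVars false
set_option linter.style.haveILetI false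

open scoped ContDiff Manifold Topology ENNReal NNReal
open Set Filter MeasureTheory
open Crest.GeometryTopology.CoordMetric Crest.GeometryTopology.ChartCurvature
  Crest.GeometryTopology.MetricFamily
open Crest.Agent.R247 Crest.Agent.R202.Tens

noncomputable section

namespace Crest.Agent.N207.V

section Static

variable {n : ℕ} {M : Type*} [TopologicalSpace M] [ChartedSpace (En n) M]
  [IsManifold 𝓘(ℝ, En n) ∞ M] [T3Space M] [ConnectedSpace M]


variable [MeasurableSpace M] [BorelSpace M] [CompactSpace M]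


end Static

variable {M : Type*} [TopologicalSpace M] [ChartedSpace E4 M] [IsManifold 𝓘(ℝ, E4) ∞ M]
  [T3Space M] [ConnectedSpace M] [MeasurableSpace M] [BorelSpace M] [CompactSpace M]
  [SecondCountableTopology M]

/-- `HC.Intg` for a Ricci flow -/
theorem intg (F : Flow M) : F.hc.Intg where
  fin t _ := isFinite (F.m t)
  pos t _ := isOpenPos (F.m t)
  int_lap t _ _ hu := int_lap (F.m t) hu
  ibp t _ _ _ hu hv := ibp (F.m t) hu hv
  int_dt {a b f f'} h hf hf' t ht := by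
    have hsub : Icc a b ⊆ Ico 0 F.T := fun s hs => ⟨h.1.le.trans hs.1, hs.2.trans_lt h.2.2⟩
    have hm : SmFam F.m (Icc a b) := fun x i j => (F.sm x i j).mono (prod_mono hsub Subset.rfl)
    have hrf : RFOn F.m {t} := fun x s hs => by
      obtain rfl : s = t := hs
      exact F.rf x s ⟨h.1.trans_le ht.1, ht.2.trans_lt h.2.2⟩
    exact int_dt h.2.1 hm ht hrf hf (hf' t ht)
  vol_le hK s hs t ht := vol_le (convex_Ioo 0 F.T) F.rf hK hs ht


end Crest.Agent.N207.V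

end
end

-- ▼ part N207/P/Heat

/-!
# Row 207, parabolic solver (helper11): heat and conjugate heat equations along a family of metrics
-/

set_option autoImplicit false
set_option linter.unusedSectionVars false

open Set
open scoped ContDiff Manifold Topology
open Crest.GeometryTopology.CoordMetric

noncomputable section

namespace Crest.Agent.N207

variable {n : ℕ} {M : Type*} [TopologicalSpace M] [ChartedSpace (En n) M]
  [IsManifold 𝓘(ℝ, En n) ∞ M]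

/-- `Δ + V` as a parabolic operator -/
def heatQ {m : ℝ → Met n M} {a b : ℝ} (hm : SmFam m (Icc a b)) {V : ℝ → M → ℝ}
    (hV : SmST n V (Icc a b)) :
    P.QLOp n (Icc a b) univ (fun t (u : M → ℝ) p => (m t).lap u p + V t p * u p) where
  a x q := ((m q.1).G x q.2.1)⁻¹
  b x q := -(∑ k, ∑ l, ((m q.1).G x q.2.1.1)⁻¹ k l *
      ∑ j, christoffel ((m q.1).G x) q.2.1.1 j k l * q.2.2 j) +
    P.rd n x (V q.1) q.2.1.1 * q.2.1.2
  sa x k l := ((hm.cfam x).st_inv k l).comp (f := fun q : ℝ × En n × ℝ => (q.1, q.2.1))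
    (by fun_prop) fun q hq => ⟨hq.1, hq.2.1⟩
  sb x := by
    have cs : ∀ {g : ℝ × En n → ℝ}, ContDiffOn ℝ ∞ g (Icc a b ×ˢ tg n x) →
        ContDiffOn ℝ ∞ (fun q : ℝ × (En n × ℝ) × (Fin n → ℝ) => g (q.1, q.2.1.1))
          (Icc a b ×ˢ P.domO n univ x ×ˢ univ) := fun hg =>
      hg.comp (f := fun q : ℝ × (En n × ℝ) × (Fin n → ℝ) => (q.1, q.2.1.1)) (by fun_prop)
        fun q hq => ⟨hq.1, hq.2.1.1⟩
    exact (ContDiffOn.sum fun k _ => ContDiffOn.sum fun l _ =>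
      (cs ((hm.cfam x).st_inv k l)).mul (ContDiffOn.sum fun j _ =>
        (cs ((hm.cfam x).st_chris j k l)).mul (by fun_prop))).neg.add
      ((cs (hV x)).mul (by fun_prop))
  pos x t ht q hq := ((hm.cfam x).pos t ht q.1 hq.1).inv
  rep x t _ y hy u W hW hp hu _ := by
    have h1 : ContMDiffAt 𝓘(ℝ, En n) 𝓘(ℝ, ℝ) 2 u ((chartAt (En n) x).symm y) :=
      (hu.contMDiffAt (hW.mem_nhds hp)).of_le P.two_le_inf
    have h2 : (m t).lap u ((chartAt (En n) x).symm y) = _ := (m t).lap_chart' hy h1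
    have h3 : ContDiffAt ℝ 2 (Crest.Agent.R247.Bo84.inCh n x u) y := by
      rw [← contMDiffAt_iff_contDiffAt]
      exact h1.comp y (((contMDiffOn_chart_symm (I := 𝓘(ℝ, En n)) (n := ∞) (x := x)).contMDiffAt
        ((isOpen_tg x).mem_nhds hy)).of_le P.two_le_inf)
    rw [h2, lapB_coord ((m t).riem_G x) hy h3]
    simp only [P.Lop, smul_eq_mul, mul_sub, Finset.sum_sub_distrib]
    rw [sub_eq_add_neg, add_assoc]
    rfl

theorem heatQ_lin {m : ℝ → Met n M} {a b : ℝ} (hm : SmFam m (Icc a b)) {V : ℝ → M → ℝ}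
    (hV : SmST n V (Icc a b)) : (heatQ hm hV).Lin := by
  refine ⟨fun _ _ _ _ => rfl, fun x t y c v v' p p' => ?_⟩
  simp only [heatQ, Pi.add_apply, Pi.smul_apply, smul_eq_mul, mul_add, Finset.sum_add_distrib,
    mul_neg, Finset.mul_sum, mul_left_comm c]
  ring

variable [T2Space M] [CompactSpace M]

/-- **linear heat equation** `∂ₜ u = Δ u + V u + f` on the whole strip -/
theorem heat_exists {m : ℝ → Met n M} {a b : ℝ} (hab : a < b) (hm : SmFam m (Icc a b))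
    {V f : ℝ → M → ℝ} (hV : SmST n V (Icc a b)) (hf : SmST n f (Icc a b)) {u0 : M → ℝ}
    (h0 : Sm n u0) : ∃ u : ℝ → M → ℝ, SmST n u (Icc a b) ∧
      HasDt a b u (fun t x => (m t).lap (u t) x + V t x * u t x + f t x) ∧ u a = u0 := by
  obtain ⟨u, h1, h2⟩ := P.linS n M ℝ a b _ (heatQ hm hV) u0 f hab (heatQ_lin hm hV) h0 hf
  exact ⟨u, h2.sm, h2.eqn, h1⟩

/-- **backward equation** `∂ₜ u = -Δ u + V u + f` with prescribed final value -/
theorem back_exists {m : ℝ → Met n M} {a b : ℝ} (hab : a < b) (hm : SmFam m (Icc a b))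
    {V f : ℝ → M → ℝ} (hV : SmST n V (Icc a b)) (hf : SmST n f (Icc a b)) {u0 : M → ℝ}
    (h0 : Sm n u0) : ∃ u : ℝ → M → ℝ, SmST n u (Icc a b) ∧
      HasDt a b u (fun t x => -(m t).lap (u t) x + V t x * u t x + f t x) ∧ u b = u0 := by
  have hσ : ContDiffOn ℝ ∞ (fun t : ℝ => a + b - t) (Icc a b) := by fun_prop
  have hI : ∀ t ∈ Icc a b, a + b - t ∈ Icc a b := fun t ht =>
    ⟨by linarith [ht.2], by linarith [ht.1]⟩
  obtain ⟨w, h1, h2, h3⟩ := heat_exists hab (hm.comp_time hσ hI) (hV.comp_time hσ hI).neg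
    (hf.comp_time hσ hI).neg h0
  refine ⟨fun t => w (a + b - t), h1.comp_time hσ hI, fun t ht x => ?_, by simpa using h3⟩
  have h4 : HasDerivWithinAt (fun t : ℝ => a + b - t) (-1) (Icc a b) t :=
    (hasDerivWithinAt_id t _).const_sub (a + b)
  have h5 := (h2 _ (hI t ht) x).scomp t h4 hI
  refine HasDerivWithinAt.congr_deriv h5 ?_
  simp only [smul_eq_mul, sub_sub_cancel]
  ring

end Crest.Agent.N207

namespace Crest.Agent.N207.Flow

variable {M : Type*} [TopologicalSpace M] [ChartedSpace E4 M] [IsManifold 𝓘(ℝ, E4) ∞ M]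
  [T3Space M] [CompactSpace M] [ConnectedSpace M] [MeasurableSpace M] [BorelSpace M]
  (F : Flow M)

theorem sm_Icc {a b : ℝ} (h : F.hc.St a b) : SmFam F.m (Icc a b) :=
  F.sm.mono' fun _ ht => ⟨h.1.le.trans ht.1, ht.2.trans_lt h.2.2⟩

theorem hc_solv2 : F.hc.Solv2 := by
  intro a b f u0 h hf h0
  obtain ⟨u, h1, h2, h3⟩ := heat_exists h.2.1 (F.sm_Icc h) (V := fun _ _ => 0)
    (smST_const contMDiff_const _) hf h0
  simp only [zero_mul, add_zero] at h2
  exact ⟨u, h1, h2, h3⟩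

theorem hc_solv : F.hc.Solv := by
  refine ⟨fun {a b u0} h h0 => ?_, fun {a b u0} h h0 => ?_⟩
  · obtain ⟨u, h1, h2, h3⟩ := heat_exists h.2.1 (F.sm_Icc h) (V := fun _ _ => 0)
      (f := fun _ _ => 0) (smST_const contMDiff_const _) (smST_const contMDiff_const _) h0
    simp only [zero_mul, add_zero] at h2
    exact ⟨u, ⟨h1, h2⟩, h3⟩
  · obtain ⟨u, h1, h2, h3⟩ := back_exists h.2.1 (F.sm_Icc h) (F.sm_Icc h).scal
      (f := fun _ _ => 0) (smST_const contMDiff_const _) h0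
    simp only [add_zero] at h2
    exact ⟨u, ⟨h1, h2⟩, h3⟩

end Crest.Agent.N207.Flow
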